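import Vale.Agent.P356.NA.Defs

/-!
Functions of a Hermitian matrix through its eigenbasis.
-/

set_option linter.all false

namespace Vale.Agent.P356.NA

open Matrix Finset Vale.Agent.P356 Vale.Agent.P356.SV Vale.Agent.P356.Path
open scoped BigOperators ComplexOrder Kronecker

section spow
variable {N : Type*} [Fintype N] [DecidableEq N]

/-- eigenvector unitary -/
noncomputable def naU {H : Matrix N N ℂ} (hH : H.IsHermitian) : Matrix N N ℂ :=
  (hH.eigenvectorUnitary : Matrix N N ℂ)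

theorem na_spow_UU {H : Matrix N N ℂ} (hH : H.IsHermitian) : naU hH * (naU hH)ᴴ = 1 := by
  have := hH.eigenvectorUnitary.2
  rw [Matrix.mem_unitaryGroup_iff] at this
  exact this

theorem na_spow_UU' {H : Matrix N N ℂ} (hH : H.IsHermitian) : (naU hH)ᴴ * naU hH = 1 :=
  mul_eq_one_comm.mp (na_spow_UU hH)

/-- function of a Hermitian matrix through its eigenbasis -/
noncomputable def naF {H : Matrix N N ℂ} (hH : H.IsHermitian) (f : N → ℝ) : Matrix N N ℂ :=
  naU hH * diagonal (fun i => (f i : ℂ)) * (naU hH)ᴴ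

theorem na_spow_spec {H : Matrix N N ℂ} (hH : H.IsHermitian) : H = naF hH hH.eigenvalues := by
  have h1 : (naU hH)ᴴ * H * naU hH = diagonal (fun i => (hH.eigenvalues i : ℂ)) := by
    have := hH.conjStarAlgAut_star_eigenvectorUnitary
    rw [Unitary.conjStarAlgAut_star_apply] at this
    exact this
  have h := na_spow_UU hH
  rw [naF, ← h1]
  calc H = (naU hH * (naU hH)ᴴ) * H * (naU hH * (naU hH)ᴴ) := by
        rw [h, Matrix.one_mul, Matrix.mul_one]
    _ = _ := by simp only [Matrix.mul_assoc]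

theorem na_spow_mul {H : Matrix N N ℂ} (hH : H.IsHermitian) (f g : N → ℝ) :
    naF hH f * naF hH g = naF hH (fun i => f i * g i) := by
  have h := na_spow_UU' hH
  rw [naF, naF, naF]
  calc naU hH * diagonal (fun i => (f i : ℂ)) * (naU hH)ᴴ *
      (naU hH * diagonal (fun i => (g i : ℂ)) * (naU hH)ᴴ) =
      naU hH * (diagonal (fun i => (f i : ℂ)) * ((naU hH)ᴴ * naU hH) *
        diagonal (fun i => (g i : ℂ))) * (naU hH)ᴴ := by simp only [Matrix.mul_assoc]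
    _ = _ := by
      rw [h, Matrix.mul_one, Matrix.diagonal_mul_diagonal]
      simp only [Complex.ofReal_mul]

theorem na_spow_one {H : Matrix N N ℂ} (hH : H.IsHermitian) : naF hH (fun _ => 1) = 1 := by
  rw [naF]
  simp only [Complex.ofReal_one, diagonal_one, Matrix.mul_one]
  exact na_spow_UU hH

theorem na_spow_sub {H : Matrix N N ℂ} (hH : H.IsHermitian) (f g : N → ℝ) :
    naF hH f - naF hH g = naF hH (fun i => f i - g i) := by
  rw [naF, naF, naF, ← Matrix.sub_mul, ← Matrix.mul_sub, diagonal_sub]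
  simp only [Complex.ofReal_sub]

theorem na_spow_smul {H : Matrix N N ℂ} (hH : H.IsHermitian) (c : ℝ) (f : N → ℝ) :
    (c : ℂ) • naF hH f = naF hH (fun i => c * f i) := by
  rw [naF, naF, ← Matrix.smul_mul, ← Matrix.mul_smul, ← diagonal_smul]
  congr 3
  funext i
  simp

theorem na_spow_pow {H : Matrix N N ℂ} (hH : H.IsHermitian) (f : N → ℝ) (a : ℕ) :
    naF hH f ^ a = naF hH (fun i => f i ^ a) := by
  induction a with
  | zero => simp only [pow_zero]; exact (na_spow_one hH).symm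
  | succ a ih => rw [pow_succ, ih, na_spow_mul]; simp only [pow_succ]

theorem na_spow_conj {H : Matrix N N ℂ} (hH : H.IsHermitian) (f : N → ℝ) :
    (naF hH f)ᴴ = naF hH f := by
  rw [naF, conjTranspose_mul, conjTranspose_mul, conjTranspose_conjTranspose,
    diagonal_conjTranspose, Matrix.mul_assoc]
  congr 3
  funext i
  simp

theorem na_spow_nsq_star (φ : N → ℂ) : star φ ⬝ᵥ φ = ((nsq φ : ℝ) : ℂ) := by
  rw [nsq, dotProduct]
  push_cast
  refine Finset.sum_congr rfl fun i _ => ?_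
  rw [Pi.star_apply, Complex.star_def, Complex.conj_mul']

/-- weights in the eigenbasis -/
noncomputable def naW {H : Matrix N N ℂ} (hH : H.IsHermitian) (ψ : N → ℂ) (i : N) : ℝ :=
  ‖((naU hH)ᴴ *ᵥ ψ) i‖ ^ 2

theorem na_spow_en {H : Matrix N N ℂ} (hH : H.IsHermitian) (f : N → ℝ) (ψ : N → ℂ) :
    star ψ ⬝ᵥ (naF hH f *ᵥ ψ) = ((∑ i, f i * naW hH ψ i : ℝ) : ℂ) := by
  have h1 : naF hH f *ᵥ ψ = naU hH *ᵥ (diagonal (fun i => (f i : ℂ)) *ᵥ ((naU hH)ᴴ *ᵥ ψ)) := by
    rw [naF, ← Matrix.mulVec_mulVec, ← Matrix.mulVec_mulVec]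
  rw [h1, Matrix.dotProduct_mulVec]
  have h2 : star ψ ᵥ* naU hH = star ((naU hH)ᴴ *ᵥ ψ) := by
    rw [Matrix.star_mulVec, conjTranspose_conjTranspose]
  rw [h2, dotProduct]
  push_cast
  refine Finset.sum_congr rfl fun i _ => ?_
  rw [mulVec_diagonal, Pi.star_apply, Complex.star_def, naW]
  push_cast
  rw [← Complex.conj_mul']
  ring

theorem na_spow_nsq {H : Matrix N N ℂ} (hH : H.IsHermitian) (f : N → ℝ) (ψ : N → ℂ) :
    nsq (naF hH f *ᵥ ψ) = ∑ i, f i ^ 2 * naW hH ψ i := by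
  have h1 : star (naF hH f *ᵥ ψ) ⬝ᵥ (naF hH f *ᵥ ψ) = star ψ ⬝ᵥ (naF hH (fun i => f i ^ 2) *ᵥ ψ) := by
    rw [Matrix.star_mulVec, ← Matrix.dotProduct_mulVec, na_spow_conj, Matrix.mulVec_mulVec,
      na_spow_mul]
    simp only [pow_two]
  rw [na_spow_nsq_star, na_spow_en] at h1
  exact_mod_cast h1

theorem na_spow_nsq_one {H : Matrix N N ℂ} (hH : H.IsHermitian) (ψ : N → ℂ) :
    nsq ψ = ∑ i, naW hH ψ i := by
  have h := na_spow_nsq hH (fun _ => 1) ψ
  rw [na_spow_one, Matrix.one_mulVec] at h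
  rw [h]
  simp

theorem na_spow_W_nonneg {H : Matrix N N ℂ} (hH : H.IsHermitian) (ψ : N → ℂ) (i : N) :
    0 ≤ naW hH ψ i := by
  rw [naW]; positivity

/-- eigenvector -/
theorem na_spow_vec {H : Matrix N N ℂ} (hH : H.IsHermitian) (i : N) :
    ∃ ψ : N → ℂ, ∀ j, naW hH ψ j = if j = i then 1 else 0 := by
  refine ⟨naU hH *ᵥ Pi.single i 1, fun j => ?_⟩
  rw [naW, Matrix.mulVec_mulVec, na_spow_UU', Matrix.one_mulVec]
  by_cases h : j = i
  · subst h; simp
  · simp [h]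

theorem na_spow_en_eq {H : Matrix N N ℂ} (hH : H.IsHermitian) (ψ : N → ℂ) :
    en H ψ = ∑ i, hH.eigenvalues i * naW hH ψ i := by
  have h := na_spow_en hH hH.eigenvalues ψ
  rw [← na_spow_spec hH] at h
  rw [en, h, Complex.ofReal_re]

theorem na_spow_nsq_eq {H : Matrix N N ℂ} (hH : H.IsHermitian) (ψ : N → ℂ) :
    nsq (H *ᵥ ψ) = ∑ i, hH.eigenvalues i ^ 2 * naW hH ψ i := by
  have h := na_spow_nsq hH hH.eigenvalues ψ
  rw [← na_spow_spec hH] at h
  exact h

theorem na_spow_ev_nonneg {H : Matrix N N ℂ} (hH : H.IsHermitian) (hpos : ∀ ψ, 0 ≤ en H ψ) (i : N) :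
    0 ≤ hH.eigenvalues i := by
  obtain ⟨ψ, hψ⟩ := na_spow_vec hH i
  have h := hpos ψ
  rw [na_spow_en_eq hH] at h
  simpa [hψ] using h

theorem na_spow_ev_gap {H : Matrix N N ℂ} (hH : H.IsHermitian) {Δ : ℝ}
    (hpos : ∀ ψ, 0 ≤ en H ψ) (hgap : ∀ ψ, Δ * en H ψ ≤ nsq (H *ᵥ ψ)) (i : N)
    (hi : hH.eigenvalues i ≠ 0) : Δ ≤ hH.eigenvalues i := by
  obtain ⟨ψ, hψ⟩ := na_spow_vec hH i
  have h := hgap ψ
  rw [na_spow_en_eq hH, na_spow_nsq_eq hH] at h
  have h' : Δ * hH.eigenvalues i ≤ hH.eigenvalues i ^ 2 := by simpa [hψ] using h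
  have h0 : 0 < hH.eigenvalues i :=
    lt_of_le_of_ne (na_spow_ev_nonneg hH hpos i) (Ne.symm hi)
  rw [pow_two] at h'
  exact le_of_mul_le_mul_right h' h0

theorem na_spow_ev_le {H : Matrix N N ℂ} (hH : H.IsHermitian) {h0 : ℝ} (hn : OpNormLe H h0)
    (hh : 0 ≤ h0) (i : N) : hH.eigenvalues i ≤ h0 := by
  obtain ⟨ψ, hψ⟩ := na_spow_vec hH i
  have h := hn ψ
  rw [na_spow_nsq_eq hH, na_spow_nsq_one hH] at h
  have h' : hH.eigenvalues i ^ 2 ≤ h0 ^ 2 := by simpa [hψ] using h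
  exact le_trans (le_abs_self _) (abs_le_of_sq_le_sq h' hh)

theorem na_spow_bound {H : Matrix N N ℂ} (hH : H.IsHermitian) (f : N → ℝ) {c : ℝ}
    (hf : ∀ i, |f i| ≤ c) : OpNormLe (naF hH f) c := by
  intro ψ
  rw [na_spow_nsq, na_spow_nsq_one hH ψ, Finset.mul_sum]
  refine Finset.sum_le_sum fun i _ => mul_le_mul_of_nonneg_right ?_ (na_spow_W_nonneg hH ψ i)
  rw [← sq_abs (f i)]
  exact pow_le_pow_left₀ (abs_nonneg _) (hf i) 2

theorem na_spow_pow_eq {H : Matrix N N ℂ} (hH : H.IsHermitian) (δ : ℝ) (a : ℕ) :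
    (1 - (δ : ℂ) • H) ^ a = naF hH (fun i => (1 - δ * hH.eigenvalues i) ^ a) := by
  have h1 : (1 - (δ : ℂ) • H) = naF hH (fun i => 1 - δ * hH.eigenvalues i) := by
    conv_lhs => rw [na_spow_spec hH, na_spow_smul, ← na_spow_one hH, na_spow_sub]
  rw [h1, na_spow_pow]

end spow

end Vale.Agent.P356.NA
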