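import Vale.Agent.P356.SV.Tilt5
import Vale.Agent.P356.SV.Lattice

/-!
Definitions for the near-area law of frustration free, locally gapped Hamiltonians.
-/

set_option linter.all false

namespace Vale.Agent.P356.NA

open Matrix Finset Vale.Agent.P356 Vale.Agent.P356.SV Vale.Agent.P356.Path
open scoped BigOperators ComplexOrder Kronecker

/-- energy of a vector -/
noncomputable def en {N : Type*} [Fintype N] (H : Matrix N N ℂ) (ψ : N → ℂ) : ℝ :=
  (star ψ ⬝ᵥ (H *ᵥ ψ)).re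

/-- clipped minus logarithm -/
noncomputable def rcl (m s : ℝ) : ℝ := if s ≤ Real.exp (-m) then m else max 0 (-Real.log s)

/-- rank at most `r` along the first factor of a splitting -/
def LR {N α β : Type*} [Fintype N] [DecidableEq N] [Fintype α] [DecidableEq α] [Fintype β]
    [DecidableEq β] (e : N ≃ α × β) (φ : N → ℂ) (r : ℝ) : Prop :=
  ∃ E : Matrix α α ℂ, IsPr E ∧ E.trace.re ≤ r ∧ opL e E *ᵥ φ = φ

section var
variable {N : Type} [Fintype N] [DecidableEq N] {α β : ℕ → Type}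
  [∀ k, Fintype (α k)] [∀ k, DecidableEq (α k)] [∀ k, Fintype (β k)] [∀ k, DecidableEq (β k)]

/-- the penalty of the reversed tilt -/
noncomputable def penR (θ : ℕ → ℝ) (n : ℕ) (π : ∀ k, Par α k) : ℝ :=
  ∑ k ∈ range n, 2 * θ k * ∑ i, Real.exp (-((π k).2 i))

/-- some amplifier keeps the vector and the penalty small -/
def Good (e : ∀ k, N ≃ α k × β k) (θ : ℕ → ℝ) (n : ℕ) (m : ℝ) (χ : N → ℂ) (c : ℝ) : Prop :=
  ∃ π ∈ Feas α m, nsq (vv e θ χ n 1 π) * Real.exp (penR θ n π) ≤ Real.exp c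

/-- growth at most `g` -/
def Gro (e : ∀ k, N ≃ α k × β k) (θ : ℕ → ℝ) (n : ℕ) (m : ℝ) (M : Matrix N N ℂ) (g : ℝ) : Prop :=
  ∀ (χ : N → ℂ) (c : ℝ), Good e θ n m χ c → Good e θ n m (M *ᵥ χ) (c + g)

/-- a sum of at most `D` matrices of growth at most `g`, with coefficients of modulus at most 1 -/
def Rep (e : ∀ k, N ≃ α k × β k) (θ : ℕ → ℝ) (n : ℕ) (m : ℝ) (K : Matrix N N ℂ) (D g : ℝ) : Prop :=
  ∃ (r : ℕ) (M : Fin r → Matrix N N ℂ) (ε : Fin r → ℂ), (r : ℝ) ≤ D ∧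
    (∀ i, ‖ε i‖ ≤ 1 ∧ Gro e θ n m (M i) g) ∧ K = ∑ i, ε i • M i

end var

section lattice

/-- The restriction of the Hamiltonian to the region `B`. -/
noncomputable def HB {L q : ℕ} (h : Finset (Site L) → Op (Site L) q) (B : Finset (Site L)) :
    Op (Site L) q := ∑ X ∈ Finset.univ.filter (fun X : Finset (Site L) => X ⊆ B), h X

/-- Frustration free Hamiltonians with a local gap: the terms are nonnegative and annihilate the
ground state, and for every rectangle `B` the restriction to `B` has no eigenvalue strictly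
between `0` and `Δ` (expressed as `Δ H_B ≤ H_B ^ 2`). -/
structure FFLG (L q R : ℕ) (J Δ : ℝ) (h : Finset (Site L) → Op (Site L) q)
    (Ω : Conf (Site L) q → ℂ) : Prop where
  herm : ∀ X, (h X).IsHermitian
  loc : ∀ X, ActsOn X (h X)
  norm : ∀ X, OpNormLe (h X) J
  range : ∀ X, h X ≠ 0 → X.Nonempty ∧ ∀ x ∈ X, ∀ y ∈ X, dist1 x y ≤ R
  pos : ∀ X ψ, 0 ≤ (star ψ ⬝ᵥ (h X *ᵥ ψ)).re
  unit : nsq Ω = 1
  free : ∀ X, h X *ᵥ Ω = 0
  uniq : ∀ ψ, (∀ X, h X *ᵥ ψ = 0) → ∃ c : ℂ, ψ = c • Ω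
  gap : ∀ (x0 x1 y0 y1 : ℕ) (ψ : Conf (Site L) q → ℂ),
    Δ * (star ψ ⬝ᵥ (HB h (rect L x0 x1 y0 y1) *ᵥ ψ)).re ≤ nsq (HB h (rect L x0 x1 y0 y1) *ᵥ ψ)

end lattice

end Vale.Agent.P356.NA
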