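import Vale.Agent.P356.NA.Defs

/-!
Calculus for operator norm bounds, growth and signed sums (`OpNormLe`, `Good`, `Gro`, `Rep`).
-/

set_option linter.all false

namespace Vale.Agent.P356.NA

open Matrix Finset Vale.Agent.P356 Vale.Agent.P356.SV Vale.Agent.P356.Path
open scoped BigOperators ComplexOrder Kronecker

/-! ### operator norm -/

section opnorm
variable {N : Type*} [Fintype N] {A B : Matrix N N ℂ} {a b : ℝ}

theorem onl_nrm (h : OpNormLe A a) (ha : 0 ≤ a) (ψ : N → ℂ) :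
    nrm (A *ᵥ ψ) ≤ a * nrm ψ := by
  have h1 : nrm (A *ᵥ ψ) ^ 2 ≤ (a * nrm ψ) ^ 2 := by
    rw [nrm_sq, mul_pow, nrm_sq]
    exact h ψ
  exact (sq_le_sq₀ (nrm_nonneg _) (mul_nonneg ha (nrm_nonneg _))).mp h1

theorem onl_of_nrm (h : ∀ ψ, nrm (A *ᵥ ψ) ≤ a * nrm ψ) : OpNormLe A a := by
  intro ψ
  have h1 := pow_le_pow_left₀ (nrm_nonneg _) (h ψ) 2
  rwa [nrm_sq, mul_pow, nrm_sq] at h1

theorem onl_mono (h : OpNormLe A a) (ha : 0 ≤ a) (hab : a ≤ b) : OpNormLe A b := fun ψ =>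
  (h ψ).trans (mul_le_mul_of_nonneg_right (pow_le_pow_left₀ ha hab 2) (nsq_nonneg' _))

theorem onl_zero (b : ℝ) : OpNormLe (0 : Matrix N N ℂ) b := by
  intro ψ
  have h0 : nsq (0 : N → ℂ) = 0 := by simp [nsq]
  rw [Matrix.zero_mulVec, h0]
  exact mul_nonneg (sq_nonneg _) (nsq_nonneg' _)

theorem onl_one [DecidableEq N] : OpNormLe (1 : Matrix N N ℂ) 1 := by
  intro ψ
  rw [Matrix.one_mulVec]
  linarith

theorem onl_add (hA : OpNormLe A a) (hB : OpNormLe B b) (ha : 0 ≤ a) (hb : 0 ≤ b) :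
    OpNormLe (A + B) (a + b) := by
  refine onl_of_nrm fun ψ => ?_
  rw [add_mulVec]
  refine (nrm_add_le _ _).trans ?_
  rw [add_mul]
  exact add_le_add (onl_nrm hA ha ψ) (onl_nrm hB hb ψ)

theorem onl_smul (c : ℂ) (hA : OpNormLe A a) (ha : 0 ≤ a) : OpNormLe (c • A) (‖c‖ * a) := by
  refine onl_of_nrm fun ψ => ?_
  rw [smul_mulVec, nrm_smul, mul_assoc]
  exact mul_le_mul_of_nonneg_left (onl_nrm hA ha ψ) (norm_nonneg _)

theorem onl_neg (hA : OpNormLe A a) : OpNormLe (-A) a := by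
  intro ψ
  rw [neg_mulVec]
  have : nsq (-(A *ᵥ ψ)) = nsq (A *ᵥ ψ) := by simp [nsq]
  rw [this]
  exact hA ψ

theorem onl_sub (hA : OpNormLe A a) (hB : OpNormLe B b) (ha : 0 ≤ a) (hb : 0 ≤ b) :
    OpNormLe (A - B) (a + b) := by
  rw [sub_eq_add_neg]
  exact onl_add hA (onl_neg hB) ha hb

theorem onl_sub_comm (hA : OpNormLe (A - B) a) : OpNormLe (B - A) a := by
  have := onl_neg hA
  rwa [neg_sub] at this

theorem onl_mul (hA : OpNormLe A a) (hB : OpNormLe B b) : OpNormLe (A * B) (a * b) := by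
  intro ψ
  rw [← mulVec_mulVec]
  calc nsq (A *ᵥ (B *ᵥ ψ)) ≤ a ^ 2 * nsq (B *ᵥ ψ) := hA _
    _ ≤ a ^ 2 * (b ^ 2 * nsq ψ) := mul_le_mul_of_nonneg_left (hB _) (sq_nonneg _)
    _ = (a * b) ^ 2 * nsq ψ := by ring

theorem onl_pow [DecidableEq N] (hA : OpNormLe A a) (k : ℕ) : OpNormLe (A ^ k) (a ^ k) := by
  induction k with
  | zero => rw [pow_zero, pow_zero]; exact onl_one
  | succ k ih => rw [pow_succ, pow_succ]; exact onl_mul ih hA

theorem onl_conjTranspose (hA : OpNormLe A a) (ha : 0 ≤ a) : OpNormLe Aᴴ a := by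
  refine onl_of_nrm fun ψ => ?_
  rcases (nrm_nonneg (Aᴴ *ᵥ ψ)).eq_or_lt with h0 | h0
  · rw [← h0]; exact mul_nonneg ha (nrm_nonneg _)
  · -- |A* ψ|² = <A A* ψ, ψ> ≤ |A A* ψ| |ψ| ≤ a |A* ψ| |ψ|
    have h1 : nrm (Aᴴ *ᵥ ψ) ^ 2 ≤ nrm (A *ᵥ (Aᴴ *ᵥ ψ)) * nrm ψ := by
      have e : star (A *ᵥ (Aᴴ *ᵥ ψ)) ⬝ᵥ ψ = ((nsq (Aᴴ *ᵥ ψ) : ℝ) : ℂ) := by
        rw [ip_mulVec, ip_self]
      rw [nrm_sq]
      have h2 := nrm_ip_le (A *ᵥ (Aᴴ *ᵥ ψ)) ψ
      rw [e, Complex.norm_real, Real.norm_eq_abs, abs_of_nonneg (nsq_nonneg' _)] at h2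
      exact h2
    have h2 := onl_nrm hA ha (Aᴴ *ᵥ ψ)
    have h3 : nrm (Aᴴ *ᵥ ψ) * nrm (Aᴴ *ᵥ ψ) ≤ nrm (Aᴴ *ᵥ ψ) * (a * nrm ψ) := by
      calc nrm (Aᴴ *ᵥ ψ) * nrm (Aᴴ *ᵥ ψ) = nrm (Aᴴ *ᵥ ψ) ^ 2 := by ring
        _ ≤ nrm (A *ᵥ (Aᴴ *ᵥ ψ)) * nrm ψ := h1
        _ ≤ (a * nrm (Aᴴ *ᵥ ψ)) * nrm ψ := mul_le_mul_of_nonneg_right h2 (nrm_nonneg _)
        _ = _ := by ring
    exact le_of_mul_le_mul_left h3 h0

theorem onl_sum {ι : Type*} (s : Finset ι) (F : ι → Matrix N N ℂ) (c : ι → ℝ)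
    (h : ∀ i ∈ s, OpNormLe (F i) (c i)) (hc : ∀ i ∈ s, 0 ≤ c i) :
    OpNormLe (∑ i ∈ s, F i) (∑ i ∈ s, c i) := by
  classical
  induction s using Finset.induction_on with
  | empty => simpa using onl_zero 0
  | insert i s hi ih =>
    rw [Finset.sum_insert hi, Finset.sum_insert hi]
    exact onl_add (h i (Finset.mem_insert_self i s))
      (ih (fun j hj => h j (Finset.mem_insert_of_mem hj))
        (fun j hj => hc j (Finset.mem_insert_of_mem hj)))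
      (hc i (Finset.mem_insert_self i s))
      (Finset.sum_nonneg fun j hj => hc j (Finset.mem_insert_of_mem hj))

/-- projections are contractions -/
theorem onl_isPr [DecidableEq N] {Q : Matrix N N ℂ} (hQ : IsPr Q) : OpNormLe Q 1 := by
  refine onl_of_nrm fun ψ => ?_
  rw [one_mul]
  rcases (nrm_nonneg (Q *ᵥ ψ)).eq_or_lt with h0 | h0
  · rw [← h0]; exact nrm_nonneg _
  · have h1 : nrm (Q *ᵥ ψ) ^ 2 ≤ nrm ψ * nrm (Q *ᵥ ψ) := by
      rw [nrm_sq, nsq_isPr hQ]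
      exact (Complex.re_le_norm _).trans (nrm_ip_le _ _)
    have h2 : nrm (Q *ᵥ ψ) * nrm (Q *ᵥ ψ) ≤ nrm (Q *ᵥ ψ) * nrm ψ := by nlinarith
    exact le_of_mul_le_mul_left h2 h0

theorem onl_prR [DecidableEq N] (W : ℕ → Matrix N N ℂ) (m : ℕ) (h : ∀ i < m, OpNormLe (W i) 1) :
    OpNormLe (prR W m) 1 := by
  induction m with
  | zero => exact onl_one
  | succ m ih =>
    have := onl_mul (ih fun i hi => h i (Nat.lt_succ_of_lt hi)) (h m (Nat.lt_succ_self m))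
    rwa [one_mul] at this

/-- telescoping for products of contractions -/
theorem onl_prR_sub [DecidableEq N] (W W' : ℕ → Matrix N N ℂ) (m : ℕ) {η : ℝ} (hη : 0 ≤ η)
    (h : ∀ i < m, OpNormLe (W i) 1) (h' : ∀ i < m, OpNormLe (W' i) 1)
    (hd : ∀ i < m, OpNormLe (W i - W' i) η) : OpNormLe (prR W m - prR W' m) (m * η) := by
  induction m with
  | zero => rw [prR, prR, sub_self]; exact onl_zero _
  | succ m ih =>
    have h1 := ih (fun i hi => h i (Nat.lt_succ_of_lt hi)) (fun i hi => h' i (Nat.lt_succ_of_lt hi))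
      (fun i hi => hd i (Nat.lt_succ_of_lt hi))
    have e : prR W (m + 1) - prR W' (m + 1) =
        (prR W m - prR W' m) * W m + prR W' m * (W m - W' m) := by
      rw [prR, prR]; noncomm_ring
    rw [e]
    have h2 := onl_mul h1 (h m (Nat.lt_succ_self m))
    have h3 := onl_mul (onl_prR W' m fun i hi => h' i (Nat.lt_succ_of_lt hi))
      (hd m (Nat.lt_succ_self m))
    have h4 := onl_add h2 h3 (by positivity) (by positivity)
    have e2 : (m : ℝ) * η * 1 + 1 * η = ((m + 1 : ℕ) : ℝ) * η := by push_cast; ring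
    rwa [e2] at h4

theorem prR_fix [DecidableEq N] (W : ℕ → Matrix N N ℂ) (m : ℕ) {Ω : N → ℂ}
    (h : ∀ i < m, W i *ᵥ Ω = Ω) : prR W m *ᵥ Ω = Ω := by
  induction m with
  | zero => exact Matrix.one_mulVec _
  | succ m ih =>
    rw [prR, ← mulVec_mulVec, h m (Nat.lt_succ_self m)]
    exact ih fun i hi => h i (Nat.lt_succ_of_lt hi)

theorem prR_fix_adj [DecidableEq N] (W : ℕ → Matrix N N ℂ) (m : ℕ) {Ω : N → ℂ}
    (h : ∀ i < m, (W i)ᴴ *ᵥ Ω = Ω) : (prR W m)ᴴ *ᵥ Ω = Ω := by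
  induction m with
  | zero => rw [prR, conjTranspose_one]; exact Matrix.one_mulVec _
  | succ m ih =>
    rw [prR, conjTranspose_mul, ← mulVec_mulVec, ih fun i hi => h i (Nat.lt_succ_of_lt hi)]
    exact h m (Nat.lt_succ_self m)

theorem pow_fix [DecidableEq N] (W : Matrix N N ℂ) (k : ℕ) {Ω : N → ℂ} (h : W *ᵥ Ω = Ω) :
    (W ^ k) *ᵥ Ω = Ω := by
  induction k with
  | zero => rw [pow_zero]; exact Matrix.one_mulVec _
  | succ k ih => rw [pow_succ, ← mulVec_mulVec, h, ih]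

end opnorm

/-! ### growth and signed sums -/

section rep
variable {N : Type} [Fintype N] [DecidableEq N] {α β : ℕ → Type}
  [∀ k, Fintype (α k)] [∀ k, DecidableEq (α k)] [∀ k, Fintype (β k)] [∀ k, DecidableEq (β k)]
  {e : ∀ k, N ≃ α k × β k} {θ : ℕ → ℝ} {n : ℕ} {m : ℝ}

theorem Good.mono {χ : N → ℂ} {c c' : ℝ} (h : Good e θ n m χ c) (hc : c ≤ c') :
    Good e θ n m χ c' := by
  obtain ⟨π, hπ, h1⟩ := h
  exact ⟨π, hπ, h1.trans (Real.exp_le_exp.mpr hc)⟩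

theorem Good.smul {χ : N → ℂ} {c : ℝ} (h : Good e θ n m χ c) {z : ℂ} (hz : ‖z‖ ≤ 1) :
    Good e θ n m (z • χ) c := by
  obtain ⟨π, hπ, h1⟩ := h
  refine ⟨π, hπ, le_trans ?_ h1⟩
  refine mul_le_mul_of_nonneg_right ?_ (Real.exp_pos _).le
  have e1 : vv e θ (z • χ) n 1 π = z • vv e θ χ n 1 π := by
    unfold vv
    rw [mulVec_smul]
  rw [e1, nsq_smul]
  have h2 : ‖z‖ ^ 2 ≤ 1 := pow_le_one₀ (norm_nonneg _) hz
  calc ‖z‖ ^ 2 * nsq (vv e θ χ n 1 π) ≤ 1 * nsq (vv e θ χ n 1 π) :=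
        mul_le_mul_of_nonneg_right h2 (nsq_nonneg' _)
    _ = _ := one_mul _

/-- general scalars -/
theorem Good.smul' {χ : N → ℂ} {c : ℝ} (h : Good e θ n m χ c) {z : ℂ} {t : ℝ}
    (hz : ‖z‖ ^ 2 ≤ Real.exp t) : Good e θ n m (z • χ) (c + t) := by
  obtain ⟨π, hπ, h1⟩ := h
  refine ⟨π, hπ, ?_⟩
  have e1 : vv e θ (z • χ) n 1 π = z • vv e θ χ n 1 π := by
    unfold vv
    rw [mulVec_smul]
  rw [e1, nsq_smul, Real.exp_add]
  calc ‖z‖ ^ 2 * nsq (vv e θ χ n 1 π) * Real.exp (penR θ n π)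
      = ‖z‖ ^ 2 * (nsq (vv e θ χ n 1 π) * Real.exp (penR θ n π)) := by ring
    _ ≤ Real.exp t * Real.exp c := mul_le_mul hz h1
        (mul_nonneg (nsq_nonneg' _) (Real.exp_pos _).le) (Real.exp_pos _).le
    _ = _ := mul_comm _ _

variable {A B : Matrix N N ℂ} {g g' D D' : ℝ}

theorem Gro.mono (h : Gro e θ n m A g) (hg : g ≤ g') : Gro e θ n m A g' := fun χ c hχ =>
  (h χ c hχ).mono (by linarith)

theorem Gro_one (hg : 0 ≤ g) : Gro e θ n m (1 : Matrix N N ℂ) g := fun χ c hχ => by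
  rw [Matrix.one_mulVec]
  exact hχ.mono (by linarith)

theorem Gro.mul (hA : Gro e θ n m A g) (hB : Gro e θ n m B g') :
    Gro e θ n m (A * B) (g + g') := fun χ c hχ => by
  rw [← mulVec_mulVec]
  have := hA _ _ (hB _ _ hχ)
  exact this.mono (by linarith)

theorem Gro.smul (hA : Gro e θ n m A g) {z : ℂ} (hz : ‖z‖ ≤ 1) : Gro e θ n m (z • A) g :=
  fun χ c hχ => by
  rw [smul_mulVec]
  exact (hA _ _ hχ).smul hz

theorem Gro.pow (hA : Gro e θ n m A g) (k : ℕ) : Gro e θ n m (A ^ k) (k * g) := by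
  induction k with
  | zero => rw [pow_zero]; exact Gro_one (by simp)
  | succ k ih =>
    rw [pow_succ]
    exact (ih.mul hA).mono (by push_cast; linarith)

theorem Gro_prR (W : ℕ → Matrix N N ℂ) (k : ℕ) (gW : ℕ → ℝ)
    (h : ∀ i < k, Gro e θ n m (W i) (gW i)) :
    Gro e θ n m (prR W k) (∑ i ∈ range k, gW i) := by
  induction k with
  | zero => exact Gro_one (by simp)
  | succ k ih =>
    rw [prR, Finset.sum_range_succ]
    exact (ih fun i hi => h i (Nat.lt_succ_of_lt hi)).mul (h k (Nat.lt_succ_self k))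

theorem Rep.mono (h : Rep e θ n m A D g) (hD : D ≤ D') (hg : g ≤ g') :
    Rep e θ n m A D' g' := by
  obtain ⟨r, M, ε, h1, h2, h3⟩ := h
  exact ⟨r, M, ε, h1.trans hD, fun i => ⟨(h2 i).1, (h2 i).2.mono hg⟩, h3⟩

/-- sums over arbitrary finite types -/
theorem Rep.of_sum {ι : Type*} [Fintype ι] (M : ι → Matrix N N ℂ) (ε : ι → ℂ)
    (hD : (Fintype.card ι : ℝ) ≤ D) (h : ∀ i, ‖ε i‖ ≤ 1 ∧ Gro e θ n m (M i) g)
    (hA : A = ∑ i, ε i • M i) : Rep e θ n m A D g := by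
  let f := Fintype.equivFin ι
  refine ⟨Fintype.card ι, fun i => M (f.symm i), fun i => ε (f.symm i), hD, fun i => h _, ?_⟩
  rw [hA]
  exact (f.symm.sum_comp fun i => ε i • M i).symm

theorem Rep.of_gro (h : Gro e θ n m A g) (hD : 1 ≤ D) : Rep e θ n m A D g :=
  Rep.of_sum (ι := Unit) (fun _ => A) (fun _ => 1) (by simpa using hD)
    (fun _ => ⟨by simp, h⟩) (by simp)

theorem Rep_one (hg : 0 ≤ g) (hD : 1 ≤ D) : Rep e θ n m (1 : Matrix N N ℂ) D g :=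
  Rep.of_gro (Gro_one hg) hD

theorem Rep_zero (hD : 0 ≤ D) : Rep e θ n m (0 : Matrix N N ℂ) D g :=
  Rep.of_sum (ι := Empty) (fun i => i.elim) (fun i => i.elim) (by simpa using hD)
    (fun i => i.elim) (by simp)

theorem Rep.add (hA : Rep e θ n m A D g) (hB : Rep e θ n m B D' g) :
    Rep e θ n m (A + B) (D + D') g := by
  obtain ⟨r, M, ε, h1, h2, h3⟩ := hA
  obtain ⟨r', M', ε', h1', h2', h3'⟩ := hB
  refine Rep.of_sum (ι := Fin r ⊕ Fin r') (Sum.elim M M') (Sum.elim ε ε') ?_ ?_ ?_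
  · rw [Fintype.card_sum, Fintype.card_fin, Fintype.card_fin]
    push_cast
    exact add_le_add h1 h1'
  · rintro (i | i)
    · exact h2 i
    · exact h2' i
  · rw [h3, h3', Fintype.sum_sum_type]; rfl

theorem Rep.smul (hA : Rep e θ n m A D g) {z : ℂ} (hz : ‖z‖ ≤ 1) : Rep e θ n m (z • A) D g := by
  obtain ⟨r, M, ε, h1, h2, h3⟩ := hA
  refine ⟨r, M, fun i => z * ε i, h1, fun i => ⟨?_, (h2 i).2⟩, ?_⟩
  · rw [norm_mul]
    exact mul_le_one₀ hz (norm_nonneg _) (h2 i).1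
  · rw [h3, Finset.smul_sum]
    exact Finset.sum_congr rfl fun i _ => smul_smul _ _ _

theorem Rep.neg (hA : Rep e θ n m A D g) : Rep e θ n m (-A) D g := by
  have := hA.smul (z := -1) (by simp)
  rwa [neg_one_smul] at this

theorem Rep.sub (hA : Rep e θ n m A D g) (hB : Rep e θ n m B D' g) :
    Rep e θ n m (A - B) (D + D') g := by
  rw [sub_eq_add_neg]
  exact hA.add hB.neg

theorem Rep.mul (hA : Rep e θ n m A D g) (hB : Rep e θ n m B D' g') (hD : 0 ≤ D) :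
    Rep e θ n m (A * B) (D * D') (g + g') := by
  obtain ⟨r, M, ε, h1, h2, h3⟩ := hA
  obtain ⟨r', M', ε', h1', h2', h3'⟩ := hB
  refine Rep.of_sum (ι := Fin r × Fin r') (fun p => M p.1 * M' p.2) (fun p => ε p.1 * ε' p.2)
    ?_ ?_ ?_
  · rw [Fintype.card_prod, Fintype.card_fin, Fintype.card_fin]
    push_cast
    exact mul_le_mul h1 h1' (Nat.cast_nonneg _) hD
  · rintro ⟨i, j⟩
    exact ⟨by rw [norm_mul]; exact mul_le_one₀ (h2 i).1 (norm_nonneg _) (h2' j).1,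
      (h2 i).2.mul (h2' j).2⟩
  · rw [h3, h3', Finset.sum_mul_sum, Fintype.sum_prod_type]
    refine Finset.sum_congr rfl fun i _ => Finset.sum_congr rfl fun j _ => ?_
    rw [smul_mul_smul_comm]

theorem Rep.D_nonneg (hA : Rep e θ n m A D g) : 0 ≤ D := by
  obtain ⟨r, M, ε, h1, -, -⟩ := hA
  exact (Nat.cast_nonneg r).trans h1

theorem Rep.pow (hA : Rep e θ n m A D g) (k : ℕ) : Rep e θ n m (A ^ k) (D ^ k) (k * g) := by
  induction k with
  | zero => rw [pow_zero, pow_zero]; exact Rep_one (by simp) le_rfl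
  | succ k ih =>
    rw [pow_succ, pow_succ]
    exact (ih.mul hA (pow_nonneg hA.D_nonneg k)).mono le_rfl (by push_cast; linarith)

theorem Rep_prR (W : ℕ → Matrix N N ℂ) (k : ℕ) (DW gW : ℕ → ℝ)
    (h : ∀ i < k, Rep e θ n m (W i) (DW i) (gW i)) :
    Rep e θ n m (prR W k) (∏ i ∈ range k, DW i) (∑ i ∈ range k, gW i) := by
  induction k with
  | zero => exact Rep_one (by simp) (by simp)
  | succ k ih =>
    rw [prR, Finset.sum_range_succ, Finset.prod_range_succ]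
    exact (ih fun i hi => h i (Nat.lt_succ_of_lt hi)).mul (h k (Nat.lt_succ_self k))
      (Finset.prod_nonneg fun i hi =>
        (h i (Nat.lt_succ_of_lt (Finset.mem_range.mp hi))).D_nonneg)

end rep

end Vale.Agent.P356.NA
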