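import Vale.Agent.P356.NA.OptMin
import Vale.Agent.P356.NA.RepCalc

set_option linter.all false

/-!
The form of the minimisers of the reversed functional, and the growth bound for
`1 - δ H` when `H ≥ 0`.
-/

namespace Vale.Agent.P356.NA

open Matrix Finset Vale.Agent.P356 Vale.Agent.P356.SV Vale.Agent.P356.Path
open scoped BigOperators ComplexOrder Kronecker

/-! ### the clipped minus logarithm -/

theorem na_b_rcl_nonneg {m : ℝ} (hm : 0 ≤ m) (s : ℝ) : 0 ≤ rcl m s := by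
  rw [rcl]
  split_ifs
  · exact hm
  · exact le_max_left _ _

theorem na_b_rcl_eq {m s : ℝ} (hm : 0 ≤ m) (hs : 0 < s) :
    rcl m s = min m (max 0 (-Real.log s)) := by
  rw [rcl]
  split_ifs with h
  · have h1 : Real.log s ≤ -m := by
      have := Real.log_le_log hs h
      rwa [Real.log_exp] at this
    rw [max_eq_right (by linarith), min_eq_left (by linarith)]
  · push Not at h
    have h1 : -m < Real.log s := by
      have := Real.log_lt_log (Real.exp_pos _) h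
      rwa [Real.log_exp] at this
    rw [min_eq_right]
    exact max_le hm (by linarith)

theorem na_b_rcl_lip {m s s' : ℝ} (hm : 0 ≤ m) (hs : 0 < s) (hs' : 0 < s') :
    |rcl m s - rcl m s'| ≤ |Real.log s - Real.log s'| := by
  rw [na_b_rcl_eq hm hs, na_b_rcl_eq hm hs']
  set x := -Real.log s
  set y := -Real.log s'
  have h1 : Real.log s - Real.log s' = -(x - y) := by ring
  rw [h1, abs_neg]
  refine (abs_min_sub_min_le_max _ _ _ _).trans ?_
  rw [sub_self, abs_zero]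
  refine max_le (abs_nonneg _) ?_
  refine (abs_max_sub_max_le_max _ _ _ _).trans ?_
  rw [sub_self, abs_zero]
  exact max_le (abs_nonneg _) (le_refl _)

/-! ### Hilbert-Schmidt norms -/

section hs
variable {N : Type*} [Fintype N]

/-- square of the Hilbert-Schmidt norm -/
noncomputable def na_b_hs {M : Type*} [Fintype M] (A : Matrix M N ℂ) : ℝ :=
  ∑ i, ∑ j, ‖A i j‖ ^ 2

theorem na_b_hs_nonneg {M : Type*} [Fintype M] (A : Matrix M N ℂ) : 0 ≤ na_b_hs A :=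
  Finset.sum_nonneg fun i _ => Finset.sum_nonneg fun j _ => sq_nonneg _

theorem na_b_nsq_le (A : Matrix N N ℂ) (v : N → ℂ) : nsq (A *ᵥ v) ≤ na_b_hs A * nsq v := by
  unfold nsq na_b_hs
  rw [Finset.sum_mul]
  refine Finset.sum_le_sum fun i _ => ?_
  have h1 : ‖(A *ᵥ v) i‖ ≤ ∑ j, ‖A i j‖ * ‖v j‖ := by
    simp only [mulVec, dotProduct]
    refine (norm_sum_le _ _).trans (Finset.sum_le_sum fun j _ => ?_)
    rw [norm_mul]
  calc ‖(A *ᵥ v) i‖ ^ 2 ≤ (∑ j, ‖A i j‖ * ‖v j‖) ^ 2 := pow_le_pow_left₀ (norm_nonneg _) h1 2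
    _ ≤ (∑ j, ‖A i j‖ ^ 2) * ∑ j, ‖v j‖ ^ 2 := Finset.sum_mul_sq_le_sq_mul_sq _ _ _

end hs

/-- a function on the second factor costs at most its dimension -/
theorem na_b_hs_opL {N α β : Type*} [Fintype N] [DecidableEq N] [Fintype α] [Fintype β]
    [DecidableEq α] [DecidableEq β] (e : N ≃ α × β) (Z : Matrix α α ℂ) :
    na_b_hs (opL e Z) ≤ (Fintype.card β : ℝ) ^ 2 * ∑ i, ∑ j, ‖Z i j‖ ^ 2 := by
  unfold na_b_hs
  rw [sum_equiv_prod e]
  have h1 : ∀ a b, ∑ t, ‖opL e Z (e.symm (a, b)) t‖ ^ 2 ≤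
      (Fintype.card β : ℝ) * ∑ j, ‖Z a j‖ ^ 2 := by
    intro a b
    rw [sum_equiv_prod e]
    have h2 : ∀ a' b', ‖opL e Z (e.symm (a, b)) (e.symm (a', b'))‖ ^ 2 ≤ ‖Z a a'‖ ^ 2 := by
      intro a' b'
      rw [opL_apply]
      simp only [Equiv.apply_symm_apply]
      split_ifs
      · rw [mul_one]
      · rw [mul_zero, norm_zero, zero_pow two_ne_zero]
        exact sq_nonneg _
    calc ∑ a', ∑ b', ‖opL e Z (e.symm (a, b)) (e.symm (a', b'))‖ ^ 2
        ≤ ∑ a', ∑ b' : β, ‖Z a a'‖ ^ 2 :=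
          Finset.sum_le_sum fun a' _ => Finset.sum_le_sum fun b' _ => h2 a' b'
      _ = (Fintype.card β : ℝ) * ∑ j, ‖Z a j‖ ^ 2 := by
          rw [Finset.mul_sum]
          refine Finset.sum_congr rfl fun a' _ => ?_
          rw [Finset.sum_const, Finset.card_univ, nsmul_eq_mul]
  calc ∑ a, ∑ b, ∑ t, ‖opL e Z (e.symm (a, b)) t‖ ^ 2
      ≤ ∑ a, ∑ b : β, (Fintype.card β : ℝ) * ∑ j, ‖Z a j‖ ^ 2 :=
        Finset.sum_le_sum fun a _ => Finset.sum_le_sum fun b _ => h1 a b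
    _ = (Fintype.card β : ℝ) ^ 2 * ∑ i, ∑ j, ‖Z i j‖ ^ 2 := by
        rw [Finset.mul_sum]
        refine Finset.sum_congr rfl fun a _ => ?_
        rw [Finset.sum_const, Finset.card_univ, nsmul_eq_mul]
        ring

section var
variable {N : Type} [Fintype N] [DecidableEq N] {α β : ℕ → Type}
  [∀ k, Fintype (α k)] [∀ k, DecidableEq (α k)] [∀ k, Fintype (β k)] [∀ k, DecidableEq (β k)]

/-- the form of the reversed tilt at cut `k` as a function of the reduced state -/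
def HasFormR (e : ∀ k, N ≃ α k × β k) (m : ℝ) (ψ : N → ℂ) (π : ∀ k, Par α k)
    (k : ℕ) : Prop :=
  ∀ F : ℝ → ℝ, dOp (π k).1 (fun i => F ((π k).2 i)) =
    fOp (ψ ∘ (e k).symm) (fun i => F (rcl m (eigp (ψ ∘ (e k).symm) i)))

/-- transport data from the form -/
theorem na_b_transport (e : ∀ k, N ≃ α k × β k) (θ : ℕ → ℝ) (m t : ℝ) (ψ : N → ℂ)
    (π : ∀ k, Par α k) (j : ℕ) (hf : HasFormR e m ψ π j) :
    ∃ A ∈ Set.range (opR (e j) : Matrix (β j) (β j) ℂ → Matrix N N ℂ),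
      ∃ A' ∈ Set.range (opR (e j) : Matrix (β j) (β j) ℂ → Matrix N N ℂ),
      Aᴴ * A' = 1 ∧ A *ᵥ ψ = YY e θ π t j *ᵥ ψ ∧ A' *ᵥ ψ = YY e θ π (-t) j *ᵥ ψ := by
  obtain ⟨S, S', h1, h2, h3, h4, h5⟩ := transport (e j) ψ
    (fun i => Real.exp (t * θ j * rcl m (eigp (ψ ∘ (e j).symm) i)))
    (fun i => Real.exp_pos _)
  refine ⟨opR (e j) S, ⟨S, rfl⟩, opR (e j) S', ⟨S', rfl⟩, ?_, ?_, ?_⟩
  · rw [opR_conjTranspose, h1, ← opR_mul, h3, opR_one]
  · rw [h4, YY, hf (fun r => Real.exp (t * θ j * r))]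
  · rw [h5, YY, hf (fun r => Real.exp (-t * θ j * r))]
    congr 3
    funext i
    rw [← Real.exp_neg]
    congr 1
    ring

/-- the transport identity for the tilts -/
theorem na_b_phi_YY (e : ∀ k, N ≃ α k × β k)
    (hcomm : ∀ j k, j ≤ k → ∀ (Y : Matrix (α k) (α k) ℂ) (S : Matrix (β j) (β j) ℂ),
      opL (e k) Y * opR (e j) S = opR (e j) S * opL (e k) Y)
    (θ : ℕ → ℝ) (m t : ℝ) (ψ : N → ℂ) (π : ∀ k, Par α k) (k : ℕ)
    (hf : ∀ j < k, HasFormR e m ψ π j) (X : Matrix N N ℂ)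
    (hX : ∀ j < k, ∀ S : Matrix (β j) (β j) ℂ, X * opR (e j) S = opR (e j) S * X) :
    star (prL (YY e θ π t) k *ᵥ ψ) ⬝ᵥ (X *ᵥ (prL (YY e θ π (-t)) k *ᵥ ψ)) =
      star ψ ⬝ᵥ (X *ᵥ ψ) := by
  refine SV.phi ψ (YY e θ π t) (YY e θ π (-t))
    (fun j => Set.range (opR (e j) : Matrix (β j) (β j) ℂ → Matrix N N ℂ)) k
    (fun j hj => na_b_transport e θ m t ψ π j (hf j hj)) ?_ X ?_
  · rintro j hj i hij A ⟨S, rfl⟩
    exact ⟨hcomm i j hij _ S, hcomm i j hij _ S⟩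
  · rintro j hj B ⟨S, rfl⟩
    exact hX j hj S

/-- scaling: the transport identity for the unnormalised vector -/
theorem na_b_phi_vv (e : ∀ k, N ≃ α k × β k)
    (hcomm : ∀ j k, j ≤ k → ∀ (Y : Matrix (α k) (α k) ℂ) (S : Matrix (β j) (β j) ℂ),
      opL (e k) Y * opR (e j) S = opR (e j) S * opL (e k) Y)
    (θ : ℕ → ℝ) (m t : ℝ) {Ω : N → ℂ} (hΩ : nsq Ω = 1) (n : ℕ) {π : ∀ k, Par α k}
    (hπ : π ∈ Feas α m) (k : ℕ)
    (hf : ∀ j < k, HasFormR e m (psi e θ Ω n t π) π j) (X : Matrix N N ℂ)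
    (hX : ∀ j < k, ∀ S : Matrix (β j) (β j) ℂ, X * opR (e j) S = opR (e j) S * X) :
    star (prL (YY e θ π t) k *ᵥ (vv e θ Ω n t π)) ⬝ᵥ
        (X *ᵥ (prL (YY e θ π (-t)) k *ᵥ (vv e θ Ω n t π))) =
      ((nsq (vv e θ Ω n t π) : ℝ) : ℂ) *
        (star (psi e θ Ω n t π) ⬝ᵥ (X *ᵥ (psi e θ Ω n t π))) := by
  have hpos := vv_pos e θ hΩ n t hπ
  set v := vv e θ Ω n t π with hv
  set ψ := psi e θ Ω n t π with hψ
  have hvψ : v = ((Real.sqrt (nsq v) : ℝ) : ℂ) • ψ := by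
    rw [hψ, psi, ← hv, smul_smul, ← Complex.ofReal_mul,
      mul_inv_cancel₀ (Real.sqrt_pos.mpr hpos).ne', Complex.ofReal_one, one_smul]
  have h := na_b_phi_YY e hcomm θ m t ψ π k hf X hX
  conv_lhs => rw [hvψ]
  rw [mulVec_smul, mulVec_smul, mulVec_smul, star_smul, smul_dotProduct, dotProduct_smul, h,
    smul_eq_mul, smul_eq_mul, ← mul_assoc]
  congr 1
  rw [RCLike.star_def, Complex.conj_ofReal, ← Complex.ofReal_mul,
    Real.mul_self_sqrt hpos.le]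

/-- Minimisers of the reversed functional have the form of clipped logarithms. -/
theorem na_b_form_of_min (e : ∀ k, N ≃ α k × β k)
    (hcomm : ∀ j k, j ≤ k → ∀ (Y : Matrix (α k) (α k) ℂ) (S : Matrix (β j) (β j) ℂ),
      opL (e k) Y * opR (e j) S = opR (e j) S * opL (e k) Y)
    (θ : ℕ → ℝ) {m : ℝ} (hm : 0 ≤ m) (hθ0 : ∀ k, 0 < θ k) (hθ1 : ∀ k, θ k ≤ 1 / 4)
    {Ω : N → ℂ} (hΩ : nsq Ω = 1) (n : ℕ) {π : ∀ k, Par α k}
    (hπ : π ∈ Feas α m)
    (hmin : ∀ π' ∈ Feas α m, nsq (vv e θ Ω n 1 π) * Real.exp (penR θ n π) ≤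
      nsq (vv e θ Ω n 1 π') * Real.exp (penR θ n π')) :
    ∀ k < n, HasFormR e m (psi e θ Ω n 1 π) π k := by
  intro k
  induction k using Nat.strong_induction_on with
  | _ k ih =>
  intro hk
  have hf : ∀ j < k, HasFormR e m (psi e θ Ω n 1 π) π j := fun j hj => ih j hj (hj.trans hk)
  have hpos := vv_pos e θ hΩ n 1 hπ
  have hψ1 := nsq_psi e θ hΩ n 1 hπ
  have hx1 : ∑ z, ‖(psi e θ Ω n 1 π ∘ (e k).symm) z‖ ^ 2 = 1 := by
    have := nsq_comp (e k) (psi e θ Ω n 1 π)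
    rw [hψ1] at this
    exact this
  obtain ⟨r, hr⟩ : ∃ r, n = k + 1 + r := ⟨n - (k + 1), by omega⟩
  set C : ℝ := na_b_hs (prR (YY e θ π 1) k) * ((Fintype.card (β k) : ℝ) ^ 2 *
    na_b_hs (prL (YY e θ π (-1)) k)) with hC
  refine opt_min (psi e θ Ω n 1 π ∘ (e k).symm) hx1 (θ := θ k) (m := m)
    (hθ0 k) (by have := hθ1 k; linarith) hm C (π k).1 (hπ k).1 (π k).2 (hπ k).2 ?_
  intro U' g' hU' hg'
  set π' : ∀ k, Par α k := Function.update π k (U', g') with hπ'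
  have hfeas : π' ∈ Feas α m := by
    intro j
    by_cases hj : j = k
    · subst hj
      rw [hπ', Function.update_self]
      exact ⟨hU', hg'⟩
    · rw [hπ', Function.update_of_ne hj]
      exact hπ j
  have hne : ∀ j, j ≠ k → YY e θ π' 1 j = YY e θ π 1 j := by
    intro j hj
    rw [YY, YY, hπ', Function.update_of_ne hj]
  have hmini := hmin π' hfeas
  -- penalties
  have hpen : penR θ n π' = penR θ n π +
      2 * θ k * ∑ i, (Real.exp (-(g' i)) - Real.exp (-((π k).2 i))) := by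
    rw [penR, penR, ← Finset.add_sum_erase (range n) _ (Finset.mem_range.mpr hk),
      ← Finset.add_sum_erase (range n) (fun k => 2 * θ k *
        ∑ i, Real.exp (-((π k).2 i))) (Finset.mem_range.mpr hk)]
    have h1 : ∑ j ∈ (range n).erase k, 2 * θ j * ∑ i, Real.exp (-((π' j).2 i)) =
        ∑ j ∈ (range n).erase k, 2 * θ j * ∑ i, Real.exp (-((π j).2 i)) := by
      refine Finset.sum_congr rfl fun j hj => ?_
      rw [hπ', Function.update_of_ne (Finset.ne_of_mem_erase hj)]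
    rw [h1]
    have h2 : (π' k) = (U', g') := by rw [hπ', Function.update_self]
    rw [h2]
    simp only [Finset.sum_sub_distrib]
    ring
  -- vectors
  set Yk : Matrix (α k) (α k) ℂ := dOp (π k).1 (fun i => Real.exp (θ k * (π k).2 i)) with hYk
  set Yk' : Matrix (α k) (α k) ℂ := dOp U' (fun i => Real.exp (θ k * g' i)) with hYk'
  set Yi : Matrix (α k) (α k) ℂ := dOp (π k).1 (fun i => Real.exp (-(θ k * (π k).2 i))) with hYi
  have hYYk : YY e θ π 1 k = opL (e k) Yk := by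
    rw [YY, hYk]
    congr 2
    funext i
    congr 1
    ring
  have hYYk' : YY e θ π' 1 k = opL (e k) Yk' := by
    rw [YY, hπ', Function.update_self, hYk']
    congr 2
    funext i
    congr 1
    ring
  have hYYi : YY e θ π (-1) k = opL (e k) Yi := by
    rw [YY, hYi]
    congr 2
    funext i
    congr 1
    ring
  set w : N → ℂ := prS (YY e θ π 1) (k + 1) r *ᵥ Ω with hw
  have hv : vv e θ Ω n 1 π = prR (YY e θ π 1) k *ᵥ (YY e θ π 1 k *ᵥ w) := by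
    rw [vv, hr, prR_split, prR, hw, mulVec_mulVec, mulVec_mulVec, Matrix.mul_assoc]
  have hv' : vv e θ Ω n 1 π' = prR (YY e θ π 1) k *ᵥ (YY e θ π' 1 k *ᵥ w) := by
    have e4 : prR (YY e θ π' 1) k = prR (YY e θ π 1) k :=
      prR_congr (fun j hj => hne j (Nat.ne_of_lt hj))
    have e5 : prS (YY e θ π' 1) (k + 1) r = prS (YY e θ π 1) (k + 1) r :=
      prS_congr (fun i hi => hne i (by omega))
    rw [vv, hr, prR_split, prR, hw, mulVec_mulVec, mulVec_mulVec, e4, e5, Matrix.mul_assoc]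
  have hw2 : w = YY e θ π (-1) k *ᵥ (prL (YY e θ π (-1)) k *ᵥ (vv e θ Ω n 1 π)) := by
    rw [hv, mulVec_mulVec (M := prL (YY e θ π (-1)) k),
      prL_mul_prR (fun j _ => YY_inv e θ (hπ j).1 1), one_mulVec, mulVec_mulVec,
      YY_inv e θ (hπ k).1 1, one_mulVec]
  set Z : Matrix (α k) (α k) ℂ := (Yk' - Yk) * Yi with hZ
  have hdiff : vv e θ Ω n 1 π' = vv e θ Ω n 1 π +
      prR (YY e θ π 1) k *ᵥ (opL (e k) Z *ᵥ
        (prL (YY e θ π (-1)) k *ᵥ (vv e θ Ω n 1 π))) := by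
    have h1 : opL (e k) Z *ᵥ
        (prL (YY e θ π (-1)) k *ᵥ (vv e θ Ω n 1 π)) = YY e θ π' 1 k *ᵥ w - YY e θ π 1 k *ᵥ w := by
      rw [hZ, opL_mul, ← mulVec_mulVec, ← hYYi, ← hw2, opL_sub, sub_mulVec, hYYk', hYYk]
    rw [h1, hv', mulVec_sub]
    conv_rhs => rw [hv]
    abel
  have hcross : (star (vv e θ Ω n 1 π) ⬝ᵥ (prR (YY e θ π 1) k *ᵥ
      (opL (e k) Z *ᵥ (prL (YY e θ π (-1)) k *ᵥ (vv e θ Ω n 1 π))))).re =
      nsq (vv e θ Ω n 1 π) *
        (redA (psi e θ Ω n 1 π ∘ (e k).symm) * Z).trace.re := by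
    have h1 := na_b_phi_vv e hcomm θ m 1 hΩ n hπ k hf (opL (e k) Z)
      (fun j hj S => hcomm j k hj.le _ S)
    rw [expect_opL] at h1
    have h2 : star (vv e θ Ω n 1 π) ⬝ᵥ (prR (YY e θ π 1) k *ᵥ
      (opL (e k) Z *ᵥ (prL (YY e θ π (-1)) k *ᵥ (vv e θ Ω n 1 π)))) =
      star (prL (YY e θ π 1) k *ᵥ (vv e θ Ω n 1 π)) ⬝ᵥ
        (opL (e k) Z *ᵥ (prL (YY e θ π (-1)) k *ᵥ (vv e θ Ω n 1 π))) := by
      have h3 : (prL (YY e θ π 1) k)ᴴ = prR (YY e θ π 1) k := by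
        have h4 := prR_conjTranspose (YY e θ π 1) k
        simp only [YY_herm] at h4
        rw [← h4, conjTranspose_conjTranspose]
      rw [ip_mulVec, h3]
    rw [h2, h1, Complex.re_ofReal_mul]
  set v := vv e θ Ω n 1 π with hvdef
  set T := (redA (psi e θ Ω n 1 π ∘ (e k).symm) * Z).trace.re with hT
  set S2 := ∑ i, ∑ j, ‖Z i j‖ ^ 2 with hS2
  have hS20 : 0 ≤ S2 := Finset.sum_nonneg fun i _ => Finset.sum_nonneg fun j _ => sq_nonneg _
  have hrest : nsq (prR (YY e θ π 1) k *ᵥ (opL (e k) Z *ᵥ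
        (prL (YY e θ π (-1)) k *ᵥ v))) ≤ C * S2 * nsq v := by
    calc nsq (prR (YY e θ π 1) k *ᵥ (opL (e k) Z *ᵥ (prL (YY e θ π (-1)) k *ᵥ v)))
        ≤ na_b_hs (prR (YY e θ π 1) k) * nsq (opL (e k) Z *ᵥ (prL (YY e θ π (-1)) k *ᵥ v)) :=
          na_b_nsq_le _ _
      _ ≤ na_b_hs (prR (YY e θ π 1) k) * (na_b_hs (opL (e k) Z) *
          nsq (prL (YY e θ π (-1)) k *ᵥ v)) :=
          mul_le_mul_of_nonneg_left (na_b_nsq_le _ _) (na_b_hs_nonneg _)
      _ ≤ na_b_hs (prR (YY e θ π 1) k) * (((Fintype.card (β k) : ℝ) ^ 2 * S2) *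
          (na_b_hs (prL (YY e θ π (-1)) k) * nsq v)) := by
          refine mul_le_mul_of_nonneg_left ?_ (na_b_hs_nonneg _)
          exact mul_le_mul (na_b_hs_opL _ _) (na_b_nsq_le _ _) (nsq_nonneg' _)
            (mul_nonneg (sq_nonneg _) hS20)
      _ = C * S2 * nsq v := by rw [hC]; ring
  have hnsq : nsq (vv e θ Ω n 1 π') ≤ nsq v * (1 + 2 * T + C * S2) := by
    rw [hdiff, nsq_add, hcross]
    linarith
  -- minimality
  set P := penR θ n π with hP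
  set D := 2 * θ k * ∑ i, (Real.exp (-(g' i)) - Real.exp (-((π k).2 i))) with hD
  have h1 : nsq v * Real.exp P ≤ nsq v * (1 + 2 * T + C * S2) * Real.exp (P + D) := by
    rw [hpen] at hmini
    exact hmini.trans (mul_le_mul_of_nonneg_right hnsq (Real.exp_pos _).le)
  have h2 : 1 ≤ (1 + 2 * T + C * S2) * Real.exp D := by
    rw [Real.exp_add] at h1
    have h3 : nsq v * Real.exp P * 1 ≤ nsq v * Real.exp P *
        ((1 + 2 * T + C * S2) * Real.exp D) := by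
      calc nsq v * Real.exp P * 1 = nsq v * Real.exp P := mul_one _
        _ ≤ _ := h1
        _ = _ := by ring
    exact le_of_mul_le_mul_left h3 (mul_pos hpos (Real.exp_pos _))
  have h4 : Real.exp (-D) ≤ 1 + 2 * T + C * S2 := by
    have h5 : Real.exp (-D) * 1 ≤ Real.exp (-D) * ((1 + 2 * T + C * S2) * Real.exp D) :=
      mul_le_mul_of_nonneg_left h2 (Real.exp_pos _).le
    have h6 : Real.exp (-D) * ((1 + 2 * T + C * S2) * Real.exp D) = 1 + 2 * T + C * S2 := by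
      have h7 : Real.exp (-D) * Real.exp D = 1 := by
        rw [← Real.exp_add, neg_add_cancel, Real.exp_zero]
      calc Real.exp (-D) * ((1 + 2 * T + C * S2) * Real.exp D) =
          (1 + 2 * T + C * S2) * (Real.exp (-D) * Real.exp D) := by ring
        _ = _ := by rw [h7, mul_one]
    linarith
  have h8 := Real.add_one_le_exp (-D)
  have h9 : 0 ≤ 2 * T + C * S2 + D := by linarith
  exact h9

/-- existence of a minimiser -/
theorem na_b_continuous_penR (θ : ℕ → ℝ) (n : ℕ) :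
    Continuous (fun π : ∀ k, Par α k => penR θ n π) := by
  unfold penR
  refine continuous_finset_sum _ (fun k _ => Continuous.mul continuous_const ?_)
  refine continuous_finset_sum _ (fun i _ => ?_)
  have h1 : Continuous (fun π : ∀ k, Par α k => (π k).2 i) :=
    (continuous_apply i).comp (continuous_snd.comp (continuous_apply k))
  exact Real.continuous_exp.comp h1.neg

theorem na_b_feas_nonempty {m : ℝ} (hm : 0 ≤ m) : (Feas α m).Nonempty :=
  ⟨fun k => (1, fun _ => 0), fun k => ⟨by simp, fun i => ⟨le_rfl, hm⟩⟩⟩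

theorem na_b_exists_min (e : ∀ k, N ≃ α k × β k) (θ : ℕ → ℝ) {m : ℝ} (hm : 0 ≤ m) (Ω : N → ℂ)
    (n : ℕ) : ∃ π ∈ Feas α m, ∀ π' ∈ Feas α m,
      nsq (vv e θ Ω n 1 π) * Real.exp (penR θ n π) ≤
      nsq (vv e θ Ω n 1 π') * Real.exp (penR θ n π') := by
  have h0 : Continuous (fun π : ∀ k, Par α k => nsq (vv e θ Ω n 1 π)) :=
    Continuous.comp (g := fun p : ℝ × (∀ k, Par α k) => nsq (vv e θ Ω n p.1 p.2))
      (f := fun π : ∀ k, Par α k => (((1 : ℝ), π) : ℝ × (∀ k, Par α k)))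
      (continuous_nsq e θ Ω n) (Continuous.prodMk continuous_const continuous_id)
  have h1 : Continuous (fun π : ∀ k, Par α k =>
      nsq (vv e θ Ω n 1 π) * Real.exp (penR θ n π)) :=
    h0.mul (Real.continuous_exp.comp (na_b_continuous_penR θ n))
  obtain ⟨π, hπ, hmin⟩ := (isCompact_feas (α := α) m).exists_isMinOn (na_b_feas_nonempty hm)
    h1.continuousOn
  exact ⟨π, hπ, fun π' hπ' => hmin hπ'⟩

theorem na_b_continuous_prL (e : ∀ k, N ≃ α k × β k) (θ : ℕ → ℝ) (n : ℕ) :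
    Continuous (fun p : ℝ × (∀ k, Par α k) => prL (YY e θ p.2 p.1) n) := by
  induction n with
  | zero => exact continuous_const
  | succ n ih => exact Continuous.matrix_mul (continuous_YY e θ n) ih

theorem na_b_pair (t : ℝ) :
    Continuous (fun π : ∀ k, Par α k => ((t, π) : ℝ × (∀ k, Par α k))) :=
  Continuous.prodMk continuous_const continuous_id

theorem na_b_cont_R (e : ∀ k, N ≃ α k × β k) (θ : ℕ → ℝ) (n : ℕ) (t : ℝ) :
    Continuous (fun π : ∀ k, Par α k => prR (YY e θ π t) n) :=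
  Continuous.comp (g := fun p : ℝ × (∀ k, Par α k) => prR (YY e θ p.2 p.1) n)
    (f := fun π : ∀ k, Par α k => ((t, π) : ℝ × (∀ k, Par α k)))
    (continuous_prR e θ n) (na_b_pair t)

theorem na_b_cont_L (e : ∀ k, N ≃ α k × β k) (θ : ℕ → ℝ) (n : ℕ) (t : ℝ) :
    Continuous (fun π : ∀ k, Par α k => prL (YY e θ π t) n) :=
  Continuous.comp (g := fun p : ℝ × (∀ k, Par α k) => prL (YY e θ p.2 p.1) n)
    (f := fun π : ∀ k, Par α k => ((t, π) : ℝ × (∀ k, Par α k)))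
    (na_b_continuous_prL e θ n) (na_b_pair t)

theorem na_b_cont_conj (e : ∀ k, N ≃ α k × β k) (θ : ℕ → ℝ) (H : Matrix N N ℂ) (n : ℕ) :
    Continuous (fun π : ∀ k, Par α k =>
      prR (YY e θ π 1) n * H * prL (YY e θ π (-1)) n) :=
  Continuous.matrix_mul (Continuous.matrix_mul (na_b_cont_R e θ n 1) continuous_const)
    (na_b_cont_L e θ n (-1))

theorem na_b_cont_hs {X : Type*} [TopologicalSpace X] {A : X → Matrix N N ℂ}
    (hA : Continuous A) : Continuous (fun x => na_b_hs (A x)) := by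
  unfold na_b_hs
  refine continuous_finset_sum _ fun i _ => continuous_finset_sum _ fun j _ => ?_
  exact (continuous_norm.comp (hA.matrix_elem i j)).pow 2

/-- uniform bound for the conjugated operator -/
theorem na_b_conj_bound (e : ∀ k, N ≃ α k × β k) (θ : ℕ → ℝ) {m : ℝ} (hm : 0 ≤ m)
    (H : Matrix N N ℂ) (n : ℕ) : ∃ C : ℝ, 0 ≤ C ∧ ∀ π ∈ Feas α m, ∀ v : N → ℂ,
      nsq ((prR (YY e θ π 1) n * H * prL (YY e θ π (-1)) n) *ᵥ v) ≤ C * nsq v := by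
  have h1 := na_b_cont_hs (na_b_cont_conj e θ H n)
  obtain ⟨π, hπ, hmax⟩ := (isCompact_feas (α := α) m).exists_isMaxOn (na_b_feas_nonempty hm)
    h1.continuousOn
  refine ⟨_, na_b_hs_nonneg (prR (YY e θ π 1) n * H * prL (YY e θ π (-1)) n),
    fun π' hπ' v => (na_b_nsq_le _ _).trans ?_⟩
  exact mul_le_mul_of_nonneg_right (hmax hπ') (nsq_nonneg' _)

/-- The energy of the conjugated Hamiltonian. -/
theorem na_b_energy (e : ∀ k, N ≃ α k × β k)
    (hcomm : ∀ j k, j ≤ k → ∀ (Y : Matrix (α k) (α k) ℂ) (S : Matrix (β j) (β j) ℂ),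
      opL (e k) Y * opR (e j) S = opR (e j) S * opL (e k) Y)
    (θ : ℕ → ℝ) {m : ℝ} (hm : 0 ≤ m) (hθ0 : ∀ k, 0 < θ k) (hθ1 : ∀ k, θ k ≤ 1 / 4)
    (n : ℕ) {Z : Type} [Fintype Z] (h : Z → Matrix N N ℂ) (κ : Z → ℕ)
    (hκR : ∀ z j, j < κ z → ∀ S, h z * opR (e j) S = opR (e j) S * h z)
    (hκL : ∀ z j, κ z < j → j < n → ∀ Y, h z * opL (e j) Y = opL (e j) Y * h z)
    (w : Z → ℝ) (hw : ∀ z, κ z < n → CutBound (e (κ z)) (h z) (w z))
    (hpos : ∀ ψ, 0 ≤ en (∑ z, h z) ψ)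
    {π : ∀ k, Par α k} (hπ : π ∈ Feas α m) {ψ : N → ℂ} (hψ1 : nsq ψ = 1)
    (hf : ∀ k < n, HasFormR e m ψ π k) :
    -(9 * ∑ z, if κ z < n then θ (κ z) ^ 2 * w z else 0) ≤
      (star ψ ⬝ᵥ ((prR (YY e θ π 1) n * (∑ z, h z) * prL (YY e θ π (-1)) n) *ᵥ ψ)).re := by
  set Pψ := prL (YY e θ π 1) n *ᵥ ψ with hP
  set Mψ := prL (YY e θ π (-1)) n *ᵥ ψ with hM
  have hterm : ∀ z, (star ψ ⬝ᵥ (h z *ᵥ ψ)).re - (star Pψ ⬝ᵥ (h z *ᵥ Mψ)).re ≤
      9 * (if κ z < n then θ (κ z) ^ 2 * w z else 0) := by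
    intro z
    by_cases hz : κ z < n
    · rw [if_pos hz]
      -- drop the outer cuts
      have hdrop : ∀ i, κ z + 1 + i ≤ n →
          star (prL (YY e θ π 1) (κ z + 1 + i) *ᵥ ψ) ⬝ᵥ
            (h z *ᵥ (prL (YY e θ π (-1)) (κ z + 1 + i) *ᵥ ψ)) =
          star (prL (YY e θ π 1) (κ z + 1) *ᵥ ψ) ⬝ᵥ
            (h z *ᵥ (prL (YY e θ π (-1)) (κ z + 1) *ᵥ ψ)) := by
        intro i
        induction i with
        | zero => intro _; rfl
        | succ i ih =>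
          intro hi
          have h1 := ih (by omega)
          rw [← h1]
          rw [show κ z + 1 + (i + 1) = (κ z + 1 + i) + 1 from rfl, prL, prL,
            ← mulVec_mulVec, ← mulVec_mulVec]
          exact outer_drop e θ hπ 1 (h z) _ _ _ (hκL z _ (by omega) (by omega))
      obtain ⟨i, hi⟩ : ∃ i, n = κ z + 1 + i := ⟨n - (κ z + 1), by omega⟩
      have h2 : star Pψ ⬝ᵥ (h z *ᵥ Mψ) = star (prL (YY e θ π 1) (κ z + 1) *ᵥ ψ) ⬝ᵥ
            (h z *ᵥ (prL (YY e θ π (-1)) (κ z + 1) *ᵥ ψ)) := by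
        have h3 := hdrop i (by omega)
        rw [← hi] at h3
        exact h3
      have h4 : star (prL (YY e θ π 1) (κ z + 1) *ᵥ ψ) ⬝ᵥ
            (h z *ᵥ (prL (YY e θ π (-1)) (κ z + 1) *ᵥ ψ)) =
          star (YY e θ π 1 (κ z) *ᵥ ψ) ⬝ᵥ (h z *ᵥ (YY e θ π (-1) (κ z) *ᵥ ψ)) := by
        have h5 := na_b_phi_YY e hcomm θ m 1 ψ π (κ z) (fun j hj => hf j (hj.trans hz))
          (YY e θ π 1 (κ z) * h z * YY e θ π (-1) (κ z)) (fun j hj S => by
            have a1 : YY e θ π 1 (κ z) * opR (e j) S = opR (e j) S * YY e θ π 1 (κ z) :=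
              hcomm j (κ z) hj.le _ S
            have a2 : YY e θ π (-1) (κ z) * opR (e j) S = opR (e j) S * YY e θ π (-1) (κ z) :=
              hcomm j (κ z) hj.le _ S
            have a3 := hκR z j hj S
            calc YY e θ π 1 (κ z) * h z * YY e θ π (-1) (κ z) * opR (e j) S =
                YY e θ π 1 (κ z) * h z * (YY e θ π (-1) (κ z) * opR (e j) S) := by
                  simp only [Matrix.mul_assoc]
              _ = YY e θ π 1 (κ z) * (h z * opR (e j) S) * YY e θ π (-1) (κ z) := by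
                  rw [a2]; simp only [Matrix.mul_assoc]
              _ = (YY e θ π 1 (κ z) * opR (e j) S) * h z * YY e θ π (-1) (κ z) := by
                  rw [a3]; simp only [Matrix.mul_assoc]
              _ = _ := by rw [a1]; simp only [Matrix.mul_assoc])
        rw [prL, prL, ← mulVec_mulVec, ← mulVec_mulVec, ip_mulVec, YY_herm, mulVec_mulVec,
          mulVec_mulVec, h5, ip_mulVec, YY_herm, mulVec_mulVec, mulVec_mulVec]
      rw [h2, h4]
      have h6 := hw z hz ψ hψ1 (θ (κ z)) (hθ0 _).le (hθ1 _)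
        (fun i => rcl m (eigp (ψ ∘ (e (κ z)).symm) i))
        (fun i j hi hj => na_b_rcl_lip hm hi hj)
      have e1 : YY e θ π 1 (κ z) = opL (e (κ z)) (fOp (ψ ∘ (e (κ z)).symm)
          (fun i => Real.exp (θ (κ z) *
            rcl m (eigp (ψ ∘ (e (κ z)).symm) i)))) := by
        rw [YY, hf (κ z) hz (fun r => Real.exp (1 * θ (κ z) * r))]
        simp only [one_mul]
      have e2 : YY e θ π (-1) (κ z) = opL (e (κ z)) (fOp (ψ ∘ (e (κ z)).symm)
          (fun i => Real.exp (-(θ (κ z) *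
            rcl m (eigp (ψ ∘ (e (κ z)).symm) i))))) := by
        rw [YY, hf (κ z) hz (fun r => Real.exp (-1 * θ (κ z) * r))]
        congr 2
        funext i
        congr 1
        ring
      rw [e1, e2]
      linarith
    · rw [if_neg hz, mul_zero]
      have h1 := na_b_phi_YY e hcomm θ m 1 ψ π n hf (h z) (fun j hj S =>
        hκR z j (lt_of_lt_of_le hj (not_lt.mp hz)) S)
      rw [hP, hM, h1, sub_self]
  have hsum1 : en (∑ z, h z) ψ = ∑ z, (star ψ ⬝ᵥ (h z *ᵥ ψ)).re := by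
    rw [en, Matrix.sum_mulVec, dotProduct_sum, Complex.re_sum]
  have hsum2 : (star ψ ⬝ᵥ ((prR (YY e θ π 1) n * (∑ z, h z) *
      prL (YY e θ π (-1)) n) *ᵥ ψ)).re = ∑ z, (star Pψ ⬝ᵥ (h z *ᵥ Mψ)).re := by
    have h3 : (prL (YY e θ π 1) n)ᴴ = prR (YY e θ π 1) n := by
      have h4 := prR_conjTranspose (YY e θ π 1) n
      simp only [YY_herm] at h4
      rw [← h4, conjTranspose_conjTranspose]
    rw [← Complex.re_sum, ← dotProduct_sum, ← Matrix.sum_mulVec, hP, hM, ip_mulVec, h3,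
      mulVec_mulVec, mulVec_mulVec, Matrix.mul_assoc]
  have h5 : ∑ z, ((star ψ ⬝ᵥ (h z *ᵥ ψ)).re - (star Pψ ⬝ᵥ (h z *ᵥ Mψ)).re) ≤
      9 * ∑ z, (if κ z < n then θ (κ z) ^ 2 * w z else 0) := by
    rw [Finset.mul_sum]
    exact Finset.sum_le_sum fun z _ => hterm z
  rw [Finset.sum_sub_distrib, ← hsum1, ← hsum2] at h5
  have h6 := hpos ψ
  linarith

/-- growth for unit vectors -/
theorem na_b_growth_unit (e : ∀ k, N ≃ α k × β k)
    (hcomm : ∀ j k, j ≤ k → ∀ (Y : Matrix (α k) (α k) ℂ) (S : Matrix (β j) (β j) ℂ),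
      opL (e k) Y * opR (e j) S = opR (e j) S * opL (e k) Y)
    (θ : ℕ → ℝ) {m : ℝ} (hm : 0 ≤ m) (hθ0 : ∀ k, 0 < θ k) (hθ1 : ∀ k, θ k ≤ 1 / 4) (n : ℕ)
    {Z : Type} [Fintype Z] (h : Z → Matrix N N ℂ) (κ : Z → ℕ)
    (hκR : ∀ z j, j < κ z → ∀ S, h z * opR (e j) S = opR (e j) S * h z)
    (hκL : ∀ z j, κ z < j → j < n → ∀ Y, h z * opL (e j) Y = opL (e j) Y * h z)
    (w : Z → ℝ) (hw : ∀ z, κ z < n → CutBound (e (κ z)) (h z) (w z))
    (hpos : ∀ ψ, 0 ≤ en (∑ z, h z) ψ) {C : ℝ}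
    (hC : ∀ π ∈ Feas α m, ∀ v : N → ℂ,
      nsq ((prR (YY e θ π 1) n * (∑ z, h z) * prL (YY e θ π (-1)) n) *ᵥ v) ≤ C * nsq v)
    {δ : ℝ} (hδ : 0 ≤ δ) {χ : N → ℂ} (hχ : nsq χ = 1) {c : ℝ} (hg : Good e θ n m χ c) :
    Good e θ n m ((1 - (δ : ℂ) • ∑ z, h z) *ᵥ χ)
      (c + (18 * δ * (∑ z, if κ z < n then θ (κ z) ^ 2 * w z else 0) + C * δ ^ 2)) := by
  obtain ⟨π0, hπ0, hc0⟩ := hg
  obtain ⟨π, hπ, hmin⟩ := na_b_exists_min e θ hm χ n
  have hc : nsq (vv e θ χ n 1 π) * Real.exp (penR θ n π) ≤ Real.exp c := (hmin π0 hπ0).trans hc0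
  refine ⟨π, hπ, ?_⟩
  have hf := na_b_form_of_min e hcomm θ hm hθ0 hθ1 hχ n hπ hmin
  have hvpos := vv_pos e θ hχ n 1 hπ
  have hψ1 := nsq_psi e θ hχ n 1 hπ
  set ψ := psi e θ χ n 1 π with hψ
  set v := vv e θ χ n 1 π with hv
  set H := ∑ z, h z with hH
  set A := prR (YY e θ π 1) n * H * prL (YY e θ π (-1)) n with hA
  have hen := na_b_energy e hcomm θ hm hθ0 hθ1 n h κ hκR hκL w hw hpos hπ hψ1 hf
  rw [← hH, ← hA] at hen
  set s := ∑ z, (if κ z < n then θ (κ z) ^ 2 * w z else 0) with hs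
  -- the new vector
  have hvv : vv e θ ((1 - (δ : ℂ) • H) *ᵥ χ) n 1 π =
      ((Real.sqrt (nsq v) : ℝ) : ℂ) • (ψ + (-(δ : ℂ)) • (A *ᵥ ψ)) := by
    have hvψ : v = ((Real.sqrt (nsq v) : ℝ) : ℂ) • ψ := by
      rw [hψ, psi, ← hv, smul_smul, ← Complex.ofReal_mul,
        mul_inv_cancel₀ (Real.sqrt_pos.mpr hvpos).ne', Complex.ofReal_one, one_smul]
    have hχv : χ = prL (YY e θ π (-1)) n *ᵥ v := by
      rw [hv, vv, mulVec_mulVec, prL_mul_prR (fun j _ => YY_inv e θ (hπ j).1 1), one_mulVec]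
    have h1 : vv e θ ((1 - (δ : ℂ) • H) *ᵥ χ) n 1 π = v - (δ : ℂ) • (A *ᵥ v) := by
      rw [vv, sub_mulVec, one_mulVec, smul_mulVec, mulVec_sub, mulVec_smul]
      have h2 : prR (YY e θ π 1) n *ᵥ χ = v := rfl
      have h3 : prR (YY e θ π 1) n *ᵥ (H *ᵥ χ) = A *ᵥ v := by
        conv_lhs => rw [hχv]
        rw [mulVec_mulVec, mulVec_mulVec, hA, Matrix.mul_assoc]
      rw [h2, h3]
    have h5 : A *ᵥ v = ((Real.sqrt (nsq v) : ℝ) : ℂ) • (A *ᵥ ψ) := by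
      conv_lhs => rw [hvψ]
      rw [mulVec_smul]
    rw [h1, smul_add, ← hvψ, smul_comm (((Real.sqrt (nsq v) : ℝ) : ℂ)), ← h5, neg_smul,
      sub_eq_add_neg]
  have hnsq : nsq (vv e θ ((1 - (δ : ℂ) • H) *ᵥ χ) n 1 π) ≤
      nsq v * Real.exp (18 * δ * s + C * δ ^ 2) := by
    rw [hvv, nsq_smul, Complex.norm_real, Real.norm_eq_abs, sq_abs, Real.sq_sqrt hvpos.le]
    refine mul_le_mul_of_nonneg_left ?_ hvpos.le
    rw [nsq_add, hψ1, nsq_smul, dotProduct_smul]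
    have h1 : (-(δ : ℂ) • (star ψ ⬝ᵥ A *ᵥ ψ)).re = -δ * (star ψ ⬝ᵥ A *ᵥ ψ).re := by
      rw [smul_eq_mul, ← Complex.ofReal_neg, Complex.re_ofReal_mul]
    have h2 : ‖-(δ : ℂ)‖ ^ 2 = δ ^ 2 := by
      rw [norm_neg, Complex.norm_real, Real.norm_eq_abs, sq_abs]
    rw [h1, h2]
    have h3 := hC π hπ ψ
    rw [← hA, hψ1, mul_one] at h3
    have h4 : δ ^ 2 * nsq (A *ᵥ ψ) ≤ C * δ ^ 2 := by
      rw [mul_comm C]
      exact mul_le_mul_of_nonneg_left h3 (sq_nonneg _)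
    have h5 : δ * (-(9 * s)) ≤ δ * (star ψ ⬝ᵥ A *ᵥ ψ).re := mul_le_mul_of_nonneg_left hen hδ
    have h6 := Real.add_one_le_exp (18 * δ * s + C * δ ^ 2)
    linarith
  calc nsq (vv e θ ((1 - (δ : ℂ) • H) *ᵥ χ) n 1 π) * Real.exp (penR θ n π)
      ≤ nsq v * Real.exp (18 * δ * s + C * δ ^ 2) * Real.exp (penR θ n π) :=
        mul_le_mul_of_nonneg_right hnsq (Real.exp_pos _).le
    _ = nsq v * Real.exp (penR θ n π) * Real.exp (18 * δ * s + C * δ ^ 2) := by ring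
    _ ≤ Real.exp c * Real.exp (18 * δ * s + C * δ ^ 2) :=
        mul_le_mul_of_nonneg_right hc (Real.exp_pos _).le
    _ = _ := by rw [← Real.exp_add]

/-- Block B: growth at most `18 δ Σ θ² w + C δ²` for `1 - δ H`, `H ≥ 0`. -/
theorem growth (e : ∀ k, N ≃ α k × β k)
    (hcomm : ∀ j k, j ≤ k → ∀ (Y : Matrix (α k) (α k) ℂ) (S : Matrix (β j) (β j) ℂ),
      opL (e k) Y * opR (e j) S = opR (e j) S * opL (e k) Y)
    (θ : ℕ → ℝ) {m : ℝ} (hm : 0 ≤ m) (hθ0 : ∀ k, 0 < θ k) (hθ1 : ∀ k, θ k ≤ 1 / 4) (n : ℕ)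
    {Z : Type} [Fintype Z] (h : Z → Matrix N N ℂ) (κ : Z → ℕ)
    (hκR : ∀ z j, j < κ z → ∀ S, h z * opR (e j) S = opR (e j) S * h z)
    (hκL : ∀ z j, κ z < j → j < n → ∀ Y, h z * opL (e j) Y = opL (e j) Y * h z)
    (w : Z → ℝ) (hw : ∀ z, κ z < n → CutBound (e (κ z)) (h z) (w z))
    (hpos : ∀ ψ, 0 ≤ en (∑ z, h z) ψ) :
    ∃ C : ℝ, 0 ≤ C ∧ ∀ δ : ℝ, 0 ≤ δ → Gro e θ n m (1 - (δ : ℂ) • ∑ z, h z)
      (18 * δ * (∑ z, if κ z < n then θ (κ z) ^ 2 * w z else 0) + C * δ ^ 2) := by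
  obtain ⟨C, hC0, hC⟩ := na_b_conj_bound e θ hm (∑ z, h z) n
  refine ⟨C, hC0, fun δ hδ χ c hg => ?_⟩
  set M : Matrix N N ℂ := 1 - (δ : ℂ) • ∑ z, h z with hM
  rcases (nsq_nonneg' χ).eq_or_lt with h0 | h0
  · -- zero vector
    obtain ⟨π, hπ, -⟩ := hg
    refine ⟨π, hπ, ?_⟩
    have h1 : χ = 0 := by
      funext i
      have h2 := (Finset.sum_eq_zero_iff_of_nonneg (fun i _ => sq_nonneg _)).mp h0.symm i
        (Finset.mem_univ i)
      simpa using h2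
    have h2 : vv e θ (M *ᵥ χ) n 1 π = 0 := by
      rw [vv, h1, mulVec_zero, mulVec_zero]
    have h3 : nsq (0 : N → ℂ) = 0 := by simp [nsq]
    rw [h2, h3, zero_mul]
    exact (Real.exp_pos _).le
  · set r := Real.sqrt (nsq χ) with hr
    have hr0 : 0 < r := Real.sqrt_pos.mpr h0
    have hr2 : r ^ 2 = nsq χ := Real.sq_sqrt h0.le
    set χ1 : N → ℂ := ((r⁻¹ : ℝ) : ℂ) • χ with hχ1
    have hn1 : nsq χ1 = 1 := by
      rw [hχ1, nsq_smul, Complex.norm_real, Real.norm_eq_abs, sq_abs, inv_pow, hr2]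
      exact inv_mul_cancel₀ h0.ne'
    have hb : χ = ((r : ℝ) : ℂ) • χ1 := by
      rw [hχ1, smul_smul, ← Complex.ofReal_mul, mul_inv_cancel₀ hr0.ne', Complex.ofReal_one,
        one_smul]
    have hg1 : Good e θ n m χ1 (c + -(2 * Real.log r)) := by
      refine hg.smul' (z := ((r⁻¹ : ℝ) : ℂ)) ?_
      rw [Complex.norm_real, Real.norm_eq_abs, sq_abs, inv_pow, Real.exp_neg,
        two_mul, Real.exp_add, Real.exp_log hr0, sq]
    have hg2 := na_b_growth_unit e hcomm θ hm hθ0 hθ1 n h κ hκR hκL w hw hpos hC hδ hn1 hg1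
    have hg3 := hg2.smul' (z := ((r : ℝ) : ℂ)) (t := 2 * Real.log r) (by
      rw [Complex.norm_real, Real.norm_eq_abs, sq_abs, two_mul, Real.exp_add,
        Real.exp_log hr0, sq])
    have h4 : M *ᵥ χ = ((r : ℝ) : ℂ) • (M *ᵥ χ1) := by
      conv_lhs => rw [hb]
      rw [mulVec_smul]
    rw [h4]
    exact hg3.mono (by linarith)

end var

end Vale.Agent.P356.NA
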