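import Vale.Agent.P356.NA.RepCalc
import Vale.Agent.P356.NA.Growth

/-!
Growth of `1 - δ H_B` on the lattice, along nested regions.
-/

set_option linter.all false

namespace Vale.Agent.P356.NA

open Matrix Finset Vale.Agent.P356 Vale.Agent.P356.SV Vale.Agent.P356.Path Polynomial
open scoped BigOperators ComplexOrder Kronecker

/-! ## BLOCK J0 (file NA/Cost.lean): cost of a region -/
section J0

/-- counting the terms inside of a region -/
theorem na_j0_count {L q R : ℕ} (G : Finset (Site L)) (h : Finset (Site L) → Op (Site L) q)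
    (hd : ∀ X, h X ≠ 0 → X.Nonempty ∧ ∀ x ∈ X, ∀ y ∈ X, dist1 x y ≤ R) {J : ℝ} (hJ : 0 ≤ J)
    (hq : 1 ≤ q) (F : Finset (Finset (Site L))) (hF : ∀ X ∈ F, h X ≠ 0 ∧ X ⊆ G) :
    ∑ X ∈ F, J * (q : ℝ) ^ (2 * X.card) ≤
      J * (q : ℝ) ^ (2 * (2 * R + 1) ^ 2) * NR R * G.card := by
  classical
  have hq1 : (1 : ℝ) ≤ q := by exact_mod_cast hq
  have hsub : F ⊆ G.biUnion (fun x => (ball x R).powerset) := by
    intro X hX
    obtain ⟨hne, hXG⟩ := hF X hX
    obtain ⟨⟨x, hx⟩, hdX⟩ := hd X hne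
    rw [Finset.mem_biUnion]
    refine ⟨x, hXG hx, ?_⟩
    rw [Finset.mem_powerset]
    intro z hz
    exact Finset.mem_filter.mpr ⟨Finset.mem_univ _, hdX z hz x hx⟩
  have hcardF : F.card ≤ G.card * NR R := by
    refine (Finset.card_le_card hsub).trans (Finset.card_biUnion_le.trans ?_)
    refine (Finset.sum_le_card_nsmul _ _ (NR R) (fun p _ => card_local p R)).trans ?_
    rw [smul_eq_mul]
  have hX : ∀ X ∈ F, J * (q : ℝ) ^ (2 * X.card) ≤ J * (q : ℝ) ^ (2 * (2 * R + 1) ^ 2) := by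
    intro X hX
    obtain ⟨⟨x, hx⟩, hdX⟩ := hd X (hF X hX).1
    have h1 : X ⊆ ball x R := by
      intro z hz
      exact Finset.mem_filter.mpr ⟨Finset.mem_univ _, hdX z hz x hx⟩
    have h2 : X.card ≤ (2 * R + 1) ^ 2 := (Finset.card_le_card h1).trans (card_ball x R)
    refine mul_le_mul_of_nonneg_left ?_ hJ
    exact pow_le_pow_right₀ hq1 (by omega)
  refine (Finset.sum_le_card_nsmul _ _ _ hX).trans ?_
  rw [nsmul_eq_mul]
  have h3 : (F.card : ℝ) ≤ G.card * NR R := by exact_mod_cast hcardF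
  have h4 : 0 ≤ J * (q : ℝ) ^ (2 * (2 * R + 1) ^ 2) := by positivity
  refine (mul_le_mul_of_nonneg_right h3 h4).trans (le_of_eq ?_)
  ring

/-- growth of `1 - δ H_B` for a region `B`, along the nested cuts `I k` -/
theorem region_growth {L q R : ℕ} {J Δ : ℝ} (hJ : 0 < J) (hq : 1 ≤ q)
    {h : Finset (Site L) → Op (Site L) q} {Ω : Conf (Site L) q → ℂ} (hF : FFLG L q R J Δ h Ω)
    (n : ℕ) (hn : 4 ≤ n) (I : ℕ → Finset (Site L))
    (hI : ∀ k x y, x ∈ I k → dist1 x y ≤ R → y ∈ I (k + 1)) {m : ℝ} (hm : 0 ≤ m)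
    (B : Finset (Site L)) :
    ∃ C : ℝ, 0 ≤ C ∧ ∀ δ : ℝ, 0 ≤ δ →
      Gro (α := fun k => Conf {x // x ∈ (I k)ᶜ} q) (β := fun k => Conf {x // ¬ x ∈ (I k)ᶜ} q)
        (fun k => cut (I k)ᶜ q) (fun _ => 1 / (n : ℝ)) n m (1 - (δ : ℂ) • HB h B)
      (18 * δ * (J * (q : ℝ) ^ (2 * (2 * R + 1) ^ 2) * NR R) * (B ∩ I n).card / (n : ℝ) ^ 2 +
        C * δ ^ 2) := by
  classical
  have hn0 : (0 : ℝ) < n := by
    have : 0 < n := by omega
    exact_mod_cast this
  -- monotonicity of the regions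
  have hI1 : ∀ k x, x ∈ I k → x ∈ I (k + 1) := fun k x hx =>
    hI k x x hx (by rw [dist1_self]; exact Nat.zero_le _)
  have hIm : ∀ j k, j ≤ k → ∀ x, x ∈ I j → x ∈ I k := by
    intro j k hjk
    induction k, hjk using Nat.le_induction with
    | base => exact fun x hx => hx
    | succ k _ ih => exact fun x hx => hI1 k x (ih x hx)
  -- the terms
  let h' : Finset (Site L) → Op (Site L) q := fun X => if X ⊆ B then h X else 0
  have hsum : ∑ X, h' X = HB h B := by
    rw [HB, Finset.sum_filter]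
  have hh'1 : ∀ X, h' X ≠ 0 → X ⊆ B ∧ h' X = h X ∧ h X ≠ 0 := by
    intro X hX
    by_cases hXB : X ⊆ B
    · have e : h' X = h X := if_pos hXB
      exact ⟨hXB, e, by rwa [e] at hX⟩
    · exact absurd (if_neg hXB) hX
  -- the index of a term
  have hex : ∀ X : Finset (Site L), ∃ k, k = n ∨ ∃ x ∈ X, x ∈ I k := fun X => ⟨n, Or.inl rfl⟩
  let κ : Finset (Site L) → ℕ := fun X => Nat.find (hex X)
  have hκ1 : ∀ X, κ X < n → ∃ x ∈ X, x ∈ I (κ X) := by
    intro X hX
    rcases Nat.find_spec (hex X) with h1 | h1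
    · exact absurd h1 (ne_of_lt hX)
    · exact h1
  have hκ2 : ∀ X j, j < κ X → ∀ x ∈ X, x ∉ I j := by
    intro X j hj x hx hxI
    exact Nat.find_min (hex X) hj (Or.inr ⟨x, hx, hxI⟩)
  let w : Finset (Site L) → ℝ := fun X =>
    if h' X ≠ 0 then J * (q : ℝ) ^ (2 * X.card) else 0
  obtain ⟨C, hC, hG⟩ := growth (N := Conf (Site L) q) (α := fun k => Conf {x // x ∈ (I k)ᶜ} q)
    (β := fun k => Conf {x // ¬ x ∈ (I k)ᶜ} q) (fun k => cut (I k)ᶜ q)
    (by
      -- nested cuts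
      intro j k hjk Y S
      obtain ⟨S', hS'⟩ := b5_opR (I j)ᶜ S
      rw [hS']
      refine opOn_comm (I k)ᶜ (I j)ᶜᶜ ?_ Y S'
      rw [Finset.disjoint_left]
      intro x hx hx'
      rw [compl_compl] at hx'
      exact (Finset.mem_compl.mp hx) (hIm j k hjk x hx'))
    (fun _ => 1 / (n : ℝ)) hm (fun _ => by positivity)
    (fun _ => by
      have : (4 : ℝ) ≤ n := by exact_mod_cast hn
      exact one_div_le_one_div_of_le (by norm_num) this) n h' κ
    (by
      intro X j hj S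
      by_cases h0 : h' X = 0
      · rw [h0, Matrix.zero_mul, Matrix.mul_zero]
      · obtain ⟨hXB, e, hne⟩ := hh'1 X h0
        rw [e]
        obtain ⟨S', hS'⟩ := b5_opR (I j)ᶜ S
        obtain ⟨k, hk⟩ := b5_actsOn (hF.loc X)
        rw [hS', hk]
        refine opOn_comm X (I j)ᶜᶜ ?_ k S'
        rw [Finset.disjoint_left]
        intro x hx hx'
        rw [compl_compl] at hx'
        exact hκ2 X j hj x hx hx')
    (by
      intro X j hj hjn Y
      by_cases h0 : h' X = 0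
      · rw [h0, Matrix.zero_mul, Matrix.mul_zero]
      · obtain ⟨hXB, e, hne⟩ := hh'1 X h0
        rw [e]
        obtain ⟨k, hk⟩ := b5_actsOn (hF.loc X)
        obtain ⟨x, hx, hxI⟩ := hκ1 X (hj.trans hjn)
        have hsub : ∀ y ∈ X, y ∈ I j := fun y hy =>
          hIm (κ X + 1) j hj y (hI (κ X) x y hxI ((hF.range X hne).2 x hx y hy))
        rw [hk]
        refine opOn_comm X (I j)ᶜ ?_ k Y
        rw [Finset.disjoint_left]
        intro y hy hy'
        exact (Finset.mem_compl.mp hy') (hsub y hy))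
    w
    (by
      intro X hX
      by_cases h0 : h' X = 0
      · have e1 : w X = 0 := if_neg (not_not.mpr h0)
        rw [e1]
        refine cutBound_right _ 0 _ ?_
        rw [h0, opR_zero]
      · obtain ⟨hXB, e, hne⟩ := hh'1 X h0
        have e1 : w X = |J| * (q : ℝ) ^ (2 * X.card) := by
          rw [abs_of_pos hJ]; exact if_pos h0
        rw [e1, e]
        exact b5_cut _ X (hF.herm X) (hF.loc X) (hF.norm X) (fun h1 => (hF.range X h1).1))
    (by
      intro ψ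
      rw [hsum, HB, en, sum_mulVec, dotProduct_sum, Complex.re_sum]
      exact Finset.sum_nonneg fun X _ => hF.pos X ψ)
  refine ⟨C, hC, fun δ hδ => ?_⟩
  have h1 := hG δ hδ
  rw [hsum] at h1
  refine Gro.mono h1 ?_
  -- the weights
  have h2 : (∑ X, if κ X < n then (1 / (n : ℝ)) ^ 2 * w X else 0) ≤
      (J * (q : ℝ) ^ (2 * (2 * R + 1) ^ 2) * NR R) * (B ∩ I n).card / (n : ℝ) ^ 2 := by
    have h3 : (∑ X, if κ X < n then (1 / (n : ℝ)) ^ 2 * w X else 0) =
        (1 / (n : ℝ)) ^ 2 * ∑ X ∈ Finset.univ.filter (fun X => κ X < n ∧ h' X ≠ 0),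
          J * (q : ℝ) ^ (2 * X.card) := by
      rw [Finset.mul_sum, Finset.sum_filter]
      refine Finset.sum_congr rfl fun X _ => ?_
      by_cases h4 : κ X < n
      · by_cases h5 : h' X ≠ 0
        · rw [if_pos h4, if_pos ⟨h4, h5⟩]
          simp only [w, if_pos h5]
        · rw [if_pos h4, if_neg (fun h6 => h5 h6.2)]
          simp only [w, if_neg h5, mul_zero]
      · rw [if_neg h4, if_neg (fun h6 => h4 h6.1)]
    rw [h3]
    have h4 := na_j0_count (R := R) (B ∩ I n) h hF.range hJ.le hq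
      (Finset.univ.filter (fun X => κ X < n ∧ h' X ≠ 0)) (by
        intro X hX
        obtain ⟨_, hXn, hX0⟩ := Finset.mem_filter.mp hX
        obtain ⟨hXB, e, hne⟩ := hh'1 X hX0
        refine ⟨hne, fun y hy => Finset.mem_inter.mpr ⟨hXB hy, ?_⟩⟩
        obtain ⟨x, hx, hxI⟩ := hκ1 X hXn
        exact hIm (κ X + 1) n hXn y (hI (κ X) x y hxI ((hF.range X hne).2 x hx y hy)))
    have h5 : 0 ≤ (1 / (n : ℝ)) ^ 2 := by positivity
    refine (mul_le_mul_of_nonneg_left h4 h5).trans (le_of_eq ?_)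
    field_simp
  have h3 : 0 ≤ 18 * δ := by positivity
  have h4 := mul_le_mul_of_nonneg_left h2 h3
  have e : 18 * δ * ((J * (q : ℝ) ^ (2 * (2 * R + 1) ^ 2) * NR R) * (B ∩ I n).card /
      (n : ℝ) ^ 2) = 18 * δ * (J * (q : ℝ) ^ (2 * (2 * R + 1) ^ 2) * NR R) *
        (B ∩ I n).card / (n : ℝ) ^ 2 := by ring
  rw [e] at h4
  linarith

end J0

end Vale.Agent.P356.NA
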