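import Vale.Agent.P356.NA.ExKb
import Mathlib.Analysis.SpecialFunctions.Log.Monotone
import Mathlib.Analysis.Asymptotics.SpecificAsymptotics
import Mathlib.Analysis.SpecialFunctions.Pow.Asymptotics

set_option linter.all false

/-!
Parameters for the operator K.
-/

namespace Vale.Agent.P356.NA

open Filter

theorem j_ev_exp (A a : ℝ) (ha : 0 < a) : ∀ᶠ x : ℝ in atTop, A * x ^ 2 ≤ Real.exp (a * x) := by
  have h := isLittleO_pow_exp_pos_mul_atTop (k := 2) ha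
  have h1 := h.bound (show (0 : ℝ) < 1 / (|A| + 1) by positivity)
  filter_upwards [h1, eventually_ge_atTop 0] with x hx hx0
  rw [Real.norm_eq_abs, Real.norm_eq_abs, abs_of_nonneg (by positivity),
    abs_of_pos (Real.exp_pos _)] at hx
  have h2 : (|A| + 1) * x ^ 2 ≤ Real.exp (a * x) := by
    have h3 : (|A| + 1) * x ^ 2 ≤ (|A| + 1) * (1 / (|A| + 1) * Real.exp (a * x)) :=
      mul_le_mul_of_nonneg_left hx (by positivity)
    refine h3.trans (le_of_eq ?_)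
    field_simp
  refine le_trans ?_ h2
  refine mul_le_mul_of_nonneg_right ?_ (by positivity)
  have := le_abs_self A
  linarith

theorem j_ev_log (A B : ℝ) (hA : 0 ≤ A) (hB : 0 ≤ B) :
    ∀ᶠ x : ℝ in atTop, (A + B * Real.log x) ^ 5 < x := by
  have h := Real.isLittleO_pow_log_id_atTop (n := 5)
  have h1 := h.bound (show (0 : ℝ) < 1 / ((A + B + 1) ^ 5 + 1) by positivity)
  filter_upwards [h1, eventually_ge_atTop (Real.exp 1)] with x hx hx0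
  have hxp : 0 < x := lt_of_lt_of_le (Real.exp_pos 1) hx0
  have hl : 1 ≤ Real.log x := by
    rw [← Real.log_exp 1]
    exact Real.log_le_log (Real.exp_pos 1) hx0
  rw [Real.norm_eq_abs, Real.norm_eq_abs, abs_of_nonneg (by positivity), id,
    abs_of_pos hxp] at hx
  have h2 : A + B * Real.log x ≤ (A + B + 1) * Real.log x := by nlinarith
  have h3 : (A + B * Real.log x) ^ 5 ≤ ((A + B + 1) * Real.log x) ^ 5 :=
    pow_le_pow_left₀ (by positivity) h2 5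
  have h4 : ((A + B + 1) * Real.log x) ^ 5 ≤ (A + B + 1) ^ 5 *
      (1 / ((A + B + 1) ^ 5 + 1) * x) := by
    rw [mul_pow]
    exact mul_le_mul_of_nonneg_left hx (by positivity)
  have h5 : (A + B + 1) ^ 5 * (1 / ((A + B + 1) ^ 5 + 1) * x) < x := by
    have h6 : (0 : ℝ) < (A + B + 1) ^ 5 + 1 := by positivity
    rw [← mul_assoc, mul_one_div, div_mul_eq_mul_div, div_lt_iff₀ h6]
    nlinarith
  linarith

theorem j_exps {c₀ C₁ S : ℝ} (hS : 1 ≤ S) (hC₁ : 0 < C₁)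
    (h1 : 49 * C₁ * 3 * S ^ 2 ≤ Real.exp (3 * c₀ * S)) (h2 : 49 * 3 * S ^ 2 ≤ Real.exp (c₀ * S)) :
    (49 * S ^ 2 * C₁ * Real.exp (-(4 * c₀ * S)) ≤ Real.exp (-(c₀ * S)) / 3) ∧
      (49 * S ^ 2 * Real.exp (-(2 * c₀ * S)) ≤ Real.exp (-(c₀ * S)) / 3) ∧
      (Real.exp (-(2 * c₀ * S)) ≤ Real.exp (-(c₀ * S)) / 3) := by
  have hE0 : 0 < Real.exp (-(c₀ * S)) := Real.exp_pos _
  have h5 : Real.exp (-(4 * c₀ * S)) = Real.exp (-(c₀ * S)) * Real.exp (-(3 * c₀ * S)) := by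
    rw [← Real.exp_add]
    congr 1
    ring
  have h5' : Real.exp (-(2 * c₀ * S)) = Real.exp (-(c₀ * S)) * Real.exp (-(c₀ * S)) := by
    rw [← Real.exp_add]
    congr 1
    ring
  have h6 : Real.exp (3 * c₀ * S) * Real.exp (-(3 * c₀ * S)) = 1 := by
    rw [← Real.exp_add, add_neg_cancel, Real.exp_zero]
  have h6' : Real.exp (c₀ * S) * Real.exp (-(c₀ * S)) = 1 := by
    rw [← Real.exp_add, add_neg_cancel, Real.exp_zero]
  have h8 : (49 * C₁ * 3 * S ^ 2) * Real.exp (-(3 * c₀ * S)) ≤ 1 := by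
    rw [← h6]
    exact mul_le_mul_of_nonneg_right h1 (Real.exp_pos _).le
  have h8' : (49 * 3 * S ^ 2) * Real.exp (-(c₀ * S)) ≤ 1 := by
    rw [← h6']
    exact mul_le_mul_of_nonneg_right h2 (Real.exp_pos _).le
  have h9 : (3 : ℝ) ≤ 49 * 3 * S ^ 2 := by
    have : (1 : ℝ) ≤ S ^ 2 := one_le_pow₀ hS
    linarith
  have h10 : 3 * Real.exp (-(c₀ * S)) ≤ 1 :=
    (mul_le_mul_of_nonneg_right h9 hE0.le).trans h8'
  refine ⟨?_, ?_, ?_⟩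
  · rw [h5]
    calc 49 * S ^ 2 * C₁ * (Real.exp (-(c₀ * S)) * Real.exp (-(3 * c₀ * S))) =
        Real.exp (-(c₀ * S)) / 3 * ((49 * C₁ * 3 * S ^ 2) * Real.exp (-(3 * c₀ * S))) := by ring
      _ ≤ Real.exp (-(c₀ * S)) / 3 * 1 := mul_le_mul_of_nonneg_left h8 (by positivity)
      _ = _ := mul_one _
  · rw [h5']
    calc 49 * S ^ 2 * (Real.exp (-(c₀ * S)) * Real.exp (-(c₀ * S))) =
        Real.exp (-(c₀ * S)) / 3 * ((49 * 3 * S ^ 2) * Real.exp (-(c₀ * S))) := by ring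
      _ ≤ Real.exp (-(c₀ * S)) / 3 * 1 := mul_le_mul_of_nonneg_left h8' (by positivity)
      _ = _ := mul_one _
  · rw [h5']
    calc Real.exp (-(c₀ * S)) * Real.exp (-(c₀ * S)) =
        Real.exp (-(c₀ * S)) / 3 * (3 * Real.exp (-(c₀ * S))) := by ring
      _ ≤ Real.exp (-(c₀ * S)) / 3 * 1 := mul_le_mul_of_nonneg_left h10 (by positivity)
      _ = _ := mul_one _

theorem j_nbound {Y S n : ℝ} (hY : 0 ≤ Y) (hS : 0 < S) (hn : 0 < n) (h : S ^ 8 ≤ n ^ 5)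
    (hYS : Y ^ 5 < S) : Y * S ^ 3 ≤ n ^ 2 := by
  by_contra hc
  push Not at hc
  have h5 : (n ^ 2) ^ 5 < (Y * S ^ 3) ^ 5 :=
    pow_lt_pow_left₀ hc (by positivity) (by norm_num)
  have h6 : (S ^ 8) ^ 2 ≤ (n ^ 5) ^ 2 := pow_le_pow_left₀ (by positivity) h 2
  have h7 : S * S ^ 15 < Y ^ 5 * S ^ 15 := by
    calc S * S ^ 15 = (S ^ 8) ^ 2 := by ring
      _ ≤ (n ^ 5) ^ 2 := h6
      _ = (n ^ 2) ^ 5 := by ring
      _ < (Y * S ^ 3) ^ 5 := h5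
      _ = Y ^ 5 * S ^ 15 := by ring
  have h8 : S < Y ^ 5 := lt_of_mul_lt_mul_right h7 (by positivity)
  linarith

theorem j_log196 {S : ℝ} (hS : 1 ≤ S) :
    1 ≤ Real.log (196 * S ^ 2) ∧ Real.log (196 * S ^ 2) ≤ 6 + 2 * Real.log S := by
  have h27 : (2.7 : ℝ) ≤ Real.exp 1 := by
    have := Real.exp_one_gt_d9; linarith
  constructor
  · rw [Real.le_log_iff_exp_le (by positivity)]
    have := Real.exp_one_lt_d9
    have h1 : (1 : ℝ) ≤ S ^ 2 := one_le_pow₀ hS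
    linarith
  · rw [Real.log_mul (by norm_num) (by positivity), Real.log_pow]
    have : Real.log 196 ≤ 6 := by
      rw [Real.log_le_iff_le_exp (by norm_num)]
      calc (196 : ℝ) ≤ 2.7 ^ 6 := by norm_num
        _ ≤ Real.exp 1 ^ 6 := pow_le_pow_left₀ (by norm_num) h27 6
        _ = Real.exp 6 := by rw [← Real.exp_nat_mul]; norm_num
    push_cast
    linarith

theorem j_final {X₁ X₂ κ₀ Δ c₀ S Λ n : ℝ} (hκ : 0 < κ₀) (hΔ : 0 < Δ) (hc₀ : 0 < c₀)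
    (hX₁ : X₁ = 49 * 72 * 9 * κ₀ * (64 / Δ + 1) / c₀)
    (hX₂ : X₂ = 2 * 9 * 72 * κ₀ / 63 * ((2 * c₀ + 64) / Δ + 1)) (hS : 1 ≤ S) (hΛ : 1 ≤ Λ)
    (hn : 0 < n) (hn3 : (X₁ + X₂) * Λ * S ^ 3 ≤ n ^ 2) :
    49 * S ^ 2 * ((64 * Λ / Δ + 1) * (72 * κ₀ * S ^ 2 / n ^ 2)) ≤ c₀ * S / 9 ∧
    2 * c₀ * S / 63 * (((2 * c₀ * S + 64 * Λ) / Δ + 1) * (72 * κ₀ * S ^ 2 / n ^ 2)) ≤
      c₀ * S / 9 := by
  have hX₁p : 0 < X₁ := by rw [hX₁]; positivity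
  have hX₂p : 0 < X₂ := by rw [hX₂]; positivity
  have hS0 : 0 < S := by linarith
  have hΛp : 0 < Λ := by linarith
  have hq : 72 * κ₀ * S ^ 2 / n ^ 2 ≤ 72 * κ₀ * S ^ 2 / ((X₁ + X₂) * Λ * S ^ 3) := by
    apply div_le_div_of_nonneg_left (by positivity) (by positivity) hn3
  have hq2 : 72 * κ₀ * S ^ 2 / ((X₁ + X₂) * Λ * S ^ 3) = 72 * κ₀ / ((X₁ + X₂) * Λ * S) := by
    field_simp
  rw [hq2] at hq
  constructor
  · have h5 : 64 * Λ / Δ + 1 ≤ (64 / Δ + 1) * Λ := by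
      have : 64 * Λ / Δ = 64 / Δ * Λ := by ring
      rw [this, add_mul, one_mul]
      linarith
    calc 49 * S ^ 2 * ((64 * Λ / Δ + 1) * (72 * κ₀ * S ^ 2 / n ^ 2))
        ≤ 49 * S ^ 2 * (((64 / Δ + 1) * Λ) * (72 * κ₀ / ((X₁ + X₂) * Λ * S))) := by
          refine mul_le_mul_of_nonneg_left ?_ (by positivity)
          exact mul_le_mul h5 hq (by positivity) (by positivity)
      _ = (49 * 72 * κ₀ * (64 / Δ + 1)) * S / (X₁ + X₂) := by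
          field_simp
      _ ≤ (49 * 72 * κ₀ * (64 / Δ + 1)) * S / X₁ := by
          apply div_le_div_of_nonneg_left (by positivity) hX₁p
          linarith
      _ = c₀ * S / 9 := by
          rw [hX₁]
          field_simp
  · have h5 : (2 * c₀ * S + 64 * Λ) / Δ + 1 ≤ ((2 * c₀ + 64) / Δ + 1) * (Λ * S) := by
      have h6 : S ≤ Λ * S := le_mul_of_one_le_left hS0.le hΛ
      have h7 : Λ ≤ Λ * S := le_mul_of_one_le_right hΛp.le hS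
      have h1 : 1 ≤ Λ * S := hS.trans h6
      have h8 : (2 * c₀ * S + 64 * Λ) / Δ ≤ ((2 * c₀ + 64) * (Λ * S)) / Δ := by
        apply div_le_div_of_nonneg_right _ hΔ.le
        have : 2 * c₀ * S ≤ 2 * c₀ * (Λ * S) := mul_le_mul_of_nonneg_left h6 (by positivity)
        linarith
      have h9 : ((2 * c₀ + 64) * (Λ * S)) / Δ = (2 * c₀ + 64) / Δ * (Λ * S) := by ring
      rw [h9] at h8
      rw [add_mul, one_mul]
      linarith
    calc 2 * c₀ * S / 63 * (((2 * c₀ * S + 64 * Λ) / Δ + 1) *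
        (72 * κ₀ * S ^ 2 / n ^ 2))
        ≤ 2 * c₀ * S / 63 * ((((2 * c₀ + 64) / Δ + 1) * (Λ * S)) *
          (72 * κ₀ / ((X₁ + X₂) * Λ * S))) := by
          refine mul_le_mul_of_nonneg_left ?_ (by positivity)
          exact mul_le_mul h5 hq (by positivity) (by positivity)
      _ = (2 * 72 * κ₀ / 63 * ((2 * c₀ + 64) / Δ + 1)) * (c₀ * S) / (X₁ + X₂) := by
          field_simp
      _ ≤ (2 * 72 * κ₀ / 63 * ((2 * c₀ + 64) / Δ + 1)) * (c₀ * S) / X₂ := by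
          apply div_le_div_of_nonneg_left (by positivity) hX₂p
          linarith
      _ = c₀ * S / 9 := by
          rw [hX₂]
          field_simp

theorem j_param (c₀ C₁ Δ κ₀ : ℝ) (hc₀ : 0 < c₀) (hC₁ : 0 < C₁) (hΔ : 0 < Δ) (hκ : 0 < κ₀) :
    ∃ s0 : ℕ, 1 ≤ s0 ∧ ∀ s : ℕ, s0 ≤ s →
      (49 * (s : ℝ) ^ 2 * C₁ * Real.exp (-(4 * c₀ * s)) ≤ Real.exp (-(c₀ * s)) / 3) ∧
      (49 * (s : ℝ) ^ 2 * Real.exp (-(2 * c₀ * s)) ≤ Real.exp (-(c₀ * s)) / 3) ∧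
      (Real.exp (-(2 * c₀ * s)) ≤ Real.exp (-(c₀ * s)) / 3) ∧
      ∀ n : ℕ, 1 ≤ n → s ^ 8 ≤ n ^ 5 →
        49 * (s : ℝ) ^ 2 * ((64 * Real.log (196 * (s : ℝ) ^ 2) / Δ + 1) *
          (72 * κ₀ * (s : ℝ) ^ 2 / (n : ℝ) ^ 2)) ≤ c₀ * s / 9 ∧
        2 * c₀ * s / 63 * (((2 * c₀ * s + 64 * Real.log (196 * (s : ℝ) ^ 2)) / Δ + 1) *
          (72 * κ₀ * (s : ℝ) ^ 2 / (n : ℝ) ^ 2)) ≤ c₀ * s / 9 := by
  obtain ⟨X₁, hX₁⟩ : ∃ X₁ : ℝ, X₁ = 49 * 72 * 9 * κ₀ * (64 / Δ + 1) / c₀ := ⟨_, rfl⟩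
  obtain ⟨X₂, hX₂⟩ : ∃ X₂ : ℝ, X₂ = 2 * 9 * 72 * κ₀ / 63 * ((2 * c₀ + 64) / Δ + 1) := ⟨_, rfl⟩
  have hX₁p : 0 < X₁ := by rw [hX₁]; positivity
  have hX₂p : 0 < X₂ := by rw [hX₂]; positivity
  have e1 := j_ev_exp (49 * C₁ * 3) (3 * c₀) (by positivity)
  have e2 := j_ev_exp (49 * 3) c₀ hc₀
  have e3 := j_ev_log ((X₁ + X₂) * 6) ((X₁ + X₂) * 2) (by positivity) (by positivity)
  have e4 := (e1.and (e2.and e3))
  obtain ⟨x0, hx0⟩ := eventually_atTop.mp e4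
  refine ⟨max 1 ⌈x0⌉₊, le_max_left _ _, ?_⟩
  intro s hs
  have hs1 : 1 ≤ s := (le_max_left _ _).trans hs
  have hsx : x0 ≤ (s : ℝ) := (Nat.le_ceil x0).trans (by exact_mod_cast (le_max_right _ _).trans hs)
  obtain ⟨h1, h2, h3⟩ := hx0 s hsx
  have hS : (1 : ℝ) ≤ (s : ℝ) := by exact_mod_cast hs1
  obtain ⟨a1, a2, a3⟩ := j_exps hS hC₁ h1 h2
  refine ⟨a1, a2, a3, ?_⟩
  intro n hn hsn
  have hnp : (0 : ℝ) < (n : ℝ) := by exact_mod_cast hn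
  obtain ⟨hΛ0, hΛ1⟩ := j_log196 hS
  have hlog : 0 ≤ Real.log (s : ℝ) := Real.log_nonneg hS
  have hY0 : 0 ≤ (X₁ + X₂) * 6 + (X₁ + X₂) * 2 * Real.log (s : ℝ) := by positivity
  have hn2 := j_nbound hY0 (by linarith) hnp (by exact_mod_cast hsn) h3
  have hYΛ : (X₁ + X₂) * Real.log (196 * (s : ℝ) ^ 2) ≤
      (X₁ + X₂) * 6 + (X₁ + X₂) * 2 * Real.log (s : ℝ) := by
    have := mul_le_mul_of_nonneg_left hΛ1 (show 0 ≤ X₁ + X₂ by positivity)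
    linarith
  exact j_final hκ hΔ hc₀ hX₁ hX₂ hS hΛ0 hnp
    ((mul_le_mul_of_nonneg_right hYΛ (by positivity)).trans hn2)

end Vale.Agent.P356.NA
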