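import Vale.Agent.P356.NA.SpecBase

/-!
Kernel projections of Hermitian matrices, as polynomials of the matrix.
-/

set_option linter.all false

namespace Vale.Agent.P356.NA

open Matrix Finset Vale.Agent.P356 Vale.Agent.P356.SV Vale.Agent.P356.Path Polynomial
open scoped BigOperators ComplexOrder Kronecker

section C
variable {N : Type*} [Fintype N] [DecidableEq N]

theorem na_spec_eq_of_mulVec {A B : Matrix N N ℂ} (h : ∀ v : N → ℂ, A *ᵥ v = B *ᵥ v) : A = B :=
  Matrix.ext_of_mulVec_single fun _ => h _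

theorem na_spec_nsq_zero {φ : N → ℂ} (h : nsq φ = 0) : φ = 0 := by
  funext i
  rw [nsq] at h
  have h11 := (Finset.sum_eq_zero_iff_of_nonneg (fun i _ => sq_nonneg _)).mp h i
    (Finset.mem_univ i)
  simpa using h11

theorem na_spec_add {H : Matrix N N ℂ} (hH : H.IsHermitian) (f g : N → ℝ) :
    naF hH f + naF hH g = naF hH (fun i => f i + g i) := by
  rw [naF, naF, naF, ← Matrix.add_mul, ← Matrix.mul_add, diagonal_add]
  simp only [Complex.ofReal_add]

/-- real polynomials of a Hermitian matrix -/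
theorem na_spec_aeval {H : Matrix N N ℂ} (hH : H.IsHermitian) (p : ℝ[X]) :
    aeval H (p.map (algebraMap ℝ ℂ)) = naF hH (fun i => p.eval (hH.eigenvalues i)) := by
  induction p using Polynomial.induction_on' with
  | add p q hp hq =>
    rw [Polynomial.map_add, map_add, hp, hq, na_spec_add]
    simp only [eval_add]
  | monomial n a =>
    rw [Polynomial.map_monomial, aeval_monomial, ← Algebra.smul_def]
    have h1 : H ^ n = naF hH (fun i => hH.eigenvalues i ^ n) := by
      rw [← na_spow_pow, ← na_spow_spec hH]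
    rw [h1]
    have h2 : ((algebraMap ℝ ℂ) a) = ((a : ℝ) : ℂ) := rfl
    rw [h2, na_spow_smul]
    simp only [eval_monomial]

/-- the indicator of zero on the spectrum, as a polynomial -/
theorem na_spec_poly (s : Finset ℝ) : ∃ p : ℝ[X], ∀ x ∈ s, p.eval x = if x = 0 then 1 else 0 := by
  classical
  refine ⟨∏ μ ∈ s.erase 0, (C 1 - C μ⁻¹ * X), fun x hx => ?_⟩
  rw [eval_prod]
  by_cases h : x = 0
  · subst h
    rw [if_pos rfl]
    refine Finset.prod_eq_one fun μ _ => ?_
    simp
  · rw [if_neg h]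
    refine Finset.prod_eq_zero (Finset.mem_erase.mpr ⟨h, hx⟩) ?_
    simp [h]

theorem na_spec_eig {H : Matrix N N ℂ} (hH : H.IsHermitian) :
    H * naF hH (fun i => if hH.eigenvalues i = 0 then 1 else 0) = 0 := by
  have h1 : H * naF hH (fun i => if hH.eigenvalues i = 0 then (1 : ℝ) else 0) =
      naF hH hH.eigenvalues * naF hH (fun i => if hH.eigenvalues i = 0 then (1 : ℝ) else 0) := by
    rw [← na_spow_spec hH]
  rw [h1, na_spow_mul]
  have h2 : (fun i => hH.eigenvalues i * (if hH.eigenvalues i = 0 then (1 : ℝ) else 0)) =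
      fun _ => 0 := by
    funext i
    by_cases h : hH.eigenvalues i = 0
    · simp [h]
    · simp [h]
  rw [h2, naF]
  simp

theorem na_spec_ker {H : Matrix N N ℂ} (hH : H.IsHermitian) {w : N → ℂ} (hw : H *ᵥ w = 0) :
    naF hH (fun i => if hH.eigenvalues i = 0 then 1 else 0) *ᵥ w = w := by
  set Q := naF hH (fun i => if hH.eigenvalues i = 0 then (1 : ℝ) else 0) with hQ
  have h4 : nsq ((1 - Q) *ᵥ w) = 0 := by
    have h5 : (1 - Q) = naF hH (fun i => 1 - (if hH.eigenvalues i = 0 then (1 : ℝ) else 0)) := by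
      rw [hQ, ← na_spow_one hH, na_spow_sub]
    have h6 : nsq (H *ᵥ w) = 0 := by
      rw [hw, nsq]; simp
    rw [na_spow_nsq_eq hH] at h6
    have h7 := (Finset.sum_eq_zero_iff_of_nonneg (fun i _ =>
      mul_nonneg (sq_nonneg _) (na_spow_W_nonneg hH w i))).mp h6
    rw [h5, na_spow_nsq]
    refine Finset.sum_eq_zero fun i _ => ?_
    have h8 := h7 i (Finset.mem_univ i)
    rcases mul_eq_zero.mp h8 with h9 | h9
    · rw [if_pos (pow_eq_zero_iff two_ne_zero |>.mp h9)]; simp
    · rw [h9]; simp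
  have h10 : (1 - Q) *ᵥ w = 0 := na_spec_nsq_zero h4
  rw [Matrix.sub_mulVec, Matrix.one_mulVec, sub_eq_zero] at h10
  exact h10.symm

theorem spec (H : Matrix N N ℂ) (hH : H.IsHermitian) :
    ∃ f : ℂ[X], IsPr (aeval H f) ∧ H * aeval H f = 0 ∧ ∀ ψ, H *ᵥ ψ = 0 → aeval H f *ᵥ ψ = ψ := by
  classical
  obtain ⟨p, hp⟩ := na_spec_poly (Finset.univ.image hH.eigenvalues)
  have hp' : ∀ i, p.eval (hH.eigenvalues i) = if hH.eigenvalues i = 0 then 1 else 0 := fun i =>
    hp _ (Finset.mem_image_of_mem _ (Finset.mem_univ i))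
  refine ⟨p.map (algebraMap ℝ ℂ), ?_⟩
  rw [na_spec_aeval hH]
  simp only [hp']
  refine ⟨⟨?_, na_spow_conj hH _⟩, na_spec_eig hH, fun ψ hψ => na_spec_ker hH hψ⟩
  rw [na_spow_mul]
  congr 1
  funext i
  by_cases h : hH.eigenvalues i = 0
  · simp [h]
  · simp [h]

/-- projection on the kernel of a Hermitian matrix -/
noncomputable def kpr (H : Matrix N N ℂ) : Matrix N N ℂ :=
  open Classical in if h : H.IsHermitian then aeval H (Classical.choose (spec H h)) else 1

theorem kpr_eq {H : Matrix N N ℂ} (hH : H.IsHermitian) :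
    kpr H = aeval H (Classical.choose (spec H hH)) := by
  rw [kpr, dif_pos hH]

theorem kpr_isPr {H : Matrix N N ℂ} (hH : H.IsHermitian) : IsPr (kpr H) := by
  rw [kpr_eq hH]
  exact (Classical.choose_spec (spec H hH)).1

theorem mul_kpr {H : Matrix N N ℂ} (hH : H.IsHermitian) : H * kpr H = 0 := by
  rw [kpr_eq hH]
  exact (Classical.choose_spec (spec H hH)).2.1

theorem kpr_mul {H : Matrix N N ℂ} (hH : H.IsHermitian) : kpr H * H = 0 := by
  have h := congrArg conjTranspose (mul_kpr hH)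
  rwa [conjTranspose_mul, (kpr_isPr hH).2, hH.eq, conjTranspose_zero] at h

theorem kpr_of_ker {H : Matrix N N ℂ} (hH : H.IsHermitian) {ψ : N → ℂ} (h : H *ᵥ ψ = 0) :
    kpr H *ᵥ ψ = ψ := by
  rw [kpr_eq hH]
  exact (Classical.choose_spec (spec H hH)).2.2 ψ h

theorem na_spec_comm {H A : Matrix N N ℂ} (h : A * H = H * A) (p : ℂ[X]) :
    A * aeval H p = aeval H p * A := by
  induction p using Polynomial.induction_on' with
  | add p q hp hq => rw [map_add, Matrix.mul_add, Matrix.add_mul, hp, hq]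
  | monomial n a =>
    rw [aeval_monomial, ← Algebra.smul_def, Matrix.mul_smul, Matrix.smul_mul]
    have h1 : A * H ^ n = H ^ n * A := (Commute.pow_right (show Commute A H from h) n)
    rw [h1]

theorem kpr_comm {H A : Matrix N N ℂ} (hH : H.IsHermitian) (h : A * H = H * A) :
    A * kpr H = kpr H * A := by
  rw [kpr_eq hH]
  exact na_spec_comm h _

/-- larger kernels -/
theorem kpr_le {H H' : Matrix N N ℂ} (hH : H.IsHermitian) (hH' : H'.IsHermitian)
    (h : ∀ ψ, H *ᵥ ψ = 0 → H' *ᵥ ψ = 0) : kpr H' * kpr H = kpr H ∧ kpr H * kpr H' = kpr H := by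
  have h1 : kpr H' * kpr H = kpr H := by
    refine na_spec_eq_of_mulVec fun v => ?_
    rw [← Matrix.mulVec_mulVec]
    refine kpr_of_ker hH' (h _ ?_)
    rw [Matrix.mulVec_mulVec, mul_kpr hH, Matrix.zero_mulVec]
  refine ⟨h1, ?_⟩
  have h2 := congrArg conjTranspose h1
  rwa [conjTranspose_mul, (kpr_isPr hH).2, (kpr_isPr hH').2] at h2

/-- nonnegative operators: zero expectation means zero -/
theorem en_zero {H : Matrix N N ℂ} (hH : H.IsHermitian) (hpos : ∀ ψ, 0 ≤ en H ψ) {ψ : N → ℂ}
    (h : en H ψ = 0) : H *ᵥ ψ = 0 := by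
  refine na_spec_nsq_zero ?_
  rw [na_spow_en_eq hH] at h
  have h7 := (Finset.sum_eq_zero_iff_of_nonneg (fun i _ =>
    mul_nonneg (na_spow_ev_nonneg hH hpos i) (na_spow_W_nonneg hH ψ i))).mp h
  rw [na_spow_nsq_eq hH]
  refine Finset.sum_eq_zero fun i hi => ?_
  rw [pow_two, mul_assoc, h7 i hi, mul_zero]

/-- the kernel projection in the eigenbasis -/
theorem kpr_eq_naF {H : Matrix N N ℂ} (hH : H.IsHermitian) :
    kpr H = naF hH (fun i => if hH.eigenvalues i = 0 then 1 else 0) := by
  have h1 : kpr H * naF hH (fun i => if hH.eigenvalues i = 0 then 1 else 0) =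
      naF hH (fun i => if hH.eigenvalues i = 0 then 1 else 0) := by
    refine na_spec_eq_of_mulVec fun v => ?_
    rw [← Matrix.mulVec_mulVec]
    refine kpr_of_ker hH ?_
    rw [Matrix.mulVec_mulVec, na_spec_eig hH, Matrix.zero_mulVec]
  have h2 : naF hH (fun i => if hH.eigenvalues i = 0 then 1 else 0) * kpr H = kpr H := by
    refine na_spec_eq_of_mulVec fun v => ?_
    rw [← Matrix.mulVec_mulVec]
    refine na_spec_ker hH ?_
    rw [Matrix.mulVec_mulVec, mul_kpr hH, Matrix.zero_mulVec]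
  have h3 := congrArg conjTranspose h1
  rw [conjTranspose_mul, na_spow_conj, (kpr_isPr hH).2, h2] at h3
  exact h3

/-- trace of the support projection -/
theorem supp_trace {Z : Matrix N N ℂ} (hZ : Z.IsHermitian) :
    IsPr (1 - kpr Z) ∧ (1 - kpr Z).trace.re = Z.rank := by
  classical
  obtain ⟨h1, h2⟩ := kpr_isPr hZ
  refine ⟨⟨?_, ?_⟩, ?_⟩
  · rw [Matrix.mul_sub, Matrix.sub_mul, Matrix.sub_mul, h1]
    simp
  · rw [conjTranspose_sub, conjTranspose_one, h2]
  · rw [kpr_eq_naF hZ, ← na_spow_one hZ, na_spow_sub, naF, Matrix.trace_mul_comm,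
      ← Matrix.mul_assoc, na_spow_UU', Matrix.one_mul, Matrix.trace_diagonal,
      hZ.rank_eq_card_non_zero_eigs, Fintype.card_subtype, Complex.re_sum]
    simp only [Complex.ofReal_re]
    rw [Finset.card_filter]
    push_cast
    refine Finset.sum_congr rfl fun i _ => ?_
    by_cases h : hZ.eigenvalues i = 0
    · simp [h]
    · simp [h]

theorem na_spec_opL_comm {N' α' β' : Type*} [Fintype N'] [DecidableEq N'] [Fintype α']
    [DecidableEq α'] [Fintype β'] [DecidableEq β'] (e : N' ≃ α' × β') {Z : Matrix α' α' ℂ}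
    {A : Matrix N' N' ℂ} (h : A * opL e Z = opL e Z * A) (p : ℂ[X]) :
    A * opL e (aeval Z p) = opL e (aeval Z p) * A := by
  induction p using Polynomial.induction_on' with
  | add p q hp hq => rw [map_add, opL_add, Matrix.mul_add, Matrix.add_mul, hp, hq]
  | monomial n a =>
    rw [aeval_monomial, ← Algebra.smul_def, opL_smul, Matrix.mul_smul, Matrix.smul_mul]
    have h1 : A * opL e (Z ^ n) = opL e (Z ^ n) * A := by
      induction n with
      | zero => rw [pow_zero, opL_one, Matrix.mul_one, Matrix.one_mul]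
      | succ n ih =>
        rw [pow_succ, opL_mul, ← Matrix.mul_assoc, ih, Matrix.mul_assoc, h, ← Matrix.mul_assoc]
    rw [h1]

/-- locality -/
theorem kpr_opL {N' α' β' : Type*} [Fintype N'] [DecidableEq N'] [Fintype α'] [DecidableEq α']
    [Fintype β'] [DecidableEq β'] (e : N' ≃ α' × β') {Z : Matrix α' α' ℂ} (hZ : Z.IsHermitian)
    {A : Matrix N' N' ℂ} (h : A * opL e Z = opL e Z * A) :
    A * opL e (kpr Z) = opL e (kpr Z) * A := by
  rw [kpr_eq hZ]
  exact na_spec_opL_comm e h _

end C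

end Vale.Agent.P356.NA
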