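import Vale.Agent.P356.NA.SpecBase
import Vale.Agent.P356.NA.Spec

/-!
Powers of `1 - δ H` for a nonnegative Hermitian matrix `H` with a gap above the kernel.
-/

set_option linter.all false

namespace Vale.Agent.P356.NA

open Matrix Finset Vale.Agent.P356 Vale.Agent.P356.SV Vale.Agent.P356.Path
open scoped BigOperators ComplexOrder Kronecker

section spow
variable {N : Type*} [Fintype N] [DecidableEq N]

/-- the kernel projection in the eigenbasis -/
theorem na_spow_kpr {H : Matrix N N ℂ} (hH : H.IsHermitian) :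
    kpr H = naF hH (fun i => if hH.eigenvalues i = 0 then 1 else 0) := by
  set Q := naF hH (fun i => if hH.eigenvalues i = 0 then (1 : ℝ) else 0) with hQ
  have hHQ : H * Q = 0 := by
    have h1 : H * Q = naF hH hH.eigenvalues * Q := by rw [← na_spow_spec hH]
    rw [h1, hQ, na_spow_mul]
    have h2 : (fun i => hH.eigenvalues i * (if hH.eigenvalues i = 0 then (1 : ℝ) else 0)) =
        fun _ => 0 := by
      funext i
      by_cases h : hH.eigenvalues i = 0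
      · simp [h]
      · simp [h]
    rw [h2, naF]
    simp
  have hPQ : kpr H * Q = Q := by
    have h1 : ∀ v : N → ℂ, (kpr H * Q) *ᵥ v = Q *ᵥ v := by
      intro v
      rw [← Matrix.mulVec_mulVec]
      refine kpr_of_ker hH ?_
      rw [Matrix.mulVec_mulVec, hHQ, Matrix.zero_mulVec]
    exact Matrix.ext_of_mulVec_single fun i => h1 _
  have hQP : Q * kpr H = kpr H := by
    have h3 : ∀ v : N → ℂ, (Q * kpr H) *ᵥ v = kpr H *ᵥ v := by
      intro v
      rw [← Matrix.mulVec_mulVec]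
      set w := kpr H *ᵥ v with hw
      have hHw : H *ᵥ w = 0 := by
        rw [hw, Matrix.mulVec_mulVec, mul_kpr hH, Matrix.zero_mulVec]
      have h4 : nsq ((1 - Q) *ᵥ w) = 0 := by
        have h5 : (1 - Q) = naF hH (fun i => 1 - (if hH.eigenvalues i = 0 then (1 : ℝ) else 0)) := by
          rw [hQ, ← na_spow_one hH, na_spow_sub]
        have h6 : nsq (H *ᵥ w) = 0 := by
          rw [hHw, nsq]; simp
        rw [na_spow_nsq_eq hH] at h6
        have h7 := (Finset.sum_eq_zero_iff_of_nonneg (fun i _ =>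
          mul_nonneg (sq_nonneg _) (na_spow_W_nonneg hH w i))).mp h6
        rw [h5, na_spow_nsq]
        refine Finset.sum_eq_zero fun i _ => ?_
        have h8 := h7 i (Finset.mem_univ i)
        rcases mul_eq_zero.mp h8 with h9 | h9
        · rw [if_pos (pow_eq_zero_iff two_ne_zero |>.mp h9)]; simp
        · rw [h9]; simp
      have h10 : (1 - Q) *ᵥ w = 0 := by
        funext i
        rw [nsq] at h4
        have h11 := (Finset.sum_eq_zero_iff_of_nonneg (fun i _ => sq_nonneg _)).mp h4 i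
          (Finset.mem_univ i)
        simpa using h11
      rw [Matrix.sub_mulVec, Matrix.one_mulVec, sub_eq_zero] at h10
      exact h10.symm
    exact Matrix.ext_of_mulVec_single fun i => h3 _
  have hPs := (kpr_isPr hH).2
  have hQs : Qᴴ = Q := na_spow_conj hH _
  calc kpr H = Q * kpr H := hQP.symm
    _ = (kpr H * Q)ᴴ := by rw [conjTranspose_mul, hPs, hQs]
    _ = Q := by rw [hPQ, hQs]

theorem kpr_gap {H : Matrix N N ℂ} (hH : H.IsHermitian) (hpos : ∀ ψ, 0 ≤ en H ψ) {Δ : ℝ}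
    (hΔ : 0 < Δ) (hgap : ∀ ψ, Δ * en H ψ ≤ nsq (H *ᵥ ψ)) (ψ : N → ℂ) :
    Δ * (nsq ψ - nsq (kpr H *ᵥ ψ)) ≤ en H ψ := by
  rw [na_spow_kpr hH, na_spow_nsq, na_spow_nsq_one hH ψ, na_spow_en_eq hH, ← Finset.sum_sub_distrib,
    Finset.mul_sum]
  refine Finset.sum_le_sum fun i _ => ?_
  have hW := na_spow_W_nonneg hH ψ i
  by_cases h : hH.eigenvalues i = 0
  · simp [h]
  · have := na_spow_ev_gap hH hpos hgap i h
    rw [if_neg h]
    have h2 := mul_le_mul_of_nonneg_right this hW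
    linarith

theorem pow_contr {H : Matrix N N ℂ} (hH : H.IsHermitian) (hpos : ∀ ψ, 0 ≤ en H ψ) {h0 δ : ℝ}
    (hn : OpNormLe H h0) (hh : 0 ≤ h0) (hδ : 0 ≤ δ) (hδ1 : δ * h0 ≤ 1) (a : ℕ) :
    OpNormLe ((1 - (δ : ℂ) • H) ^ a) 1 := by
  rw [na_spow_pow_eq hH]
  refine na_spow_bound hH _ fun i => ?_
  have h1 := na_spow_ev_nonneg hH hpos i
  have h2 := na_spow_ev_le hH hn hh i
  have h3 : δ * hH.eigenvalues i ≤ 1 := le_trans (mul_le_mul_of_nonneg_left h2 hδ) hδ1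
  have h4 : 0 ≤ δ * hH.eigenvalues i := mul_nonneg hδ h1
  rw [abs_of_nonneg (pow_nonneg (by linarith) a)]
  exact pow_le_one₀ (by linarith) (by linarith)

theorem na_spow_exp {δ Δ l : ℝ} (hδ : 0 ≤ δ) (h : Δ ≤ l) (h1 : δ * l ≤ 1) (a : ℕ) :
    (1 - δ * l) ^ a ≤ Real.exp (-(δ * Δ * a)) := by
  have h2 : (1 - δ * l) ^ a ≤ Real.exp (-(δ * Δ)) ^ a := by
    refine pow_le_pow_left₀ (by linarith) ?_ a
    have h3 := Real.add_one_le_exp (-(δ * Δ))
    have h4 := mul_le_mul_of_nonneg_left h hδ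
    linarith
  refine h2.trans (le_of_eq ?_)
  rw [← Real.exp_nat_mul]
  congr 1
  ring

theorem pow_kpr {H : Matrix N N ℂ} (hH : H.IsHermitian) (hpos : ∀ ψ, 0 ≤ en H ψ) {Δ h0 δ : ℝ}
    (hΔ : 0 < Δ) (hgap : ∀ ψ, Δ * en H ψ ≤ nsq (H *ᵥ ψ)) (hh : 0 ≤ h0)
    (hn : OpNormLe H h0) (hδ : 0 ≤ δ) (hδ1 : δ * h0 ≤ 1) (a : ℕ) :
    OpNormLe ((1 - (δ : ℂ) • H) ^ a - kpr H) (Real.exp (-(δ * Δ * a))) := by
  rw [na_spow_pow_eq hH, na_spow_kpr hH, na_spow_sub]
  refine na_spow_bound hH _ fun i => ?_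
  have h2 := na_spow_ev_le hH hn hh i
  have h3 : δ * hH.eigenvalues i ≤ 1 := le_trans (mul_le_mul_of_nonneg_left h2 hδ) hδ1
  by_cases h : hH.eigenvalues i = 0
  · simp [h, Real.exp_nonneg]
  · rw [if_neg h, sub_zero, abs_of_nonneg (pow_nonneg (by linarith) a)]
    exact na_spow_exp hδ (na_spow_ev_gap hH hpos hgap i h) h3 a

theorem pow_diff {H : Matrix N N ℂ} (hH : H.IsHermitian) (hpos : ∀ ψ, 0 ≤ en H ψ) {Δ h0 δ : ℝ}
    (hΔ : 0 < Δ) (hgap : ∀ ψ, Δ * en H ψ ≤ nsq (H *ᵥ ψ)) (hh : 0 ≤ h0)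
    (hn : OpNormLe H h0) (hδ : 0 ≤ δ) (hδ1 : δ * h0 ≤ 1) (a b : ℕ) (hab : a ≤ b) :
    OpNormLe ((1 - (δ : ℂ) • H) ^ b - (1 - (δ : ℂ) • H) ^ a) (Real.exp (-(δ * Δ * a))) := by
  rw [na_spow_pow_eq hH, na_spow_pow_eq hH, na_spow_sub]
  refine na_spow_bound hH _ fun i => ?_
  have h1 := na_spow_ev_nonneg hH hpos i
  have h2 := na_spow_ev_le hH hn hh i
  have h3 : δ * hH.eigenvalues i ≤ 1 := le_trans (mul_le_mul_of_nonneg_left h2 hδ) hδ1
  have h4 : 0 ≤ δ * hH.eigenvalues i := mul_nonneg hδ h1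
  by_cases h : hH.eigenvalues i = 0
  · simp [h, Real.exp_nonneg]
  · have h5 : (1 - δ * hH.eigenvalues i) ^ b ≤ (1 - δ * hH.eigenvalues i) ^ a :=
      pow_le_pow_of_le_one (by linarith) (by linarith) hab
    have h6 : 0 ≤ (1 - δ * hH.eigenvalues i) ^ b := pow_nonneg (by linarith) b
    have h7 := na_spow_exp hδ (na_spow_ev_gap hH hpos hgap i h) h3 a
    rw [abs_le]
    constructor <;> linarith

end spow

end Vale.Agent.P356.NA
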