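import Vale.Agent.P356.NA.DetectPow
import Vale.Agent.P356.SV.Meas
import Mathlib.Data.List.GetD

/-!
BLOCK E: absorption and the merging of two regions.
-/

set_option linter.all false

namespace Vale.Agent.P356.NA

open Matrix Finset Vale.Agent.P356 Vale.Agent.P356.SV Vale.Agent.P356.Path
open scoped BigOperators ComplexOrder Kronecker

section E

/-- moving a list of blocks to the left -/
theorem na_e_step {M₀ : Type*} [Monoid M₀] (W : ℕ → M₀)
    (hW : ∀ a b, a + 2 ≤ b → W a * W b = W b * W a) (P : M₀) (d : ℕ → ℕ)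
    (hd : ∀ a, d (a + 1) ≤ d a + 1 ∧ d a ≤ d (a + 1) + 1) (r : ℕ)
    (hP : ∀ a < r, 1 ≤ d a → P * W a = P) (t p : ℕ) (X : M₀)
    (hX : X ∈ Submonoid.closure {x | ∃ a, a < r ∧ d a < t ∧ x = W a})
    (l : List ℕ) (hl : ∀ a ∈ l, a < r ∧ a % 2 = p) :
    ∃ Z ∈ Submonoid.closure {x | ∃ a, a < r ∧ d a < t + 1 ∧ a % 2 = p ∧ x = W a},
      P * (X * (l.map W).prod) = P * (X * Z) := by
  induction l using List.reverseRecOn with
  | nil => exact ⟨1, Submonoid.one_mem _, by simp⟩
  | append_singleton l a ih =>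
    obtain ⟨Z, hZ, hZe⟩ := ih (fun b hb => hl b (List.mem_append_left _ hb))
    obtain ⟨har, hap⟩ := hl a (List.mem_append_right _ (List.mem_singleton.mpr rfl))
    by_cases hda : d a < t + 1
    · refine ⟨Z * W a, Submonoid.mul_mem _ hZ (Submonoid.subset_closure ⟨a, har, hda, hap, rfl⟩), ?_⟩
      rw [List.map_append, List.prod_append, List.map_singleton, List.prod_singleton]
      calc P * (X * ((l.map W).prod * W a)) = (P * (X * (l.map W).prod)) * W a := by
            simp only [mul_assoc]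
        _ = P * (X * (Z * W a)) := by rw [hZe]; simp only [mul_assoc]
    · refine ⟨Z, hZ, ?_⟩
      have hfar : ∀ b, b ≠ a → (b + 2 ≤ a ∨ a + 2 ≤ b) → W a * W b = W b * W a := by
        rintro b - (h | h)
        · exact (hW b a h).symm
        · exact hW a b h
      have h1 : Commute (W a) Z := by
        refine Submonoid.closure_induction (motive := fun x _ => Commute (W a) x) ?_
          (Commute.one_right _) (fun x y _ _ hx hy => hx.mul_right hy) hZ
        rintro x ⟨b, hb, hdb, hbp, rfl⟩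
        by_cases hba : b = a
        · rw [hba]
        · exact hfar b hba (by omega)
      have h2 : Commute (W a) X := by
        refine Submonoid.closure_induction (motive := fun x _ => Commute (W a) x) ?_
          (Commute.one_right _) (fun x y _ _ hx hy => hx.mul_right hy) hX
        rintro x ⟨b, hb, hdb, rfl⟩
        have hba : b ≠ a := by
          rintro rfl
          omega
        have hb1 : b ≠ a + 1 := by
          rintro rfl
          have := (hd a).2
          omega
        have hb2 : a ≠ b + 1 := by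
          rintro rfl
          have := (hd b).1
          omega
        exact hfar b hba (by omega)
      have h3 : Commute (W a) (X * Z) := h2.mul_right h1
      rw [List.map_append, List.prod_append, List.map_singleton, List.prod_singleton]
      calc P * (X * ((l.map W).prod * W a)) = (P * (X * (l.map W).prod)) * W a := by
            simp only [mul_assoc]
        _ = P * ((X * Z) * W a) := by rw [hZe, mul_assoc]
        _ = (P * W a) * (X * Z) := by rw [← h3.eq, mul_assoc]
        _ = P * (X * Z) := by rw [hP a har (by omega)]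

/-- absorption; `W a` and `W b` commute when `a + 2 ≤ b` -/
theorem absorb {M₀ : Type*} [Monoid M₀] (W : ℕ → M₀)
    (hW : ∀ a b, a + 2 ≤ b → W a * W b = W b * W a) (P Q : M₀) (d : ℕ → ℕ)
    (hd : ∀ a, d (a + 1) ≤ d a + 1 ∧ d a ≤ d (a + 1) + 1) (r M : ℕ)
    (hP : ∀ a < r, 1 ≤ d a → P * W a = P) (hQ : ∀ a < r, d a ≤ 2 * M → W a * Q = Q) :
    P * (((((List.range r).filter (fun a => a % 2 = 0)).map W).prod *
      (((List.range r).filter (fun a => a % 2 = 1)).map W).prod) ^ M) * Q = P * Q := by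
  set E0 := (((List.range r).filter (fun a => a % 2 = 0)).map W).prod with hE0
  set E1 := (((List.range r).filter (fun a => a % 2 = 1)).map W).prod with hE1
  have key : ∀ m : ℕ, ∃ X ∈ Submonoid.closure {x | ∃ a, a < r ∧ d a < 2 * m ∧ x = W a},
      P * (E0 * E1) ^ m = P * X := by
    intro m
    induction m with
    | zero => exact ⟨1, Submonoid.one_mem _, by simp⟩
    | succ m ih =>
      obtain ⟨X, hX, hXe⟩ := ih
      obtain ⟨Z, hZ, hZe⟩ := na_e_step W hW P d hd r hP (2 * m) 0 X hX
        ((List.range r).filter (fun a => a % 2 = 0)) (fun a ha => by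
          simpa using ha)
      have hXZ : X * Z ∈ Submonoid.closure {x | ∃ a, a < r ∧ d a < 2 * m + 1 ∧ x = W a} := by
        refine Submonoid.mul_mem _ ?_ ?_
        · refine Submonoid.closure_mono ?_ hX
          rintro x ⟨a, h1, h2, h3⟩
          exact ⟨a, h1, by omega, h3⟩
        · refine Submonoid.closure_mono ?_ hZ
          rintro x ⟨a, h1, h2, -, h3⟩
          exact ⟨a, h1, h2, h3⟩
      obtain ⟨Z', hZ', hZe'⟩ := na_e_step W hW P d hd r hP (2 * m + 1) 1 (X * Z) hXZ
        ((List.range r).filter (fun a => a % 2 = 1)) (fun a ha => by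
          simpa using ha)
      refine ⟨X * Z * Z', Submonoid.mul_mem _ ?_ ?_, ?_⟩
      · refine Submonoid.closure_mono ?_ hXZ
        rintro x ⟨a, h1, h2, h3⟩
        exact ⟨a, h1, by omega, h3⟩
      · refine Submonoid.closure_mono ?_ hZ'
        rintro x ⟨a, h1, h2, -, h3⟩
        exact ⟨a, h1, by omega, h3⟩
      · rw [pow_succ, ← mul_assoc, hXe]
        calc P * X * (E0 * E1) = (P * (X * E0)) * E1 := by simp only [mul_assoc]
          _ = P * (X * Z * E1) := by rw [hZe]; simp only [mul_assoc]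
          _ = P * (X * Z * Z') := hZe'
  obtain ⟨X, hX, hXe⟩ := key M
  have hXQ : X * Q = Q := by
    refine Submonoid.closure_induction (motive := fun x _ => x * Q = Q) ?_ (one_mul _) ?_ hX
    · rintro x ⟨a, h1, h2, rfl⟩
      exact hQ a h1 h2.le
    · intro x y _ _ hx hy
      rw [mul_assoc, hy, hx]
  rw [hXe, mul_assoc, hXQ]

section lists
variable {N : Type*} [Fintype N] [DecidableEq N] {T : Type*}

theorem na_e_getD_append (l : List T) (a d : T) (j : ℕ) (hj : j < l.length) :
    (l ++ [a]).getD j d = l.getD j d := by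
  rw [List.getD_eq_getElem?_getD, List.getD_eq_getElem?_getD, List.getElem?_append_left hj]

theorem na_e_getD_last (l : List T) (a d : T) : (l ++ [a]).getD l.length d = a := by
  simp [List.getD_eq_getElem?_getD]

/-- the ordered product over a list -/
theorem na_e_prR_list (F : T → Matrix N N ℂ) (d : T) (l : List T) :
    prR (fun z => F (l.getD z d)) l.length = (l.map F).prod := by
  induction l using List.reverseRecOn with
  | nil => simp [prR]
  | append_singleton l a ih =>
    rw [List.length_append, List.length_singleton, prR, List.map_append, List.prod_append,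
      List.map_singleton, List.prod_singleton, ← ih]
    congr 1
    · exact prR_congr fun j hj => by rw [na_e_getD_append l a d j hj]
    · rw [na_e_getD_last]

theorem na_e_sum_list {M : Type*} [AddCommMonoid M] (F : T → M) (d : T) (l : List T) :
    ∑ z ∈ range l.length, F (l.getD z d) = (l.map F).sum := by
  induction l using List.reverseRecOn with
  | nil => simp
  | append_singleton l a ih =>
    rw [List.length_append, List.length_singleton, Finset.sum_range_succ, List.map_append,
      List.sum_append, List.map_singleton, List.sum_singleton, ← ih, na_e_getD_last]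
    congr 1
    exact Finset.sum_congr rfl fun j hj => by
      rw [na_e_getD_append l a d j (Finset.mem_range.mp hj)]

end lists

section blocks
variable {T : Type*} [DecidableEq T]

/-- the list of the elements of `F`, ordered by blocks, even blocks first -/
noncomputable def na_e_bl (F : Finset T) (blk : T → ℕ) (a : ℕ) : List T :=
  F.toList.filter (fun X => blk X = a)

noncomputable def na_e_L (F : Finset T) (blk : T → ℕ) (r : ℕ) : List T :=
  ((List.range r).filter (fun a => a % 2 = 0)).flatMap (na_e_bl F blk) ++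
    ((List.range r).filter (fun a => a % 2 = 1)).flatMap (na_e_bl F blk)

theorem na_e_mem_bl {F : Finset T} {blk : T → ℕ} {a : ℕ} {X : T} :
    X ∈ na_e_bl F blk a ↔ X ∈ F ∧ blk X = a := by
  simp [na_e_bl]

theorem na_e_mem_L {F : Finset T} {blk : T → ℕ} {r : ℕ} {X : T} :
    X ∈ na_e_L F blk r ↔ X ∈ F ∧ blk X < r := by
  simp only [na_e_L, List.mem_append, List.mem_flatMap, List.mem_filter, List.mem_range,
    decide_eq_true_eq, na_e_mem_bl]
  constructor
  · rintro (⟨a, ⟨h1, h2⟩, h3, h4⟩ | ⟨a, ⟨h1, h2⟩, h3, h4⟩)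
    · exact ⟨h3, by omega⟩
    · exact ⟨h3, by omega⟩
  · rintro ⟨h1, h2⟩
    rcases Nat.mod_two_eq_zero_or_one (blk X) with h | h
    · exact Or.inl ⟨blk X, ⟨h2, h⟩, h1, rfl⟩
    · exact Or.inr ⟨blk X, ⟨h2, h⟩, h1, rfl⟩

theorem na_e_nodup_fm (F : Finset T) (blk : T → ℕ) (I : List ℕ) (hI : I.Nodup) :
    (I.flatMap (na_e_bl F blk)).Nodup := by
  rw [List.nodup_flatMap]
  refine ⟨fun a _ => (F.nodup_toList).filter _, ?_⟩
  refine hI.imp ?_
  intro a b hab
  show List.Disjoint _ _
  intro X hX hX'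
  rw [na_e_mem_bl] at hX hX'
  exact hab (hX.2.symm.trans hX'.2)

theorem na_e_nodup (F : Finset T) (blk : T → ℕ) (r : ℕ) : (na_e_L F blk r).Nodup := by
  rw [na_e_L, List.nodup_append']
  refine ⟨na_e_nodup_fm F blk _ (List.nodup_range.filter _),
    na_e_nodup_fm F blk _ (List.nodup_range.filter _), ?_⟩
  intro X hX hX'
  simp only [List.mem_flatMap, List.mem_filter, List.mem_range, decide_eq_true_eq,
    na_e_mem_bl] at hX hX'
  obtain ⟨a, ⟨h1, h2⟩, h3, h4⟩ := hX
  obtain ⟨b, ⟨h1', h2'⟩, h3', h4'⟩ := hX'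
  omega

theorem na_e_prod_fm {M : Type*} [Monoid M] (F : Finset T) (blk : T → ℕ) (f : T → M)
    (I : List ℕ) :
    ((I.flatMap (na_e_bl F blk)).map f).prod =
      (I.map (fun a => ((na_e_bl F blk a).map f).prod)).prod := by
  induction I with
  | nil => simp
  | cons a I ih =>
    rw [List.flatMap_cons, List.map_append, List.prod_append, ih, List.map_cons, List.prod_cons]

end blocks

section lattice
variable {L q R : ℕ}

theorem na_e_HB_herm {J Δ : ℝ} {h : Finset (Site L) → Op (Site L) q}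
    {Ω : Conf (Site L) q → ℂ} (hF : FFLG L q R J Δ h Ω) (B : Finset (Site L)) :
    (HB h B).IsHermitian := by
  unfold HB Matrix.IsHermitian
  rw [Matrix.conjTranspose_sum]
  exact Finset.sum_congr rfl fun X _ => (hF.herm X).eq

theorem na_e_en_sum {N : Type*} [Fintype N] {ι : Type*} (s : Finset ι) (A : ι → Matrix N N ℂ)
    (ψ : N → ℂ) : en (∑ i ∈ s, A i) ψ = ∑ i ∈ s, en (A i) ψ := by
  classical
  induction s using Finset.induction_on with
  | empty => simp [en]
  | insert i s hi ih =>
    rw [Finset.sum_insert hi, Finset.sum_insert hi, na_d_en_add, ih]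

theorem na_e_ker {J Δ : ℝ} {h : Finset (Site L) → Op (Site L) q}
    {Ω : Conf (Site L) q → ℂ} (hF : FFLG L q R J Δ h Ω) {B : Finset (Site L)}
    {ψ : Conf (Site L) q → ℂ} (hψ : HB h B *ᵥ ψ = 0) {X : Finset (Site L)} (hX : X ⊆ B) :
    h X *ᵥ ψ = 0 := by
  have h0 : en (HB h B) ψ = 0 := by
    rw [en, hψ]
    simp
  rw [HB, na_e_en_sum] at h0
  have h1 := (Finset.sum_eq_zero_iff_of_nonneg (fun Y _ => hF.pos Y ψ)).mp h0 X
    (Finset.mem_filter.mpr ⟨Finset.mem_univ _, hX⟩)
  exact en_zero (hF.herm X) (hF.pos X) h1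

theorem na_e_ker_of {h : Finset (Site L) → Op (Site L) q} {B : Finset (Site L)}
    {ψ : Conf (Site L) q → ℂ} (hψ : ∀ X ⊆ B, h X *ᵥ ψ = 0) : HB h B *ᵥ ψ = 0 := by
  rw [HB, Matrix.sum_mulVec]
  exact Finset.sum_eq_zero fun X hX => hψ X (Finset.mem_filter.mp hX).2

theorem na_e_term_kpr {J Δ : ℝ} {h : Finset (Site L) → Op (Site L) q}
    {Ω : Conf (Site L) q → ℂ} (hF : FFLG L q R J Δ h Ω) {B X : Finset (Site L)} (hX : X ⊆ B) :
    h X * kpr (HB h B) = 0 := by
  refine Matrix.ext_of_mulVec_single fun i => ?_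
  rw [← mulVec_mulVec, Matrix.zero_mulVec]
  refine na_e_ker hF (B := B) ?_ hX
  rw [mulVec_mulVec, mul_kpr (na_e_HB_herm hF B), Matrix.zero_mulVec]

theorem na_e_kpr_term {J Δ : ℝ} {h : Finset (Site L) → Op (Site L) q}
    {Ω : Conf (Site L) q → ℂ} (hF : FFLG L q R J Δ h Ω) {B X : Finset (Site L)} (hX : X ⊆ B) :
    kpr (HB h B) * h X = 0 := by
  have h1 := congrArg Matrix.conjTranspose (na_e_term_kpr hF hX)
  rwa [Matrix.conjTranspose_mul, (kpr_isPr (na_e_HB_herm hF B)).2, (hF.herm X).eq,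
    Matrix.conjTranspose_zero] at h1

theorem na_e_fix_left {J Δ : ℝ} {h : Finset (Site L) → Op (Site L) q}
    {Ω : Conf (Site L) q → ℂ} (hF : FFLG L q R J Δ h Ω) {B : Finset (Site L)} (c : ℂ)
    (l : List (Finset (Site L))) (hl : ∀ X ∈ l, X ⊆ B) :
    (l.map (fun X => 1 - c • h X)).prod * kpr (HB h B) = kpr (HB h B) := by
  induction l with
  | nil => simp
  | cons X l ih =>
    rw [List.map_cons, List.prod_cons, mul_assoc, ih (fun Y hY => hl Y (List.mem_cons_of_mem _ hY)),
      sub_mul, one_mul, smul_mul_assoc, na_e_term_kpr hF (hl X List.mem_cons_self), smul_zero,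
      sub_zero]

theorem na_e_fix_right {J Δ : ℝ} {h : Finset (Site L) → Op (Site L) q}
    {Ω : Conf (Site L) q → ℂ} (hF : FFLG L q R J Δ h Ω) {B : Finset (Site L)} (c : ℂ)
    (l : List (Finset (Site L))) (hl : ∀ X ∈ l, X ⊆ B) :
    kpr (HB h B) * (l.map (fun X => 1 - c • h X)).prod = kpr (HB h B) := by
  induction l using List.reverseRecOn with
  | nil => simp
  | append_singleton l X ih =>
    rw [List.map_append, List.prod_append, ← mul_assoc,
      ih (fun Y hY => hl Y (List.mem_append_left _ hY)), List.map_singleton, List.prod_singleton,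
      mul_sub, mul_one, mul_smul_comm,
      na_e_kpr_term hF (hl X (List.mem_append_right _ (List.mem_singleton.mpr rfl))), smul_zero,
      sub_zero]

/-- terms on disjoint regions commute -/
theorem na_e_disj {J Δ : ℝ} {h : Finset (Site L) → Op (Site L) q}
    {Ω : Conf (Site L) q → ℂ} (hF : FFLG L q R J Δ h Ω) {X Y : Finset (Site L)}
    (hXY : Disjoint X Y) : h X * h Y = h Y * h X := by
  obtain ⟨k, hk⟩ := b5_actsOn (hF.loc X)
  obtain ⟨k', hk'⟩ := b5_actsOn (hF.loc Y)
  rw [hk, hk']
  exact opOn_comm X Y hXY k k'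

/-- the number of terms not commuting with a given one -/
theorem na_e_count {J Δ : ℝ} {h : Finset (Site L) → Op (Site L) q}
    {Ω : Conf (Site L) q → ℂ} (hF : FFLG L q R J Δ h Ω) {X : Finset (Site L)} (hX : h X ≠ 0)
    (G : Finset (Finset (Site L)))
    (hG : ∀ Y ∈ G, h Y ≠ 0 ∧ (Y = X ∨ h X * h Y ≠ h Y * h X)) :
    G.card ≤ (2 * R + 1) ^ 2 * NR R := by
  have hsub : G ⊆ X.biUnion (fun x => (ball x R).powerset) := by
    intro Y hY
    obtain ⟨hY0, hY1⟩ := hG Y hY
    have hex : ∃ x ∈ X, x ∈ Y := by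
      rcases hY1 with rfl | hc
      · obtain ⟨x, hx⟩ := (hF.range Y hY0).1
        exact ⟨x, hx, hx⟩
      · by_contra hno
        push Not at hno
        exact hc (na_e_disj hF (Finset.disjoint_left.mpr hno))
    obtain ⟨x, hx, hxY⟩ := hex
    rw [Finset.mem_biUnion]
    refine ⟨x, hx, Finset.mem_powerset.mpr fun z hz => ?_⟩
    exact Finset.mem_filter.mpr ⟨Finset.mem_univ _, (hF.range Y hY0).2 z hz x hxY⟩
  refine (Finset.card_le_card hsub).trans (Finset.card_biUnion_le.trans ?_)
  refine (Finset.sum_le_card_nsmul _ _ (NR R) (fun x _ => card_local x R)).trans ?_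
  rw [smul_eq_mul]
  refine Nat.mul_le_mul_right _ ?_
  obtain ⟨⟨x, hx⟩, hd⟩ := hF.range X hX
  have h1 : X ⊆ ball x R := fun z hz =>
    Finset.mem_filter.mpr ⟨Finset.mem_univ _, hd z hz x hx⟩
  exact (Finset.card_le_card h1).trans (card_ball x R)

/-- least coordinate -/
noncomputable def na_e_mn (c : Site L → ℕ) (X : Finset (Site L)) : ℕ :=
  sInf {n | ∃ x ∈ X, c x = n}

theorem na_e_mn_le (c : Site L → ℕ) {X : Finset (Site L)} {x : Site L} (hx : x ∈ X) :
    na_e_mn c X ≤ c x := Nat.sInf_le ⟨x, hx, rfl⟩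

theorem na_e_mn_mem (c : Site L → ℕ) {X : Finset (Site L)} (hX : X.Nonempty) :
    ∃ x ∈ X, c x = na_e_mn c X := by
  obtain ⟨x, hx⟩ := hX
  exact Nat.sInf_mem (s := {n | ∃ x ∈ X, c x = n}) ⟨c x, x, hx, rfl⟩

theorem na_e_mn_up {J Δ : ℝ} {h : Finset (Site L) → Op (Site L) q}
    {Ω : Conf (Site L) q → ℂ} (hF : FFLG L q R J Δ h Ω) {c : Site L → ℕ}
    (hc : ∀ x y, ((c x : ℤ) - c y).natAbs ≤ dist1 x y) {X : Finset (Site L)} (hX : h X ≠ 0)
    {x : Site L} (hx : x ∈ X) : c x ≤ na_e_mn c X + R := by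
  obtain ⟨y, hy, hy'⟩ := na_e_mn_mem c (hF.range X hX).1
  have h1 := hc x y
  have h2 := (hF.range X hX).2 x hx y hy
  rw [← hy']
  omega

end lattice

/-- the merging estimate for a fixed cut -/
theorem na_e_core {L q R : ℕ} {J Δ : ℝ} (hJ : 0 < J) (hΔ : 0 < Δ)
    {h : Finset (Site L) → Op (Site L) q} {Ω : Conf (Site L) q → ℂ} (hF : FFLG L q R J Δ h Ω)
    (c : Site L → ℕ) (hc : ∀ x y, ((c x : ℤ) - c y).natAbs ≤ dist1 x y)
    (S : Finset (Site L)) (hgap : ∀ ψ, Δ * en (HB h S) ψ ≤ nsq (HB h S *ᵥ ψ))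
    (a b M : ℕ) (hM : 2 * M ≤ (b + 1) / (R + 1) - 1 - (a + R) / (R + 1)) (ψ : Conf (Site L) q → ℂ) :
    nsq ((kpr (HB h (S.filter (fun x => c x < b))) *
          kpr (HB h (S.filter (fun x => a ≤ c x))) - kpr (HB h S)) *ᵥ ψ) ≤
      (1 + Δ / (J * (((2 * R + 1) ^ 2 * NR R : ℕ) : ℝ) ^ 2))⁻¹ ^ M * nsq ψ := by
  classical
  set S1 := S.filter (fun x => c x < b) with hS1
  set S2 := S.filter (fun x => a ≤ c x) with hS2
  set P1 := kpr (HB h S1) with hP1
  set P2 := kpr (HB h S2) with hP2
  set PS := kpr (HB h S) with hPS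
  have hH := na_e_HB_herm hF
  have pr1 : IsPr P1 := kpr_isPr (hH S1)
  have pr2 : IsPr P2 := kpr_isPr (hH S2)
  have prS : IsPr PS := kpr_isPr (hH S)
  set cJ : ℂ := ((J⁻¹ : ℝ) : ℂ) with hcJ
  -- the terms and the blocks
  set F : Finset (Finset (Site L)) := Finset.univ.filter (fun X => X ⊆ S ∧ h X ≠ 0) with hFd
  have hFm : ∀ {X}, X ∈ F ↔ X ⊆ S ∧ h X ≠ 0 := by
    intro X
    rw [hFd, Finset.mem_filter]
    simp only [Finset.mem_univ, true_and]
  set blk : Finset (Site L) → ℕ := fun X => na_e_mn c X / (R + 1) with hblk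
  set r : ℕ := F.sup blk + 1 with hr
  have hblr : ∀ X ∈ F, blk X < r := fun X hX =>
    Nat.lt_succ_of_le (Finset.le_sup (f := blk) hX)
  set f : Finset (Site L) → Op (Site L) q := fun X => 1 - cJ • h X with hf
  set W : ℕ → Op (Site L) q := fun i => ((na_e_bl F blk i).map f).prod with hW
  set l : List (Finset (Site L)) := na_e_L F blk r with hl
  have hlm : ∀ {X}, X ∈ l ↔ X ∈ F := by
    intro X
    rw [hl, na_e_mem_L]
    exact ⟨fun h => h.1, fun h => ⟨h, hblr X h⟩⟩
  have hlnd : l.Nodup := na_e_nodup F blk r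
  set T : Op (Site L) q := (l.map f).prod with hT
  have hTW : T = (((List.range r).filter (fun a => a % 2 = 0)).map W).prod *
      (((List.range r).filter (fun a => a % 2 = 1)).map W).prod := by
    rw [hT, hl, na_e_L, List.map_append, List.prod_append, na_e_prod_fm, na_e_prod_fm]
  -- commutation of far blocks
  have hWc : ∀ i j, i + 2 ≤ j → W i * W j = W j * W i := by
    intro i j hij
    have h1 : ∀ X ∈ na_e_bl F blk i, ∀ Y ∈ na_e_bl F blk j, Commute (f X) (f Y) := by
      intro X hX Y hY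
      rw [na_e_mem_bl] at hX hY
      obtain ⟨hXF, hXi⟩ := hX
      obtain ⟨hYF, hYj⟩ := hY
      have hX0 := (hFm.mp hXF).2
      have hd : Disjoint X Y := by
        rw [Finset.disjoint_left]
        intro x hx hy
        have e1 := na_e_mn_up hF hc hX0 hx
        have e2 := na_e_mn_le c hy
        have e3 : na_e_mn c X < (i + 1) * (R + 1) := by
          have := Nat.lt_div_mul_add (a := na_e_mn c X) (b := R + 1) (Nat.succ_pos R)
          have h2 : na_e_mn c X / (R + 1) = i := hXi
          rw [h2] at this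
          nlinarith
        have e4 : j * (R + 1) ≤ na_e_mn c Y := by
          rw [← hYj]
          exact Nat.div_mul_le_self _ _
        have e5 : (i + 2) * (R + 1) ≤ j * (R + 1) := Nat.mul_le_mul_right _ hij
        nlinarith
      have e : Commute (h X) (h Y) := na_e_disj hF hd
      refine Commute.sub_left (Commute.one_left _) ?_
      refine Commute.sub_right (Commute.one_right _) ?_
      exact (e.smul_left cJ).smul_right cJ
    have h2 : ∀ (l1 l2 : List (Finset (Site L))), (∀ X ∈ l1, ∀ Y ∈ l2, Commute (f X) (f Y)) →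
        Commute (l1.map f).prod (l2.map f).prod := by
      intro l1 l2 hc
      refine Commute.list_prod_left _ _ fun A hA => ?_
      obtain ⟨X, hX, rfl⟩ := List.mem_map.mp hA
      refine Commute.list_prod_right _ _ fun B hB => ?_
      obtain ⟨Y, hY, rfl⟩ := List.mem_map.mp hB
      exact hc X hX Y hY
    exact h2 _ _ h1
  -- absorption
  set B : ℕ := (b + 1) / (R + 1) - 1 with hB
  set A : ℕ := (a + R) / (R + 1) with hA
  have habs : P1 * T ^ M * P2 = P1 * P2 := by
    rcases Nat.eq_zero_or_pos M with h0 | h0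
    · rw [h0, pow_zero, mul_one]
    · rw [hTW]
      refine absorb W hWc P1 P2 (fun i => B - i) (fun i => ⟨?_, ?_⟩) r M ?_ ?_
      · show B - (i + 1) ≤ B - i + 1
        omega
      · show B - i ≤ B - (i + 1) + 1
        omega
      · intro i _ hi
        have hi : 1 ≤ B - i := hi
        refine na_e_fix_right hF cJ _ fun X hX => ?_
        rw [na_e_mem_bl] at hX
        obtain ⟨hXF, hXi⟩ := hX
        obtain ⟨hXS, hX0⟩ := hFm.mp hXF
        intro x hx
        refine Finset.mem_filter.mpr ⟨hXS hx, ?_⟩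
        have e1 := na_e_mn_up hF hc hX0 hx
        have e3 : na_e_mn c X < (i + 1) * (R + 1) := by
          have := Nat.lt_div_mul_add (a := na_e_mn c X) (b := R + 1) (Nat.succ_pos R)
          have h2 : na_e_mn c X / (R + 1) = i := hXi
          rw [h2] at this
          nlinarith
        have e4 : (i + 2) * (R + 1) ≤ b + 1 := by
          have h3 : i + 2 ≤ (b + 1) / (R + 1) := by omega
          exact (Nat.mul_le_mul_right _ h3).trans (Nat.div_mul_le_self _ _)
        nlinarith
      · intro i _ hi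
        have hi : B - i ≤ 2 * M := hi
        refine na_e_fix_left hF cJ _ fun X hX => ?_
        rw [na_e_mem_bl] at hX
        obtain ⟨hXF, hXi⟩ := hX
        obtain ⟨hXS, hX0⟩ := hFm.mp hXF
        intro x hx
        refine Finset.mem_filter.mpr ⟨hXS hx, ?_⟩
        have e2 := na_e_mn_le c hx
        have e4 : i * (R + 1) ≤ na_e_mn c X := by
          rw [← hXi]
          exact Nat.div_mul_le_self _ _
        have e5 : A ≤ i := by omega
        have e6 : a ≤ A * (R + 1) := by
          have := Nat.lt_div_mul_add (a := a + R) (b := R + 1) (Nat.succ_pos R)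
          rw [← hA] at this
          omega
        have e7 : A * (R + 1) ≤ i * (R + 1) := Nat.mul_le_mul_right _ e5
        omega
  -- algebra of the projections
  have hTS : T * PS = PS := na_e_fix_left hF cJ l fun X hX => (hFm.mp (hlm.mp hX)).1
  have hTMS : T ^ M * PS = PS := by
    clear hM habs
    induction M with
    | zero => rw [pow_zero, one_mul]
    | succ M ih => rw [pow_succ, mul_assoc, hTS, ih]
  have h1S : P1 * PS = PS := (kpr_le (hH S) (hH S1) fun ψ hψ => na_e_ker_of fun X hX =>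
    na_e_ker hF hψ (hX.trans (Finset.filter_subset _ _))).1
  have h2S : PS * P2 = PS := (kpr_le (hH S) (hH S2) fun ψ hψ => na_e_ker_of fun X hX =>
    na_e_ker hF hψ (hX.trans (Finset.filter_subset _ _))).2
  have hdec : P1 * P2 - PS = P1 * (T ^ M * ((1 - PS) * P2)) := by
    rw [sub_mul, one_mul, h2S, mul_sub, mul_sub, hTMS, h1S, ← habs]
    simp only [mul_assoc]
  -- the detectability lemma
  have hsum : ∑ z ∈ range l.length, h (l.getD z ∅) = HB h S := by
    rw [na_e_sum_list h ∅ l, ← List.sum_toFinset h hlnd, HB]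
    have e1 : l.toFinset = F := by
      ext X
      rw [List.mem_toFinset, hlm]
    rw [e1, hFd]
    refine Finset.sum_subset ?_ ?_
    · intro X hX
      exact Finset.mem_filter.mpr ⟨Finset.mem_univ _, (Finset.mem_filter.mp hX).2.1⟩
    · intro X hX hX'
      by_contra h0
      exact hX' (Finset.mem_filter.mpr ⟨Finset.mem_univ _, (Finset.mem_filter.mp hX).2, h0⟩)
  have hget : ∀ z, z < l.length → l.getD z ∅ ∈ F := by
    intro z hz
    rw [List.getD_eq_getElem l ∅ hz]
    exact hlm.mp (List.getElem_mem hz)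
  have hdet := detect_pow l.length (fun z => h (l.getD z ∅)) hJ hΔ
    (fun z _ => ⟨hF.herm _, hF.pos _, hF.norm _⟩) ((2 * R + 1) ^ 2 * NR R) (Nat.succ_le_of_lt (by
      unfold NR
      positivity)) (by
      intro z hz
      have h1 : ((range l.length).filter (fun j => j = z ∨
          h (l.getD z ∅) * h (l.getD j ∅) ≠ h (l.getD j ∅) * h (l.getD z ∅))).card ≤
          (F.filter (fun Y => Y = l.getD z ∅ ∨
            h (l.getD z ∅) * h Y ≠ h Y * h (l.getD z ∅))).card := by
        refine Finset.card_le_card_of_injOn (fun j => l.getD j ∅) ?_ ?_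
        · intro j hj
          have hj := Finset.mem_filter.mp (Finset.mem_coe.mp hj)
          refine Finset.mem_coe.mpr (Finset.mem_filter.mpr ⟨hget j (Finset.mem_range.mp hj.1), ?_⟩)
          rcases hj.2 with h | h
          · exact Or.inl (by rw [h])
          · exact Or.inr h
        · intro i hi j hj hij
          have hi := Finset.mem_range.mp (Finset.mem_filter.mp (Finset.mem_coe.mp hi)).1
          have hj := Finset.mem_range.mp (Finset.mem_filter.mp (Finset.mem_coe.mp hj)).1
          have hij : l.getD i ∅ = l.getD j ∅ := hij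
          rw [List.getD_eq_getElem l ∅ hi, List.getD_eq_getElem l ∅ hj] at hij
          exact (hlnd.getElem_inj_iff).mp hij
      refine h1.trans (na_e_count hF (hFm.mp (hget z hz)).2 _ fun Y hY => ?_)
      obtain ⟨hY1, hY2⟩ := Finset.mem_filter.mp hY
      exact ⟨(hFm.mp hY1).2, hY2⟩) (by rw [hsum]; exact hgap) M
    (((1 - PS) * P2) *ᵥ ψ) (by
      rw [hsum, mulVec_mulVec, ← mul_assoc, mul_sub, mul_one, ← hPS, prS.1, sub_self, zero_mul,
        Matrix.zero_mulVec])
  have hTl : prR (fun z => 1 - ((J⁻¹ : ℝ) : ℂ) • h (l.getD z ∅)) l.length = T :=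
    na_e_prR_list f ∅ l
  rw [hTl] at hdet
  rw [hdec, ← mulVec_mulVec, ← mulVec_mulVec]
  have c1 : nsq (P1 *ᵥ (T ^ M *ᵥ (((1 - PS) * P2) *ᵥ ψ))) ≤
      nsq (T ^ M *ᵥ (((1 - PS) * P2) *ᵥ ψ)) := contr_of_isPr pr1 _
  have c2 : nsq (((1 - PS) * P2) *ᵥ ψ) ≤ nsq ψ := by
    rw [← mulVec_mulVec]
    exact (contr_of_isPr (b6d_isPr_compl prS) _).trans (contr_of_isPr pr2 _)
  refine c1.trans (hdet.trans ?_)
  exact mul_le_mul_of_nonneg_left c2 (by positivity)

/-- merging two overlapping regions along the coordinate `c` -/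
theorem merge (q R : ℕ) {J Δ : ℝ} (hJ : 0 < J) (hΔ : 0 < Δ) :
    ∃ c₀ C : ℝ, 0 < c₀ ∧ 0 < C ∧ ∀ (L : ℕ) (h : Finset (Site L) → Op (Site L) q)
      (Ω : Conf (Site L) q → ℂ), FFLG L q R J Δ h Ω →
      ∀ (c : Site L → ℕ), (∀ x y, ((c x : ℤ) - c y).natAbs ≤ dist1 x y) →
      ∀ S : Finset (Site L), (∀ ψ, Δ * en (HB h S) ψ ≤ nsq (HB h S *ᵥ ψ)) →
      ∀ a b : ℕ, a ≤ b →
        OpNormLe (kpr (HB h (S.filter (fun x => c x < b))) *
          kpr (HB h (S.filter (fun x => a ≤ c x))) - kpr (HB h S))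
          (C * Real.exp (-(c₀ * ((b : ℝ) - a)))) := by
  set γ : ℝ := 1 + Δ / (J * (((2 * R + 1) ^ 2 * NR R : ℕ) : ℝ) ^ 2) with hγ
  have hg1 : (0 : ℝ) < (((2 * R + 1) ^ 2 * NR R : ℕ) : ℝ) := by
    have : 0 < (2 * R + 1) ^ 2 * NR R := by
      unfold NR
      positivity
    exact_mod_cast this
  have hγ1 : 1 < γ := by
    have : 0 < Δ / (J * (((2 * R + 1) ^ 2 * NR R : ℕ) : ℝ) ^ 2) := by positivity
    linarith
  have hγ0 : 0 < γ := by linarith
  have hlog : 0 < Real.log γ := Real.log_pos hγ1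
  have hR : (0 : ℝ) < (R : ℝ) + 1 := by positivity
  refine ⟨Real.log γ / (4 * ((R : ℝ) + 1)), γ, by positivity, hγ0, ?_⟩
  intro L h Ω hF c hc S hgap a b hab ψ
  set M : ℕ := ((b + 1) / (R + 1) - 1 - (a + R) / (R + 1)) / 2 with hM
  refine (na_e_core hJ hΔ hF c hc S hgap a b M (by omega) ψ).trans ?_
  rw [← hγ]
  refine mul_le_mul_of_nonneg_right ?_ (nsq_nonneg' ψ)
  -- the arithmetic
  have hM1 : b ≤ a + (2 * M + 4) * (R + 1) := by
    have e1 := Nat.lt_div_mul_add (a := b + 1) (b := R + 1) (Nat.succ_pos R)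
    have e2 := Nat.div_mul_le_self (a + R) (R + 1)
    set x := (b + 1) / (R + 1)
    set y := (a + R) / (R + 1)
    have e3 : x ≤ 2 * M + 2 + y := by omega
    have e4 : x * (R + 1) ≤ (2 * M + 2 + y) * (R + 1) := Nat.mul_le_mul_right _ e3
    nlinarith
  have hM2 : (b : ℝ) - a ≤ (2 * M + 4) * ((R : ℝ) + 1) := by
    have : (b : ℝ) ≤ a + (2 * M + 4) * (R + 1) := by exact_mod_cast hM1
    linarith
  have e5 : (γ⁻¹) ^ M = Real.exp (-(Real.log γ * M)) := by
    rw [Real.exp_neg, mul_comm, Real.exp_nat_mul, Real.exp_log hγ0, inv_pow]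
  have e6 : γ = Real.exp (Real.log γ) := (Real.exp_log hγ0).symm
  have e7 : (γ * Real.exp (-(Real.log γ / (4 * ((R : ℝ) + 1)) * ((b : ℝ) - a)))) ^ 2 =
      Real.exp (2 * Real.log γ - Real.log γ / (2 * ((R : ℝ) + 1)) * ((b : ℝ) - a)) := by
    conv_lhs => rw [e6]
    rw [← Real.exp_add, ← Real.exp_nat_mul, Real.log_exp]
    congr 1
    push_cast
    field_simp
    ring
  rw [e5, e7]
  refine Real.exp_le_exp.mpr ?_
  have e8 : Real.log γ / (2 * ((R : ℝ) + 1)) * ((b : ℝ) - a) ≤
      Real.log γ / (2 * ((R : ℝ) + 1)) * ((2 * M + 4) * ((R : ℝ) + 1)) :=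
    mul_le_mul_of_nonneg_left hM2 (by positivity)
  have e9 : Real.log γ / (2 * ((R : ℝ) + 1)) * ((2 * M + 4) * ((R : ℝ) + 1)) =
      Real.log γ * M + 2 * Real.log γ := by
    field_simp
    ring
  linarith

end E

end Vale.Agent.P356.NA
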