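import Vale.Agent.P356.NA.RepCalc
import Vale.Agent.P356.NA.Merge

/-!
Ground projection of the whole square as a product over small rectangles.
-/

set_option linter.all false

namespace Vale.Agent.P356.NA

open Matrix Finset Vale.Agent.P356 Vale.Agent.P356.SV Vale.Agent.P356.Path Polynomial
open scoped BigOperators ComplexOrder Kronecker

/-! ## BLOCK J1 (file NA/Tile.lean): ground projection as a product over rectangles -/

section J1

theorem na_j1_herm {L q : ℕ} {h : Finset (Site L) → Op (Site L) q}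
    (hh : ∀ X, (h X).IsHermitian) (B : Finset (Site L)) : (HB h B).IsHermitian := by
  show (HB h B)ᴴ = HB h B
  rw [HB, conjTranspose_sum]
  exact Finset.sum_congr rfl fun X _ => hh X

theorem na_j1_prS_prR {N : Type*} [Fintype N] [DecidableEq N] (W : ℕ → Matrix N N ℂ) (k j : ℕ) :
    prS W k j = prR (fun i => W (k + i)) j := by
  induction j with
  | zero => rfl
  | succ j ih => rw [prS, prR, ih]

/-- a product over `a * b` indices is a product of products -/
theorem na_j1_prR_mul {N : Type*} [Fintype N] [DecidableEq N] (W : ℕ → Matrix N N ℂ) (a b : ℕ) :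
    prR W (a * b) = prR (fun k => prR (fun i => W (k * b + i)) b) a := by
  induction a with
  | zero => rw [Nat.zero_mul]; rfl
  | succ a ih =>
    rw [Nat.succ_mul, prR_split, ih, na_j1_prS_prR]
    rfl

/-- lower ends of the pieces -/
def na_j1_t (X s j : ℕ) : ℕ := if j = 0 then 0 else X + (j - 1) * s

/-- upper ends of the pieces -/
def na_j1_u (L X s m j : ℕ) : ℕ := if j = m then L else X + (j + 1) * s

/-- one coordinate, abstract form -/
theorem na_j1_chain {L q : ℕ} (P : Finset (Site L) → Op (Site L) q)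
    (hP : ∀ S, OpNormLe (P S) 1) (c : Site L → ℕ) (S : Finset (Site L)) (t : ℕ → ℕ) (s : ℕ)
    (ht0 : t 0 = 0) (ht : ∀ k, t k ≤ t (k + 1)) {ε : ℝ} (hε : 0 ≤ ε)
    (hm : ∀ k, OpNormLe (P ((S.filter (fun x => t k ≤ c x)).filter (fun x => c x < t (k + 1) + s)) *
      P ((S.filter (fun x => t k ≤ c x)).filter (fun x => t (k + 1) ≤ c x)) -
        P (S.filter (fun x => t k ≤ c x))) ε) (m : ℕ) :
    OpNormLe (prR (fun k => P (S.filter (fun x => t k ≤ c x ∧ c x < t (k + 1) + s))) m *
      P (S.filter (fun x => t m ≤ c x)) - P S) (m * ε) := by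
  induction m with
  | zero =>
    have e : S.filter (fun x => t 0 ≤ c x) = S := by
      rw [Finset.filter_true_of_mem]
      intro x _
      rw [ht0]
      exact Nat.zero_le _
    rw [e, prR, Matrix.one_mul, sub_self]
    exact onl_zero _
  | succ m ih =>
    have e1 : (S.filter (fun x => t m ≤ c x)).filter (fun x => c x < t (m + 1) + s) =
        S.filter (fun x => t m ≤ c x ∧ c x < t (m + 1) + s) := by
      rw [Finset.filter_filter]
    have e2 : (S.filter (fun x => t m ≤ c x)).filter (fun x => t (m + 1) ≤ c x) =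
        S.filter (fun x => t (m + 1) ≤ c x) := by
      rw [Finset.filter_filter]
      refine Finset.filter_congr fun x _ => ⟨fun h => h.2, fun h => ⟨(ht m).trans h, h⟩⟩
    have h1 := hm m
    rw [e1, e2] at h1
    have h2 := onl_mul (onl_prR (fun k => P (S.filter
      (fun x => t k ≤ c x ∧ c x < t (k + 1) + s))) m (fun i _ => hP _)) h1
    have h3 := onl_add h2 ih (by positivity) (by positivity)
    have e3 : prR (fun k => P (S.filter (fun x => t k ≤ c x ∧ c x < t (k + 1) + s))) (m + 1) *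
        P (S.filter (fun x => t (m + 1) ≤ c x)) - P S =
        prR (fun k => P (S.filter (fun x => t k ≤ c x ∧ c x < t (k + 1) + s))) m *
          (P (S.filter (fun x => t m ≤ c x ∧ c x < t (m + 1) + s)) *
            P (S.filter (fun x => t (m + 1) ≤ c x)) - P (S.filter (fun x => t m ≤ c x))) +
        (prR (fun k => P (S.filter (fun x => t k ≤ c x ∧ c x < t (k + 1) + s))) m *
          P (S.filter (fun x => t m ≤ c x)) - P S) := by
      rw [prR]; noncomm_ring
    rw [e3]
    have e4 : (1 : ℝ) * ε + m * ε = ((m + 1 : ℕ) : ℝ) * ε := by push_cast; ring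
    rwa [e4] at h3

/-- one coordinate, with the explicit levels -/
theorem na_j1_line {L q : ℕ} (P : Finset (Site L) → Op (Site L) q)
    (hP : ∀ S, OpNormLe (P S) 1) (c : Site L → ℕ) (hcL : ∀ x, c x < L) (S : Finset (Site L))
    (X s m : ℕ) {ε : ℝ} (hε : 0 ≤ ε)
    (hm : ∀ k, OpNormLe (P ((S.filter (fun x => na_j1_t X s k ≤ c x)).filter
        (fun x => c x < na_j1_t X s (k + 1) + s)) *
      P ((S.filter (fun x => na_j1_t X s k ≤ c x)).filter (fun x => na_j1_t X s (k + 1) ≤ c x)) -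
        P (S.filter (fun x => na_j1_t X s k ≤ c x))) ε) :
    OpNormLe (prR (fun k => P (S.filter (fun x => na_j1_t X s k ≤ c x ∧ c x < na_j1_u L X s m k)))
      (m + 1) - P S) (m * ε) := by
  have hmono : ∀ k, na_j1_t X s k ≤ na_j1_t X s (k + 1) := by
    intro k
    unfold na_j1_t
    rw [if_neg (Nat.succ_ne_zero k)]
    split_ifs
    · exact Nat.zero_le _
    · exact Nat.add_le_add_left (Nat.mul_le_mul_right _ (by omega)) _
  have h1 := na_j1_chain P hP c S (na_j1_t X s) s rfl hmono hε hm m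
  have e1 : prR (fun k => P (S.filter
      (fun x => na_j1_t X s k ≤ c x ∧ c x < na_j1_u L X s m k))) m =
      prR (fun k => P (S.filter
        (fun x => na_j1_t X s k ≤ c x ∧ c x < na_j1_t X s (k + 1) + s))) m := by
    refine prR_congr fun k hk => ?_
    have e : na_j1_u L X s m k = na_j1_t X s (k + 1) + s := by
      unfold na_j1_u na_j1_t
      rw [if_neg (ne_of_lt hk), if_neg (Nat.succ_ne_zero k), Nat.add_sub_cancel, Nat.succ_mul,
        Nat.add_assoc]
    rw [e]
  have e2 : S.filter (fun x => na_j1_t X s m ≤ c x ∧ c x < na_j1_u L X s m m) =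
      S.filter (fun x => na_j1_t X s m ≤ c x) := by
    refine Finset.filter_congr fun x _ => ⟨fun h => h.1, fun h => ⟨h, ?_⟩⟩
    unfold na_j1_u
    rw [if_pos rfl]
    exact hcL x
  have e3 : prR (fun k => P (S.filter
      (fun x => na_j1_t X s k ≤ c x ∧ c x < na_j1_u L X s m k))) (m + 1) =
      prR (fun k => P (S.filter
        (fun x => na_j1_t X s k ≤ c x ∧ c x < na_j1_t X s (k + 1) + s))) m *
        P (S.filter (fun x => na_j1_t X s m ≤ c x)) := by
    rw [prR, e1, e2]
  rw [e3]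
  exact h1

theorem na_j1_card {L : ℕ} (a b c d : ℕ) : (rect L a b c d).card ≤ (b - a) * (d - c) := by
  have h1 : (rect L a b c d).card ≤ (Finset.Ico a b ×ˢ Finset.Ico c d).card := by
    refine Finset.card_le_card_of_injOn (fun p => (p.1.val, p.2.val)) ?_ ?_
    · intro p hp
      have hp' := (Finset.mem_filter.mp hp).2
      simp only [Finset.coe_product, Finset.coe_Ico, Set.mem_prod, Set.mem_Ico]
      exact ⟨⟨hp'.1, hp'.2.1⟩, ⟨hp'.2.2.1, hp'.2.2.2⟩⟩
    · intro p _ p' _ hpp
      simp only [Prod.mk.injEq] at hpp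
      exact Prod.ext (Fin.ext hpp.1) (Fin.ext hpp.2)
  rwa [Finset.card_product, Nat.card_Ico, Nat.card_Ico] at h1

theorem tiling (q R : ℕ) (hq : 1 ≤ q) (J Δ : ℝ) (hJ : 0 < J) (hΔ : 0 < Δ) :
    ∃ c₁ C₁ : ℝ, 0 < c₁ ∧ 0 < C₁ ∧ ∀ (L : ℕ) (h : Finset (Site L) → Op (Site L) q)
      (Ω : Conf (Site L) q → ℂ), FFLG L q R J Δ h Ω →
      ∀ (l s w : ℕ), 1 ≤ s → ∀ x0 x1 y0 y1 : ℕ, x1 ≤ x0 + l → y1 ≤ y0 + l →
      ∃ (M : ℕ) (B : ℕ → Finset (Site L)), 1 ≤ M ∧ M ≤ ((l + 2 * w) / s + 4) ^ 2 ∧
        (∀ i < M, (∃ a b c d : ℕ, B i = rect L a b c d) ∧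
          (B i ∩ rect L (x0 - w) (x1 + w) (y0 - w) (y1 + w)).card ≤ 4 * s ^ 2) ∧
        OpNormLe (prR (fun i => kpr (HB h (B i))) M - kpr (HB h Finset.univ))
          (M * C₁ * Real.exp (-(c₁ * s))) := by
  obtain ⟨c₀, C, hc₀, hC, hmerge⟩ := merge q R hJ hΔ
  refine ⟨c₀, C, hc₀, hC, ?_⟩
  intro L h Ω hF l s w hs x0 x1 y0 y1 hx hy
  have hherm : ∀ B, (HB h B).IsHermitian := na_j1_herm hF.herm
  have hP : ∀ B, OpNormLe (kpr (HB h B)) 1 := fun B => onl_isPr (kpr_isPr (hherm B))
  set ε : ℝ := C * Real.exp (-(c₀ * s)) with hεdef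
  have hε : 0 ≤ ε := by positivity
  set m : ℕ := (l + 2 * w) / s + 1 with hm
  have hm1 : 1 ≤ m := by rw [hm]; exact Nat.le_add_left 1 _
  have hms : l + 2 * w < m * s := by
    rw [hm, Nat.add_mul, one_mul]
    have h1 := Nat.div_add_mod (l + 2 * w) s
    have h2 := Nat.mod_lt (l + 2 * w) hs
    rw [Nat.mul_comm] at h1
    omega
  -- the merging step along a coordinate
  have hstep : ∀ (c : Site L → ℕ), (∀ x y, ((c x : ℤ) - c y).natAbs ≤ dist1 x y) →
      ∀ (S : Finset (Site L)) (X : ℕ),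
        (∀ k, ∃ a b c' d, S.filter (fun x => na_j1_t X s k ≤ c x) = rect L a b c' d) →
      ∀ k, OpNormLe (kpr (HB h ((S.filter (fun x => na_j1_t X s k ≤ c x)).filter
          (fun x => c x < na_j1_t X s (k + 1) + s))) *
        kpr (HB h ((S.filter (fun x => na_j1_t X s k ≤ c x)).filter
          (fun x => na_j1_t X s (k + 1) ≤ c x))) -
        kpr (HB h (S.filter (fun x => na_j1_t X s k ≤ c x)))) ε := by
    intro c hc S X hrect k
    obtain ⟨a, b, c', d, hS⟩ := hrect k
    have h1 := hmerge L h Ω hF c hc (S.filter (fun x => na_j1_t X s k ≤ c x))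
      (by rw [hS]; exact hF.gap a b c' d) (na_j1_t X s (k + 1)) (na_j1_t X s (k + 1) + s)
      (Nat.le_add_right _ _)
    have e : (((na_j1_t X s (k + 1) + s : ℕ) : ℝ) - (na_j1_t X s (k + 1) : ℕ)) = s := by
      push_cast; ring
    rwa [e] at h1
  set X : ℕ := x0 - w with hX
  set Y : ℕ := y0 - w with hY
  -- the pieces
  let B : ℕ → Finset (Site L) := fun i =>
    rect L (na_j1_t X s (i % (m + 1))) (na_j1_u L X s m (i % (m + 1)))
      (na_j1_t Y s (i / (m + 1))) (na_j1_u L Y s m (i / (m + 1)))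
  refine ⟨(m + 1) * (m + 1), B, ?_, ?_, ?_, ?_⟩
  · exact Nat.one_le_iff_ne_zero.mpr (by positivity)
  · rw [sq]
    exact Nat.mul_le_mul (by omega) (by omega)
  · intro i hi
    refine ⟨⟨_, _, _, _, rfl⟩, ?_⟩
    have hi1 : i % (m + 1) ≤ m := Nat.lt_succ_iff.mp (Nat.mod_lt _ (Nat.succ_pos m))
    have hi2 : i / (m + 1) ≤ m := Nat.lt_succ_iff.mp (Nat.div_lt_of_lt_mul hi)
    -- the one dimensional statement
    have key : ∀ (Z Z1 j : ℕ), Z1 ≤ Z + (l + 2 * w) → j ≤ m →
        ∃ a : ℕ, ∀ z, na_j1_t Z s j ≤ z → z < na_j1_u L Z s m j → Z ≤ z → z < Z1 →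
          a ≤ z ∧ z < a + 2 * s := by
      intro Z Z1 j hZ hj
      rcases Nat.eq_zero_or_pos j with h0 | h0
      · subst h0
        refine ⟨Z, fun z _ h2 h3 _ => ⟨h3, ?_⟩⟩
        unfold na_j1_u at h2
        have hm0 : ¬ (0 = m) := by omega
        rw [if_neg hm0] at h2
        have e : (0 + 1) * s = s := by ring
        omega
      · refine ⟨Z + (j - 1) * s, fun z h1 h2 h3 h4 => ⟨?_, ?_⟩⟩
        · unfold na_j1_t at h1
          rwa [if_neg (by omega)] at h1
        · obtain ⟨j', rfl⟩ : ∃ j', j = j' + 1 := ⟨j - 1, by omega⟩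
          rw [Nat.add_sub_cancel]
          rcases hj.eq_or_lt with h5 | h5
          · have e : m * s = j' * s + s := by rw [← h5]; ring
            omega
          · unfold na_j1_u at h2
            rw [if_neg (ne_of_lt h5)] at h2
            have e : (j' + 1 + 1) * s = j' * s + 2 * s := by ring
            omega
    obtain ⟨a, ha⟩ := key X (x1 + w) (i % (m + 1)) (by omega) hi1
    obtain ⟨b, hb⟩ := key Y (y1 + w) (i / (m + 1)) (by omega) hi2
    have hsub : B i ∩ rect L X (x1 + w) Y (y1 + w) ⊆ rect L a (a + 2 * s) b (b + 2 * s) := by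
      intro p hp
      obtain ⟨h1, h2⟩ := Finset.mem_inter.mp hp
      have h1' := (Finset.mem_filter.mp h1).2
      have h2' := (Finset.mem_filter.mp h2).2
      have h3 := ha p.1.val h1'.1 h1'.2.1 h2'.1 h2'.2.1
      have h4 := hb p.2.val h1'.2.2.1 h1'.2.2.2 h2'.2.2.1 h2'.2.2.2
      exact Finset.mem_filter.mpr ⟨Finset.mem_univ _, h3.1, h3.2, h4.1, h4.2⟩
    refine (Finset.card_le_card hsub).trans ((na_j1_card _ _ _ _).trans (le_of_eq ?_))
    rw [Nat.add_sub_cancel_left, Nat.add_sub_cancel_left]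
    ring
  · -- the norm estimate
    have hL1 : ∀ x : Site L, x.1.val < L := fun x => x.1.isLt
    have hL2 : ∀ x : Site L, x.2.val < L := fun x => x.2.isLt
    have hc1 : ∀ x y : Site L, (((fun x : Site L => x.1.val) x : ℤ) -
        ((fun x : Site L => x.1.val) y : ℤ)).natAbs ≤ dist1 x y := fun x y =>
      Nat.le_add_right _ _
    have hc2 : ∀ x y : Site L, (((fun x : Site L => x.2.val) x : ℤ) -
        ((fun x : Site L => x.2.val) y : ℤ)).natAbs ≤ dist1 x y := fun x y =>
      Nat.le_add_left _ _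
    -- vertical direction
    have hv := na_j1_line (fun S => kpr (HB h S)) hP (fun x => x.2.val) hL2 Finset.univ Y s m hε
      (hstep (fun x => x.2.val) hc2 Finset.univ Y (fun k => ⟨0, L, na_j1_t Y s k, L, by
        ext x
        simp only [rect, Finset.mem_filter, Finset.mem_univ, true_and]
        exact ⟨fun h => ⟨Nat.zero_le _, x.1.isLt, h, x.2.isLt⟩, fun h => h.2.2.1⟩⟩))
    have ev : ∀ k, (Finset.univ : Finset (Site L)).filter
        (fun x => na_j1_t Y s k ≤ x.2.val ∧ x.2.val < na_j1_u L Y s m k) =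
        rect L 0 L (na_j1_t Y s k) (na_j1_u L Y s m k) := by
      intro k
      ext x
      simp only [rect, Finset.mem_filter, Finset.mem_univ, true_and]
      exact ⟨fun h => ⟨Nat.zero_le _, x.1.isLt, h.1, h.2⟩, fun h => ⟨h.2.2.1, h.2.2.2⟩⟩
    simp only [ev] at hv
    -- horizontal direction
    have hh : ∀ k, OpNormLe (prR (fun j => kpr (HB h (rect L (na_j1_t X s j) (na_j1_u L X s m j)
        (na_j1_t Y s k) (na_j1_u L Y s m k)))) (m + 1) -
        kpr (HB h (rect L 0 L (na_j1_t Y s k) (na_j1_u L Y s m k)))) (m * ε) := by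
      intro k
      have h1 := na_j1_line (fun S => kpr (HB h S)) hP (fun x => x.1.val) hL1
        (rect L 0 L (na_j1_t Y s k) (na_j1_u L Y s m k)) X s m hε
        (hstep (fun x => x.1.val) hc1 _ X (fun j => ⟨na_j1_t X s j, L, na_j1_t Y s k,
          na_j1_u L Y s m k, by
            ext x
            simp only [rect, Finset.mem_filter, Finset.mem_univ, true_and]
            exact ⟨fun h => ⟨h.2, x.1.isLt, h.1.2.2.1, h.1.2.2.2⟩,
              fun h => ⟨⟨Nat.zero_le _, x.1.isLt, h.2.2.1, h.2.2.2⟩, h.1⟩⟩⟩))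
      have e : ∀ j, (rect L 0 L (na_j1_t Y s k) (na_j1_u L Y s m k)).filter
          (fun x => na_j1_t X s j ≤ x.1.val ∧ x.1.val < na_j1_u L X s m j) =
          rect L (na_j1_t X s j) (na_j1_u L X s m j) (na_j1_t Y s k) (na_j1_u L Y s m k) := by
        intro j
        ext x
        simp only [rect, Finset.mem_filter, Finset.mem_univ, true_and]
        exact ⟨fun h => ⟨h.2.1, h.2.2, h.1.2.2.1, h.1.2.2.2⟩,
          fun h => ⟨⟨Nat.zero_le _, x.1.isLt, h.2.2.1, h.2.2.2⟩, h.1, h.2.1⟩⟩
      simp only [e] at h1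
      exact h1
    -- the product over all pieces
    have eB : prR (fun i => kpr (HB h (B i))) ((m + 1) * (m + 1)) =
        prR (fun k => prR (fun j => kpr (HB h (rect L (na_j1_t X s j) (na_j1_u L X s m j)
          (na_j1_t Y s k) (na_j1_u L Y s m k)))) (m + 1)) (m + 1) := by
      rw [na_j1_prR_mul]
      refine prR_congr fun k _ => prR_congr fun j hj => ?_
      have e1 : (k * (m + 1) + j) % (m + 1) = j := by
        rw [Nat.mul_comm, Nat.mul_add_mod, Nat.mod_eq_of_lt hj]
      have e2 : (k * (m + 1) + j) / (m + 1) = k := by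
        rw [Nat.mul_comm, Nat.mul_add_div (Nat.succ_pos m), Nat.div_eq_of_lt hj, Nat.add_zero]
      show kpr (HB h (B (k * (m + 1) + j))) = _
      simp only [B, e1, e2]
    have h5 := onl_prR_sub (fun k => prR (fun j => kpr (HB h (rect L (na_j1_t X s j)
        (na_j1_u L X s m j) (na_j1_t Y s k) (na_j1_u L Y s m k)))) (m + 1))
      (fun k => kpr (HB h (rect L 0 L (na_j1_t Y s k) (na_j1_u L Y s m k)))) (m + 1)
      (η := m * ε) (by positivity) (fun k _ => onl_prR _ _ (fun j _ => hP _)) (fun k _ => hP _)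
      (fun k _ => hh k)
    have h6 := onl_add h5 hv (by positivity) (by positivity)
    rw [sub_add_sub_cancel] at h6
    rw [eB]
    refine onl_mono h6 (by positivity) ?_
    have e : (((m + 1) * (m + 1) : ℕ) : ℝ) * C * Real.exp (-(c₀ * s)) =
        ((m : ℝ) + 1) * (m + 1) * ε := by
      rw [hεdef]; push_cast; ring
    rw [e]
    push_cast
    nlinarith

end J1

end Vale.Agent.P356.NA
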