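import Vale.Agent.P356.NA.RepCalc

/-!
Truncated two level expansion of a product of contractions.
-/

set_option linter.all false

namespace Vale.Agent.P356.NA

open Matrix Finset Vale.Agent.P356 Vale.Agent.P356.SV Vale.Agent.P356.Path Polynomial
open scoped BigOperators ComplexOrder Kronecker

/-! ## BLOCK F (file NA/Trunc.lean): truncated two level expansion -/
section F

/-- the terms of `∏ (A i + D i)` with at most `f` factors `D` -/
def na_f_tr {N : Type*} [Fintype N] [DecidableEq N] (A D : ℕ → Matrix N N ℂ) :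
    ℕ → ℕ → Matrix N N ℂ
  | 0, _ => 1
  | m + 1, 0 => na_f_tr A D m 0 * A m
  | m + 1, f + 1 => na_f_tr A D m (f + 1) * A m + na_f_tr A D m f * D m

theorem na_f_fix {N : Type*} [Fintype N] [DecidableEq N] (A D : ℕ → Matrix N N ℂ) {Ω : N → ℂ}
    (m : ℕ) (h : ∀ i < m, A i *ᵥ Ω = Ω ∧ D i *ᵥ Ω = 0) :
    ∀ f, na_f_tr A D m f *ᵥ Ω = Ω := by
  induction m with
  | zero => intro f; cases f <;> exact Matrix.one_mulVec _
  | succ m ih =>
    have ih' := ih fun i hi => h i (Nat.lt_succ_of_lt hi)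
    have hm := h m (Nat.lt_succ_self m)
    intro f
    cases f with
    | zero => rw [na_f_tr, ← mulVec_mulVec, hm.1, ih']
    | succ f =>
      rw [na_f_tr, add_mulVec, ← mulVec_mulVec, ← mulVec_mulVec, hm.1, hm.2, ih', mulVec_zero,
        add_zero]

theorem na_f_fix_adj {N : Type*} [Fintype N] [DecidableEq N] (A D : ℕ → Matrix N N ℂ)
    {Ω : N → ℂ} (m : ℕ) (h : ∀ i < m, (A i)ᴴ *ᵥ Ω = Ω ∧ (D i)ᴴ *ᵥ Ω = 0) :
    ∀ f, (na_f_tr A D m f)ᴴ *ᵥ Ω = Ω := by
  induction m with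
  | zero => intro f; cases f <;> (rw [na_f_tr, conjTranspose_one]; exact Matrix.one_mulVec _)
  | succ m ih =>
    have ih' := ih fun i hi => h i (Nat.lt_succ_of_lt hi)
    have hm := h m (Nat.lt_succ_self m)
    intro f
    cases f with
    | zero => rw [na_f_tr, conjTranspose_mul, ← mulVec_mulVec, ih', hm.1]
    | succ f =>
      rw [na_f_tr, conjTranspose_add, conjTranspose_mul, conjTranspose_mul, add_mulVec,
        ← mulVec_mulVec, ← mulVec_mulVec, ih', ih', hm.1, hm.2, add_zero]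

theorem na_f_err {N : Type*} [Fintype N] [DecidableEq N] (A D : ℕ → Matrix N N ℂ) {η : ℝ}
    (hη : 0 ≤ η) (m : ℕ)
    (hA : ∀ i < m, OpNormLe (A i) 1 ∧ OpNormLe (D i) η ∧ OpNormLe (A i + D i) 1) :
    ∀ f, OpNormLe (prR (fun i => A i + D i) m - na_f_tr A D m f) ((m * η) ^ (f + 1)) := by
  induction m with
  | zero => intro f; cases f <;> (rw [prR, na_f_tr, sub_self]; exact onl_zero _)
  | succ m ih =>
    have ih' := ih fun i hi => hA i (Nat.lt_succ_of_lt hi)
    obtain ⟨h1, h2, h3⟩ := hA m (Nat.lt_succ_self m)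
    have hmη : 0 ≤ (m : ℝ) * η := by positivity
    have key : ∀ f : ℕ, ((m : ℝ) * η) ^ (f + 1) + ((m : ℝ) * η) ^ f * η ≤
        (((m + 1 : ℕ) : ℝ) * η) ^ (f + 1) := by
      intro f
      have e1 : ((m : ℝ) * η) ^ (f + 1) + ((m : ℝ) * η) ^ f * η =
          ((m : ℝ) * η) ^ f * (((m + 1 : ℕ) : ℝ) * η) := by push_cast; ring
      have h4 : ((m : ℝ) * η) ^ f ≤ (((m + 1 : ℕ) : ℝ) * η) ^ f := by
        apply pow_le_pow_left₀ hmη
        push_cast
        nlinarith
      rw [e1, pow_succ]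
      exact mul_le_mul_of_nonneg_right h4 (by positivity)
    intro f
    cases f with
    | zero =>
      have e : prR (fun i => A i + D i) (m + 1) - na_f_tr A D (m + 1) 0 =
          (prR (fun i => A i + D i) m - na_f_tr A D m 0) * A m +
            prR (fun i => A i + D i) m * D m := by
        rw [prR, na_f_tr]; noncomm_ring
      rw [e]
      have h5 := onl_mul (ih' 0) h1
      have h6 := onl_mul (onl_prR (fun i => A i + D i) m
        fun i hi => (hA i (Nat.lt_succ_of_lt hi)).2.2) h2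
      have h7 := onl_add h5 h6 (by positivity) (by positivity)
      refine onl_mono h7 (by positivity) ?_
      have := key 0
      simp only [pow_zero, one_mul, mul_one] at this ⊢
      exact this
    | succ f =>
      have e : prR (fun i => A i + D i) (m + 1) - na_f_tr A D (m + 1) (f + 1) =
          (prR (fun i => A i + D i) m - na_f_tr A D m (f + 1)) * A m +
            (prR (fun i => A i + D i) m - na_f_tr A D m f) * D m := by
        rw [prR, na_f_tr]; noncomm_ring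
      rw [e]
      have h5 := onl_mul (ih' (f + 1)) h1
      have h6 := onl_mul (ih' f) h2
      have h7 := onl_add h5 h6 (by positivity) (by positivity)
      refine onl_mono h7 (by positivity) ?_
      have := key (f + 1)
      rw [mul_one]
      exact this

variable {N : Type} [Fintype N] [DecidableEq N] {α β : ℕ → Type}
  [∀ k, Fintype (α k)] [∀ k, DecidableEq (α k)] [∀ k, Fintype (β k)] [∀ k, DecidableEq (β k)]

theorem na_f_rep (e : ∀ k, N ≃ α k × β k) (θ : ℕ → ℝ) (n : ℕ) (mm : ℝ) (m : ℕ)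
    (A D : ℕ → Matrix N N ℂ) (gA : ℕ → ℝ) (G : ℝ) (hgA : ∀ i < m, 0 ≤ gA i) (hG : 0 ≤ G)
    (hrA : ∀ i < m, Rep e θ n mm (A i) 1 (gA i)) (hrD : ∀ i < m, Rep e θ n mm (D i) 2 G) :
    ∀ f : ℕ, Rep e θ n mm (na_f_tr A D m f) ((2 * m + 1) ^ f)
      (∑ i ∈ range m, gA i + f * G) := by
  induction m with
  | zero =>
    intro f
    have : na_f_tr A D 0 f = 1 := by cases f <;> rfl
    rw [this]
    exact Rep_one (by simpa using by positivity) (by simp)
  | succ m ih =>
    have ih' := ih (fun i hi => hgA i (Nat.lt_succ_of_lt hi))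
      (fun i hi => hrA i (Nat.lt_succ_of_lt hi)) (fun i hi => hrD i (Nat.lt_succ_of_lt hi))
    have h1 := hrA m (Nat.lt_succ_self m)
    have h2 := hrD m (Nat.lt_succ_self m)
    have hg := hgA m (Nat.lt_succ_self m)
    intro f
    cases f with
    | zero =>
      rw [na_f_tr]
      refine ((ih' 0).mul h1 (by positivity)).mono (by simp) ?_
      rw [Finset.sum_range_succ]
      simp
    | succ f =>
      rw [na_f_tr]
      have h3 := ((ih' (f + 1)).mul h1 (by positivity)).mono (le_refl _)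
        (g' := ∑ i ∈ range (m + 1), gA i + ((f + 1 : ℕ) : ℝ) * G)
        (by rw [Finset.sum_range_succ]; linarith)
      have h4 := ((ih' f).mul h2 (by positivity)).mono (le_refl _)
        (g' := ∑ i ∈ range (m + 1), gA i + ((f + 1 : ℕ) : ℝ) * G)
        (by rw [Finset.sum_range_succ]; push_cast; linarith)
      refine (h3.add h4).mono ?_ (le_refl _)
      have h5 : ((2 : ℝ) * m + 1) ^ f ≤ (2 * ((m + 1 : ℕ) : ℝ) + 1) ^ f := by
        apply pow_le_pow_left₀ (by positivity)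
        push_cast
        linarith
      calc ((2 : ℝ) * m + 1) ^ (f + 1) * 1 + (2 * m + 1) ^ f * 2
          = (2 * m + 1) ^ f * (2 * ((m + 1 : ℕ) : ℝ) + 1) := by push_cast; ring
        _ ≤ (2 * ((m + 1 : ℕ) : ℝ) + 1) ^ f * (2 * ((m + 1 : ℕ) : ℝ) + 1) :=
            mul_le_mul_of_nonneg_right h5 (by positivity)
        _ = _ := by rw [pow_succ]

theorem trunc (e : ∀ k, N ≃ α k × β k) (θ : ℕ → ℝ) (n : ℕ) (mm : ℝ) (m : ℕ)
    (A D : ℕ → Matrix N N ℂ) {η : ℝ} (hη : 0 ≤ η)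
    (hA : ∀ i < m, OpNormLe (A i) 1 ∧ OpNormLe (D i) η ∧ OpNormLe (A i + D i) 1)
    (gA : ℕ → ℝ) (G : ℝ) (hgA : ∀ i < m, 0 ≤ gA i) (hG : 0 ≤ G)
    (hrA : ∀ i < m, Rep e θ n mm (A i) 1 (gA i)) (hrD : ∀ i < m, Rep e θ n mm (D i) 2 G)
    (f : ℕ) :
    ∃ K, Rep e θ n mm K ((2 * m + 1) ^ f) (∑ i ∈ range m, gA i + f * G) ∧
      OpNormLe (prR (fun i => A i + D i) m - K) ((m * η) ^ (f + 1)) ∧
      (∀ Ω, (∀ i < m, A i *ᵥ Ω = Ω ∧ D i *ᵥ Ω = 0) → K *ᵥ Ω = Ω) ∧
      (∀ Ω, (∀ i < m, (A i)ᴴ *ᵥ Ω = Ω ∧ (D i)ᴴ *ᵥ Ω = 0) → Kᴴ *ᵥ Ω = Ω) :=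
  ⟨na_f_tr A D m f, na_f_rep e θ n mm m A D gA G hgA hG hrA hrD f, na_f_err A D hη m hA f,
    fun Ω h => na_f_fix A D m h f, fun Ω h => na_f_fix_adj A D m h f⟩
end F

end Vale.Agent.P356.NA
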