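import Vale.Agent.P356.NA.ExKb
import Vale.Agent.P356.NA.ExKc
import Vale.Agent.P356.NA.SpecPow
import Vale.Agent.P356.NA.Trunc
import Vale.Agent.P356.NA.Tile
import Vale.Agent.P356.NA.Cost

set_option linter.all false

/-!
BLOCK J2: the operator K.
-/

namespace Vale.Agent.P356.NA

open Matrix Finset Vale.Agent.P356 Vale.Agent.P356.SV Vale.Agent.P356.Path
open scoped BigOperators ComplexOrder Kronecker

theorem j_expand {L R : ℕ} (x0 x1 y0 y1 : ℕ) (k : ℕ) (x y : Site L)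
    (hx : x ∈ rect L (x0 - k * (R + 1)) (x1 + k * (R + 1)) (y0 - k * (R + 1)) (y1 + k * (R + 1)))
    (hd : dist1 x y ≤ R) :
    y ∈ rect L (x0 - (k + 1) * (R + 1)) (x1 + (k + 1) * (R + 1)) (y0 - (k + 1) * (R + 1))
      (y1 + (k + 1) * (R + 1)) := by
  rw [rect, Finset.mem_filter] at hx ⊢
  refine ⟨Finset.mem_univ _, ?_⟩
  obtain ⟨-, h1, h2, h3, h4⟩ := hx
  unfold dist1 at hd
  have e : (k + 1) * (R + 1) = k * (R + 1) + (R + 1) := by ring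
  rw [e]
  generalize k * (R + 1) = t at h1 h2 h3 h4 ⊢
  omega

theorem j_delta {h0 Q c τ T : ℝ} (hh0 : 0 ≤ h0) (hQ : 0 ≤ Q) (hc : 0 < c) (hτ : 0 < τ)
    (hτT : τ ≤ T) :
    ∃ (δ : ℝ) (a0 aT : ℕ), 0 < δ ∧ δ * h0 ≤ 1 ∧ Q * δ ≤ c ∧ a0 ≤ aT ∧ τ ≤ δ * a0 ∧
      T ≤ δ * aT ∧ δ * a0 ≤ τ + 1 ∧ δ * aT ≤ T + 1 := by
  obtain ⟨δ, hδ⟩ : ∃ δ : ℝ, δ = min 1 (min (1 / (h0 + 1)) (c / (Q + 1))) := ⟨_, rfl⟩
  have hδp : 0 < δ := by rw [hδ]; positivity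
  have hTp : 0 < T := by linarith
  have hδ1 : δ ≤ 1 := by rw [hδ]; exact min_le_left _ _
  have hδ2 : δ * h0 ≤ 1 := by
    have h1 : δ ≤ 1 / (h0 + 1) := by
      rw [hδ]; exact (min_le_right _ _).trans (min_le_left _ _)
    calc δ * h0 ≤ 1 / (h0 + 1) * h0 := mul_le_mul_of_nonneg_right h1 hh0
      _ ≤ 1 := by
        rw [one_div, inv_mul_le_iff₀ (by positivity)]
        linarith
  have hδ3 : Q * δ ≤ c := by
    have h1 : δ ≤ c / (Q + 1) := by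
      rw [hδ]; exact (min_le_right _ _).trans (min_le_right _ _)
    calc Q * δ ≤ Q * (c / (Q + 1)) := mul_le_mul_of_nonneg_left h1 hQ
      _ ≤ (Q + 1) * (c / (Q + 1)) := by
        refine mul_le_mul_of_nonneg_right (by linarith) (by positivity)
      _ = c := by field_simp
  refine ⟨δ, ⌈τ / δ⌉₊, ⌈T / δ⌉₊, hδp, hδ2, hδ3,
    Nat.ceil_le_ceil (div_le_div_of_nonneg_right hτT hδp.le), ?_, ?_, ?_, ?_⟩
  · have := Nat.le_ceil (τ / δ)
    rw [div_le_iff₀ hδp] at this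
    linarith
  · have := Nat.le_ceil (T / δ)
    rw [div_le_iff₀ hδp] at this
    linarith
  · have := Nat.ceil_lt_add_one (show 0 ≤ τ / δ by positivity)
    have h2 : δ * (⌈τ / δ⌉₊ : ℝ) < δ * (τ / δ + 1) := mul_lt_mul_of_pos_left this hδp
    have h3 : δ * (τ / δ + 1) = τ + δ := by field_simp
    linarith
  · have := Nat.ceil_lt_add_one (show 0 ≤ T / δ by positivity)
    have h2 : δ * (⌈T / δ⌉₊ : ℝ) < δ * (T / δ + 1) := mul_lt_mul_of_pos_left this hδp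
    have h3 : δ * (T / δ + 1) = T + δ := by field_simp
    linarith

/-- the total error -/
theorem j_err {c₀ C₁ S Λ M : ℝ} {f : ℕ} (hM1 : 1 ≤ M) (hM : M ≤ 49 * S ^ 2) (hC₁ : 0 < C₁)
    (hΛ : Λ = Real.log (4 * M)) (hf4 : 2 * c₀ * S ≤ 63 * Λ * (f + 1))
    (hp1 : 49 * S ^ 2 * C₁ * Real.exp (-(4 * c₀ * S)) ≤ Real.exp (-(c₀ * S)) / 3)
    (hp2 : 49 * S ^ 2 * Real.exp (-(2 * c₀ * S)) ≤ Real.exp (-(c₀ * S)) / 3)
    (hp3 : Real.exp (-(2 * c₀ * S)) ≤ Real.exp (-(c₀ * S)) / 3) :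
    (M * Real.exp (-(64 * Λ))) ^ (f + 1) + (M * Real.exp (-(2 * c₀ * S)) +
      M * C₁ * Real.exp (-(4 * c₀ * S))) ≤ Real.exp (-(c₀ * S)) := by
  have hMη : (M * Real.exp (-(64 * Λ))) ^ (f + 1) ≤ Real.exp (-(c₀ * S)) / 3 := by
    refine le_trans ?_ hp3
    have h1 : M * Real.exp (-(64 * Λ)) ≤ Real.exp (-(63 * Λ)) := by
      have h2 : (4 * M : ℝ) = Real.exp Λ := by rw [hΛ, Real.exp_log (by positivity)]
      have h3 : Real.exp (-(63 * Λ)) = Real.exp Λ * Real.exp (-(64 * Λ)) := by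
        rw [← Real.exp_add]; congr 1; ring
      rw [h3, ← h2]
      refine mul_le_mul_of_nonneg_right ?_ (Real.exp_pos _).le
      linarith
    calc (M * Real.exp (-(64 * Λ))) ^ (f + 1) ≤ Real.exp (-(63 * Λ)) ^ (f + 1) :=
          pow_le_pow_left₀ (by positivity) h1 _
      _ = Real.exp (-(63 * Λ * (f + 1))) := by
          rw [← Real.exp_nat_mul]
          congr 1
          push_cast
          ring
      _ ≤ Real.exp (-(2 * c₀ * S)) := by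
          apply Real.exp_le_exp.mpr
          linarith
  have hE1 : M * Real.exp (-(2 * c₀ * S)) ≤ Real.exp (-(c₀ * S)) / 3 :=
    (mul_le_mul_of_nonneg_right hM (Real.exp_pos _).le).trans hp2
  have hE2 : M * C₁ * Real.exp (-(4 * c₀ * S)) ≤ Real.exp (-(c₀ * S)) / 3 :=
    (mul_le_mul_of_nonneg_right (mul_le_mul_of_nonneg_right hM hC₁.le)
      (Real.exp_pos _).le).trans hp1
  linarith

/-- the total cost -/
theorem j_cost {c₀ S Λ Λs M Δ x y Q δ τ T Cs : ℝ} {f : ℕ} (hM1 : 1 ≤ M) (hM : M ≤ 49 * S ^ 2)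
    (hΔ : 0 < Δ) (hS : 0 < S) (hc₀ : 0 < c₀)
    (hΛ : Λ = Real.log (4 * M)) (hΛ1 : 1 ≤ Λ) (hΛs : Λ ≤ Λs)
    (hf3 : (f : ℝ) * Λ ≤ 2 * c₀ * S / 63) (hy : 0 ≤ y)
    (hτ : τ = 64 * Λ / Δ) (hT : T = (2 * c₀ * S + 64 * Λ) / Δ)
    (hx : x = y + Cs * δ) (hQ : Q = (M * (τ + 1) + f * (T + 1)) * Cs) (hQδ : Q * δ ≤ c₀ * S / 9)
    (hp5 : 49 * S ^ 2 * ((64 * Λs / Δ + 1) * y) ≤ c₀ * S / 9)
    (hp6 : 2 * c₀ * S / 63 * (((2 * c₀ * S + 64 * Λs) / Δ + 1) * y) ≤ c₀ * S / 9) :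
    2 * Real.log ((2 * M + 1) ^ f) + (M * ((τ + 1) * x) + f * ((T + 1) * x)) / 2 ≤
      c₀ * S / 4 := by
  have hΛp : 0 < Λ := by linarith
  have h1 : Real.log ((2 * M + 1) ^ f) ≤ 2 * c₀ * S / 63 := by
    rw [Real.log_pow]
    refine le_trans ?_ hf3
    refine mul_le_mul_of_nonneg_left ?_ (Nat.cast_nonneg f)
    rw [hΛ]
    exact Real.log_le_log (by positivity) (by linarith)
  have hf5 : (f : ℝ) ≤ 2 * c₀ * S / 63 := by
    have : (f : ℝ) * 1 ≤ f * Λ := mul_le_mul_of_nonneg_left hΛ1 (Nat.cast_nonneg f)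
    linarith
  have h2 : M * ((τ + 1) * x) + f * ((T + 1) * x) ≤ c₀ * S / 3 := by
    have e1 : M * ((τ + 1) * x) + f * ((T + 1) * x) =
        M * ((τ + 1) * y) + f * ((T + 1) * y) + Q * δ := by
      rw [hx, hQ]; ring
    rw [e1]
    have h3 : M * ((τ + 1) * y) ≤ c₀ * S / 9 := by
      refine le_trans ?_ hp5
      have hτ0 : 0 < τ := by rw [hτ]; positivity
      refine mul_le_mul hM ?_ (by positivity) (by positivity)
      refine mul_le_mul_of_nonneg_right ?_ hy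
      rw [hτ]
      have : 64 * Λ / Δ ≤ 64 * Λs / Δ := by
        apply div_le_div_of_nonneg_right _ hΔ.le
        linarith
      linarith
    have h4 : (f : ℝ) * ((T + 1) * y) ≤ c₀ * S / 9 := by
      refine le_trans ?_ hp6
      have hT0 : 0 < T := by rw [hT]; positivity
      refine mul_le_mul hf5 ?_ (by positivity) (by positivity)
      refine mul_le_mul_of_nonneg_right ?_ hy
      rw [hT]
      have : (2 * c₀ * S + 64 * Λ) / Δ ≤ (2 * c₀ * S + 64 * Λs) / Δ := by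
        apply div_le_div_of_nonneg_right _ hΔ.le
        linarith
      linarith
    linarith
  have h3 : 0 < c₀ * S := by positivity
  linarith

theorem j_floor {c₀ S Λ : ℝ} (hΛ : 0 < Λ) (hc : 0 < c₀) (hS : 0 < S) :
    ∃ f : ℕ, (f : ℝ) * Λ ≤ 2 * c₀ * S / 63 ∧ 2 * c₀ * S ≤ 63 * Λ * (f + 1) := by
  refine ⟨⌊2 * c₀ * S / (63 * Λ)⌋₊, ?_, ?_⟩
  · have hf1 : (⌊2 * c₀ * S / (63 * Λ)⌋₊ : ℝ) ≤ 2 * c₀ * S / (63 * Λ) :=
      Nat.floor_le (by positivity)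
    have := mul_le_mul_of_nonneg_right hf1 hΛ.le
    refine this.trans (le_of_eq ?_)
    field_simp
  · have hf2 : 2 * c₀ * S / (63 * Λ) < ⌊2 * c₀ * S / (63 * Λ)⌋₊ + 1 := Nat.lt_floor_add_one _
    rw [div_lt_iff₀ (by positivity)] at hf2
    linarith

theorem j_M {M l n R s : ℕ} (hs1 : 1 ≤ s) (hls : l ≤ s ^ 2) (hnR : n * (R + 1) ≤ l)
    (hM2 : M ≤ ((l + 2 * (n * (R + 1))) / s + 4) ^ 2) : M ≤ 49 * s ^ 2 := by
  refine hM2.trans ?_
  have h1 : (l + 2 * (n * (R + 1))) / s ≤ 3 * s := by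
    rw [Nat.div_le_iff_le_mul_add_pred hs1]
    have : l + 2 * (n * (R + 1)) ≤ 3 * s ^ 2 := by omega
    have h2 : s * (3 * s) = 3 * s ^ 2 := by ring
    omega
  have h2 : (l + 2 * (n * (R + 1))) / s + 4 ≤ 7 * s := by omega
  calc ((l + 2 * (n * (R + 1))) / s + 4) ^ 2 ≤ (7 * s) ^ 2 := Nat.pow_le_pow_left h2 2
    _ = 49 * s ^ 2 := by ring

theorem j_nums {l n s s0 : ℕ} (hs01 : 1 ≤ s0) (hl0 : s0 ^ 2 ≤ l) (hls : l ≤ s ^ 2)
    (hsl : s ^ 2 ≤ 4 * l) (hnl : 256 * l ^ 4 ≤ n ^ 5) :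
    s0 ≤ s ∧ 1 ≤ l ∧ 4 ≤ n ∧ s ^ 8 ≤ n ^ 5 := by
  have hs0 : s0 ≤ s := by
    have : s0 ^ 2 ≤ s ^ 2 := hl0.trans hls
    exact (Nat.pow_le_pow_iff_left (by norm_num)).mp this
  have hl1 : 1 ≤ l := by
    have : 1 ≤ s0 ^ 2 := Nat.one_le_pow _ _ hs01
    omega
  have hn4 : 4 ≤ n := by
    by_contra hc
    push Not at hc
    have h1 : n ^ 5 ≤ 3 ^ 5 := Nat.pow_le_pow_left (by omega) 5
    have h2 : 1 ≤ l ^ 4 := Nat.one_le_pow _ _ hl1
    omega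
  have hsn : s ^ 8 ≤ n ^ 5 := by
    have h1 : (s ^ 2) ^ 4 ≤ (4 * l) ^ 4 := Nat.pow_le_pow_left hsl 4
    have h2 : (4 * l) ^ 4 = 256 * l ^ 4 := by ring
    have h3 : s ^ 8 = (s ^ 2) ^ 4 := by ring
    omega
  exact ⟨hs0, hl1, hn4, hsn⟩

theorem exists_K (q R : ℕ) (hq : 1 ≤ q) (J Δ : ℝ) (hJ : 0 < J) (hΔ : 0 < Δ) :
    ∃ (c₀ : ℝ) (l₀ C : ℕ), 0 < c₀ ∧ ∀ (L : ℕ) (h : Finset (Site L) → Op (Site L) q)
      (Ω : Conf (Site L) q → ℂ), FFLG L q R J Δ h Ω →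
      ∀ (l n s : ℕ), l₀ ≤ l → l ≤ s ^ 2 → s ^ 2 ≤ 4 * l → n * (R + 1) ≤ l →
        C * l ^ 4 ≤ n ^ 5 →
      ∀ x0 x1 y0 y1 : ℕ, x1 ≤ x0 + l → y1 ≤ y0 + l →
      ∀ m : ℝ, 0 ≤ m →
      ∃ (K : Op (Site L) q) (D g : ℝ), 1 ≤ D ∧ 0 ≤ g ∧
        2 * Real.log D + g / 2 ≤ c₀ * s / 4 ∧
        Rep (α := fun k => Conf {x // x ∈ (rect L (x0 - k * (R + 1)) (x1 + k * (R + 1))
            (y0 - k * (R + 1)) (y1 + k * (R + 1)))ᶜ} q)
          (β := fun k => Conf {x // ¬ x ∈ (rect L (x0 - k * (R + 1)) (x1 + k * (R + 1))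
            (y0 - k * (R + 1)) (y1 + k * (R + 1)))ᶜ} q)
          (fun k => cut (rect L (x0 - k * (R + 1)) (x1 + k * (R + 1))
            (y0 - k * (R + 1)) (y1 + k * (R + 1)))ᶜ q) (fun _ => 1 / (n : ℝ)) n m K D g ∧
        K *ᵥ Ω = Ω ∧ Kᴴ *ᵥ Ω = Ω ∧
        ∀ ψ, star Ω ⬝ᵥ ψ = 0 → nsq (K *ᵥ ψ) ≤ Real.exp (-(c₀ * s)) ^ 2 * nsq ψ := by
  obtain ⟨c₁, C₁, hc₁, hC₁, htile⟩ := tiling q R hq J Δ hJ hΔ
  obtain ⟨κ₀, hκ₀⟩ : ∃ κ₀ : ℝ, κ₀ = J * (q : ℝ) ^ (2 * (2 * R + 1) ^ 2) * NR R := ⟨_, rfl⟩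
  have hqp : (0 : ℝ) < q := by exact_mod_cast hq
  have hNR : (0 : ℝ) < NR R := by unfold NR; positivity
  have hκp : 0 < κ₀ := by rw [hκ₀]; positivity
  obtain ⟨s0, hs01, hpar⟩ := j_param (c₁ / 4) C₁ Δ κ₀ (by positivity) hC₁ hΔ hκp
  refine ⟨c₁ / 4, s0 ^ 2, 256, by positivity, ?_⟩
  intro L h Ω hF l n s hl0 hls hsl hnR hnl x0 x1 y0 y1 hx hy m hm
  obtain ⟨hs0, hl1, hn4, hsn⟩ := j_nums hs01 hl0 hls hsl hnl
  have hs1 : 1 ≤ s := hs01.trans hs0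
  obtain ⟨hp1, hp2, hp3, hp4⟩ := hpar s hs0
  obtain ⟨hp5, hp6⟩ := hp4 n (by omega) hsn
  obtain ⟨M, B, hM1, hM2, hB, hBK⟩ := htile L h Ω hF l s (n * (R + 1)) hs1 x0 x1 y0 y1 hx hy
  set c₀ := c₁ / 4 with hc₀
  have hc₀p : 0 < c₀ := by positivity
  set S : ℝ := (s : ℝ) with hS
  have hS1 : (1 : ℝ) ≤ S := by rw [hS]; exact_mod_cast hs1
  have hS0 : 0 < S := by linarith
  -- the number of rectangles
  have hM3 : M ≤ 49 * s ^ 2 := j_M hs1 hls hnR hM2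
  have hMr : (M : ℝ) ≤ 49 * S ^ 2 := by rw [hS]; exact_mod_cast hM3
  have hMp : (1 : ℝ) ≤ M := by exact_mod_cast hM1
  obtain ⟨Λ, hΛ⟩ : ∃ Λ : ℝ, Λ = Real.log (4 * M) := ⟨_, rfl⟩
  have hΛ1 : 1 ≤ Λ := by
    rw [hΛ, Real.le_log_iff_exp_le (by positivity)]
    have := Real.exp_one_lt_d9
    linarith
  have hΛs : Λ ≤ Real.log (196 * S ^ 2) := by
    rw [hΛ]
    exact Real.log_le_log (by positivity) (by linarith)
  have hΛp : 0 < Λ := by linarith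
  set Λs : ℝ := Real.log (196 * S ^ 2) with hΛsdef
  -- truncation parameter
  obtain ⟨f, hf3, hf4⟩ := j_floor (c₀ := c₀) (S := S) hΛp hc₀p hS0
  -- the nested cuts
  let I : ℕ → Finset (Site L) := fun k => rect L (x0 - k * (R + 1)) (x1 + k * (R + 1))
    (y0 - k * (R + 1)) (y1 + k * (R + 1))
  have hI : ∀ k x y, x ∈ I k → dist1 x y ≤ R → y ∈ I (k + 1) := fun k x y hx hd =>
    j_expand x0 x1 y0 y1 k x y hx hd
  have hgro : ∀ i, ∃ C : ℝ, 0 ≤ C ∧ ∀ δ : ℝ, 0 ≤ δ →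
      Gro (α := fun k => Conf {x // x ∈ (I k)ᶜ} q) (β := fun k => Conf {x // ¬ x ∈ (I k)ᶜ} q)
        (fun k => cut (I k)ᶜ q) (fun _ => 1 / (n : ℝ)) n m (1 - (δ : ℂ) • HB h (B i))
      (18 * δ * κ₀ * (B i ∩ I n).card / (n : ℝ) ^ 2 + C * δ ^ 2) := by
    intro i
    rw [hκ₀]
    exact region_growth hJ hq hF n hn4 I hI hm (B i)
  choose Cg hCg0 hCg using hgro
  set Cs : ℝ := ∑ i ∈ range M, Cg i with hCs
  have hCs0 : 0 ≤ Cs := Finset.sum_nonneg fun i _ => hCg0 i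
  have hCsi : ∀ i < M, Cg i ≤ Cs := fun i hi =>
    Finset.single_le_sum (fun i _ => hCg0 i) (Finset.mem_range.mpr hi)
  -- times
  obtain ⟨τ, hτ⟩ : ∃ τ : ℝ, τ = 64 * Λ / Δ := ⟨_, rfl⟩
  obtain ⟨T, hT⟩ : ∃ T : ℝ, T = (2 * c₀ * S + 64 * Λ) / Δ := ⟨_, rfl⟩
  have hτp : 0 < τ := by rw [hτ]; positivity
  have hTp : 0 < T := by rw [hT]; positivity
  have hτT : τ ≤ T := by
    rw [hτ, hT]
    apply div_le_div_of_nonneg_right _ hΔ.le
    have : 0 ≤ 2 * c₀ * S := by positivity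
    linarith
  -- crude norm bound
  set h0 : ℝ := Fintype.card (Finset (Site L)) * J with hh0
  have hh0p : 0 ≤ h0 := by positivity
  -- the step
  set Q : ℝ := ((M : ℝ) * (τ + 1) + f * (T + 1)) * Cs with hQ
  have hQ0 : 0 ≤ Q := by positivity
  obtain ⟨δ, a0, aT, hδp, hδ2, hδ3, ha0T, ha0l, haTl, ha0u, haTu⟩ :=
    j_delta (h0 := h0) (Q := Q) (c := c₀ * S / 9) (τ := τ) (T := T) hh0p hQ0 (by positivity)
      hτp hτT
  -- the base cost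
  obtain ⟨x, hxdef⟩ : ∃ x : ℝ, x = 72 * κ₀ * S ^ 2 / (n : ℝ) ^ 2 + Cs * δ := ⟨_, rfl⟩
  have hn0 : (0 : ℝ) < n := by exact_mod_cast (by omega : 0 < n)
  have hx0 : 0 ≤ x := by rw [hxdef]; positivity
  have hE : ∀ (i : ℕ), i < M → ∀ (a : ℕ) (t : ℝ), 0 ≤ t → δ * a ≤ t →
      Gro (α := fun k => Conf {x // x ∈ (I k)ᶜ} q) (β := fun k => Conf {x // ¬ x ∈ (I k)ᶜ} q)
        (fun k => cut (I k)ᶜ q) (fun _ => 1 / (n : ℝ)) n m ((1 - (δ : ℂ) • HB h (B i)) ^ a)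
        (t * x) := by
    intro i hi a t ht hat
    refine j_gro_mono (j_gro_pow (hCg i δ hδp.le) a) ?_
    have hcard : ((B i ∩ I n).card : ℝ) ≤ 4 * S ^ 2 := by
      rw [hS]; exact_mod_cast (hB i hi).2
    have h1 : 18 * δ * κ₀ * ((B i ∩ I n).card : ℝ) / (n : ℝ) ^ 2 ≤
        δ * (72 * κ₀ * S ^ 2 / (n : ℝ) ^ 2) := by
      have h2 : 18 * δ * κ₀ * ((B i ∩ I n).card : ℝ) ≤ 18 * δ * κ₀ * (4 * S ^ 2) :=
        mul_le_mul_of_nonneg_left hcard (by positivity)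
      have h3 := div_le_div_of_nonneg_right h2 (show (0 : ℝ) ≤ (n : ℝ) ^ 2 by positivity)
      refine h3.trans (le_of_eq ?_)
      ring
    have h4 : Cg i * δ ^ 2 ≤ δ * (Cs * δ) := by
      have := mul_le_mul_of_nonneg_right (hCsi i hi) (show (0 : ℝ) ≤ δ ^ 2 by positivity)
      linarith [this, show Cs * δ ^ 2 = δ * (Cs * δ) by ring]
    calc (a : ℝ) * (18 * δ * κ₀ * ((B i ∩ I n).card : ℝ) / (n : ℝ) ^ 2 + Cg i * δ ^ 2)
        ≤ (a : ℝ) * (δ * x) := by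
          refine mul_le_mul_of_nonneg_left ?_ (Nat.cast_nonneg a)
          rw [hxdef, mul_add]
          exact add_le_add h1 h4
      _ = (δ * a) * x := by ring
      _ ≤ t * x := mul_le_mul_of_nonneg_right hat hx0
  -- the local data
  have hherm : ∀ i, (HB h (B i)).IsHermitian := fun i => j_HB_herm hF _
  have hposi : ∀ i ψ, 0 ≤ en (HB h (B i)) ψ := fun i ψ => j_HB_pos hF _ ψ
  have hnorm : ∀ i, OpNormLe (HB h (B i)) h0 := fun i => j_HB_norm hJ.le hF _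
  have hgap : ∀ i < M, ∀ ψ, Δ * en (HB h (B i)) ψ ≤ nsq (HB h (B i) *ᵥ ψ) := by
    intro i hi ψ
    obtain ⟨a, b, c, d, habcd⟩ := (hB i hi).1
    rw [habcd]
    exact hF.gap a b c d ψ
  set E : ℕ → ℕ → Op (Site L) q := fun a i => (1 - (δ : ℂ) • HB h (B i)) ^ a with hEdef
  have hEΩ1 : ∀ i, (1 - (δ : ℂ) • HB h (B i)) *ᵥ Ω = Ω := by
    intro i
    rw [sub_mulVec, one_mulVec, smul_mulVec, j_HB_free hF, smul_zero, sub_zero]
  have hEΩ : ∀ a i, E a i *ᵥ Ω = Ω := by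
    intro a i
    simp only [hEdef]
    induction a with
    | zero => rw [pow_zero, one_mulVec]
    | succ a ih => rw [pow_succ, ← mulVec_mulVec, hEΩ1, ih]
  have hEH : ∀ a i, (E a i)ᴴ = E a i := by
    intro a i
    simp only [hEdef]
    rw [conjTranspose_pow, conjTranspose_sub, conjTranspose_one, conjTranspose_smul, (hherm i).eq,
      RCLike.star_def, Complex.conj_ofReal]
  obtain ⟨η, hη⟩ : ∃ η : ℝ, η = Real.exp (-(64 * Λ)) := ⟨_, rfl⟩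
  have hη0 : 0 < η := by rw [hη]; exact Real.exp_pos _
  -- truncation
  obtain ⟨K, hK1, hK2, hK3, hK4⟩ := trunc
    (α := fun k => Conf {x // x ∈ (I k)ᶜ} q) (β := fun k => Conf {x // ¬ x ∈ (I k)ᶜ} q)
    (fun k => cut (I k)ᶜ q) (fun _ => 1 / (n : ℝ)) n m M (E a0)
    (fun i => E aT i - E a0 i) (η := η) hη0.le
    (by
      intro i hi
      refine ⟨pow_contr (hherm i) (hposi i) (hnorm i) hh0p hδp.le hδ2 a0, ?_, ?_⟩
      · have h1 := pow_diff (hherm i) (hposi i) hΔ (hgap i hi) hh0p (hnorm i) hδp.le hδ2 a0 aT ha0T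
        refine j_op_mono (Real.exp_pos _).le ?_ h1
        rw [hη]
        apply Real.exp_le_exp.mpr
        have h2 : 64 * Λ = Δ * τ := by rw [hτ]; field_simp
        have h3 := mul_le_mul_of_nonneg_left ha0l hΔ.le
        rw [h2]
        linarith [h3, show Δ * (δ * (a0 : ℝ)) = δ * Δ * a0 by ring]
      · have : E a0 i + (E aT i - E a0 i) = E aT i := by abel
        rw [this]
        exact pow_contr (hherm i) (hposi i) (hnorm i) hh0p hδp.le hδ2 aT)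
    (fun _ => (τ + 1) * x) ((T + 1) * x) (fun i _ => by positivity) (by positivity)
    (fun i hi => j_rep_one (hE i hi a0 (τ + 1) (by positivity) ha0u))
    (fun i hi => j_rep_sub (hE i hi aT (T + 1) (by positivity) haTu)
      (j_gro_mono (hE i hi a0 (τ + 1) (by positivity) ha0u)
        (mul_le_mul_of_nonneg_right (by linarith) hx0))) f
  have hD1 : (1 : ℝ) ≤ (2 * (M : ℝ) + 1) ^ f := one_le_pow₀ (by linarith)
  refine ⟨K, (2 * (M : ℝ) + 1) ^ f, ∑ i ∈ range M, (τ + 1) * x + f * ((T + 1) * x), hD1,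
    by positivity, ?_, hK1, hK3 Ω (fun i _ => ⟨hEΩ a0 i, by rw [sub_mulVec, hEΩ, hEΩ, sub_self]⟩),
    hK4 Ω (fun i _ => ⟨by rw [hEH, hEΩ], by
      rw [conjTranspose_sub, hEH, hEH, sub_mulVec, hEΩ, hEΩ, sub_self]⟩), ?_⟩
  · rw [Finset.sum_const, Finset.card_range, nsmul_eq_mul]
    exact j_cost hMp hMr hΔ hS0 hc₀p hΛ hΛ1 hΛs hf3 (by positivity) hτ hT hxdef rfl hδ3 hp5 hp6
  · intro ψ hψ
    -- the three errors
    have hX1 : ∀ i < M, OpNormLe (E aT i) 1 := fun i _ =>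
      pow_contr (hherm i) (hposi i) (hnorm i) hh0p hδp.le hδ2 aT
    have hX2 : ∀ i < M, OpNormLe (kpr (HB h (B i))) 1 := fun i _ => j_op_isPr (kpr_isPr (hherm i))
    have hX3 : ∀ i < M, OpNormLe (E aT i - kpr (HB h (B i))) (Real.exp (-(2 * c₀ * S))) := by
      intro i hi
      have h1 := pow_kpr (hherm i) (hposi i) hΔ (hgap i hi) hh0p (hnorm i) hδp.le hδ2 aT
      refine j_op_mono (Real.exp_pos _).le ?_ h1
      apply Real.exp_le_exp.mpr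
      have h2 : 2 * c₀ * S + 64 * Λ = Δ * T := by rw [hT]; field_simp
      have h3 := mul_le_mul_of_nonneg_left haTl hΔ.le
      linarith [h3, show Δ * (δ * (aT : ℝ)) = δ * Δ * aT by ring]
    have hd1 := j_prR_diff (Real.exp_pos (-(2 * c₀ * S))).le hX1 hX2 hX3
    have hsum : (fun i => E a0 i + (E aT i - E a0 i)) = E aT := by
      funext i
      abel
    rw [hsum] at hK2
    have hd2 : OpNormLe (K - kpr (HB h Finset.univ))
        (((M : ℝ) * η) ^ (f + 1) + (M * Real.exp (-(2 * c₀ * S)) +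
          M * C₁ * Real.exp (-(c₁ * S)))) := by
      have e1 : K - kpr (HB h Finset.univ) = (K - prR (E aT) M) +
          ((prR (E aT) M - prR (fun i => kpr (HB h (B i))) M) +
            (prR (fun i => kpr (HB h (B i))) M - kpr (HB h Finset.univ))) := by abel
      rw [e1]
      exact j_op_add (by positivity) (by positivity) (j_op_sub_comm hK2)
        (j_op_add (by positivity) (by positivity) hd1 hBK)
    have hc4 : 4 * c₀ * S = c₁ * S := by rw [hc₀]; ring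
    have herr := j_err hMp hMr hC₁ hΛ hf4 hp1 hp2 hp3
    rw [hc4] at herr
    have hd3 : OpNormLe (K - kpr (HB h Finset.univ)) (Real.exp (-(c₀ * S))) := by
      refine j_op_mono (by positivity) ?_ hd2
      rw [hη]
      exact herr
    have h1 := hd3 ψ
    rw [sub_mulVec, j_kpr_univ hF hψ, sub_zero] at h1
    exact h1

end Vale.Agent.P356.NA
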