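import Vale.Agent.P356.NA.Defs

set_option linter.all false

/-!
Low rank calculus along a splitting.
-/

namespace Vale.Agent.P356.NA

open Matrix Finset Vale.Agent.P356 Vale.Agent.P356.SV Vale.Agent.P356.Path
open scoped BigOperators ComplexOrder Kronecker

section pr
variable {a : Type*} [Fintype a] [DecidableEq a]

theorem na_g_pr_zero : IsPr (0 : Matrix a a ℂ) :=
  ⟨Matrix.zero_mul _, conjTranspose_zero⟩

theorem na_g_pr_one : IsPr (1 : Matrix a a ℂ) :=
  ⟨Matrix.one_mul _, conjTranspose_one⟩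

theorem na_g_pr_compl {Q : Matrix a a ℂ} (hQ : IsPr Q) : IsPr (1 - Q) := by
  refine ⟨?_, ?_⟩
  · rw [Matrix.sub_mul, Matrix.one_mul, Matrix.mul_sub, Matrix.mul_one, hQ.1]
    simp only [sub_self, sub_zero]
  · rw [conjTranspose_sub, conjTranspose_one, hQ.2]

/-- the trace of a projection is its rank -/
theorem na_g_trace_rank {Q : Matrix a a ℂ} (hQ : IsPr Q) : Q.trace.re = Q.rank := by
  have hH : Q.IsHermitian := hQ.2
  obtain ⟨U, b, hU, hb, hQU, htr⟩ := proj_basis hQ
  have hU2 : Uᴴ * U = 1 := mul_eq_one_comm.mp hU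
  have hr : Q.rank = (diagonal (fun i => ((b i : ℝ) : ℂ)) : Matrix a a ℂ).rank := by
    have h1 : IsUnit U.det := by
      rw [← Matrix.isUnit_iff_isUnit_det]
      exact ⟨⟨U, Uᴴ, hU, hU2⟩, rfl⟩
    have h2 : IsUnit (Uᴴ).det := by
      rw [← Matrix.isUnit_iff_isUnit_det]
      exact ⟨⟨Uᴴ, U, hU2, hU⟩, rfl⟩
    rw [hQU, dOp, Matrix.rank_mul_eq_left_of_isUnit_det _ _ h2,
      Matrix.rank_mul_eq_right_of_isUnit_det _ _ h1]
  rw [htr, hr, Matrix.rank_diagonal]
  have h3 : ∀ i, b i = if b i ≠ 0 then 1 else 0 := by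
    intro i
    rcases hb i with h | h
    · rw [h]; simp
    · rw [h]; simp
  rw [Fintype.card_subtype, Finset.card_filter]
  push_cast
  refine Finset.sum_congr rfl fun i _ => ?_
  rcases hb i with h | h
  · rw [h]; simp
  · rw [h]; simp

theorem na_g_mul_self_zero {m : Type*} [Fintype m] {B : Matrix a m ℂ} (h : B * Bᴴ = 0) : B = 0 :=
  Matrix.self_mul_conjTranspose_eq_zero.mp h

/-- support projection of a product `A * Aᴴ` -/
theorem na_g_supp {m : Type*} [Fintype m] (A : Matrix a m ℂ) :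
    ∃ E : Matrix a a ℂ, IsPr E ∧ E * A = A ∧ E.trace.re = A.rank := by
  classical
  have hH : (A * Aᴴ).IsHermitian := Matrix.isHermitian_mul_conjTranspose_self A
  set U : Matrix a a ℂ := (hH.eigenvectorUnitary : Matrix a a ℂ) with hU
  have hU1 : U * Uᴴ = 1 := by
    have := hH.eigenvectorUnitary.2
    rw [Matrix.mem_unitaryGroup_iff] at this
    exact this
  have hU2 : Uᴴ * U = 1 := mul_eq_one_comm.mp hU1
  have hd : Uᴴ * (A * Aᴴ) * U = diagonal (fun i => (hH.eigenvalues i : ℂ)) := by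
    have := hH.conjStarAlgAut_star_eigenvectorUnitary
    rw [Unitary.conjStarAlgAut_star_apply] at this
    exact this
  have hQs : A * Aᴴ = dOp U hH.eigenvalues := by
    rw [dOp, ← hd]
    calc A * Aᴴ = (U * Uᴴ) * (A * Aᴴ) * (U * Uᴴ) := by
          rw [hU1, Matrix.one_mul, Matrix.mul_one]
      _ = _ := by simp only [Matrix.mul_assoc]
  set b : a → ℝ := fun i => if hH.eigenvalues i = 0 then 0 else 1 with hb
  have hbb : ∀ i, b i * b i = b i := by
    intro i
    simp only [hb]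
    split_ifs <;> norm_num
  have hE : IsPr (dOp U b) := by
    refine ⟨?_, dOp_herm U b⟩
    rw [dOp_mul hU1]
    congr 1
    funext i
    exact hbb i
  have hEZ : dOp U b * (A * Aᴴ) = A * Aᴴ := by
    rw [hQs, dOp_mul hU1]
    congr 1
    funext i
    simp only [hb]
    split_ifs with h
    · rw [h, mul_zero]
    · rw [one_mul]
  refine ⟨dOp U b, hE, ?_, ?_⟩
  · have h1 : ((1 - dOp U b) * A) * ((1 - dOp U b) * A)ᴴ = 0 := by
      rw [conjTranspose_mul]
      calc (1 - dOp U b) * A * (Aᴴ * (1 - dOp U b)ᴴ) =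
          ((1 - dOp U b) * (A * Aᴴ)) * (1 - dOp U b)ᴴ := by simp only [Matrix.mul_assoc]
        _ = 0 := by rw [Matrix.sub_mul, Matrix.one_mul, hEZ, sub_self, Matrix.zero_mul]
    have h2 := na_g_mul_self_zero h1
    rw [Matrix.sub_mul, Matrix.one_mul, sub_eq_zero] at h2
    exact h2.symm
  · have h1 : (A * Aᴴ).rank = A.rank := Matrix.rank_self_mul_conjTranspose A
    have h2 := hH.rank_eq_card_non_zero_eigs
    rw [← h1, h2]
    have h3 : (dOp U b).trace.re = ∑ i, b i := by
      rw [dOp, Matrix.trace_mul_comm, ← Matrix.mul_assoc, hU2, Matrix.one_mul,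
        Matrix.trace_diagonal, Complex.re_sum]
      simp only [Complex.ofReal_re]
    rw [h3, Fintype.card_subtype, Finset.card_filter]
    push_cast
    refine Finset.sum_congr rfl fun i _ => ?_
    simp only [hb]
    by_cases h : hH.eigenvalues i = 0
    · simp [h]
    · simp [h]

theorem na_g_two_zero {m : Type*} [Fintype m] {B B' : Matrix a m ℂ}
    (h : B * Bᴴ + B' * B'ᴴ = 0) : B = 0 ∧ B' = 0 := by
  have key : ∀ i, (∑ j, ‖B i j‖ ^ 2) + (∑ j, ‖B' i j‖ ^ 2) = 0 := by
    intro i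
    have h1 := congrFun (congrFun h i) i
    simp only [Matrix.add_apply, Matrix.mul_apply, conjTranspose_apply, Matrix.zero_apply,
      RCLike.star_def] at h1
    have h2 := congrArg Complex.re h1
    simp only [Complex.add_re, Complex.re_sum, Complex.zero_re] at h2
    have e : ∀ z : ℂ, (z * (starRingEnd ℂ) z).re = ‖z‖ ^ 2 := by
      intro z
      rw [Complex.mul_conj, Complex.ofReal_re, Complex.normSq_eq_norm_sq]
    simp only [e] at h2
    exact h2
  constructor
  · ext i j
    have h1 := key i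
    have h2 : 0 ≤ ∑ j, ‖B i j‖ ^ 2 := Finset.sum_nonneg fun _ _ => sq_nonneg _
    have h3 : 0 ≤ ∑ j, ‖B' i j‖ ^ 2 := Finset.sum_nonneg fun _ _ => sq_nonneg _
    have h4 : ∑ j, ‖B i j‖ ^ 2 = 0 := by linarith
    have h5 := (Finset.sum_eq_zero_iff_of_nonneg (fun _ _ => sq_nonneg _)).mp h4 j
      (Finset.mem_univ j)
    simpa using h5
  · ext i j
    have h1 := key i
    have h2 : 0 ≤ ∑ j, ‖B i j‖ ^ 2 := Finset.sum_nonneg fun _ _ => sq_nonneg _
    have h3 : 0 ≤ ∑ j, ‖B' i j‖ ^ 2 := Finset.sum_nonneg fun _ _ => sq_nonneg _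
    have h4 : ∑ j, ‖B' i j‖ ^ 2 = 0 := by linarith
    have h5 := (Finset.sum_eq_zero_iff_of_nonneg (fun _ _ => sq_nonneg _)).mp h4 j
      (Finset.mem_univ j)
    simpa using h5

theorem na_g_rank_add (A B : Matrix a a ℂ) : (A + B).rank ≤ A.rank + B.rank := by
  have h1 : LinearMap.range (A + B).mulVecLin ≤
      LinearMap.range A.mulVecLin ⊔ LinearMap.range B.mulVecLin := by
    rintro _ ⟨v, rfl⟩
    rw [Matrix.mulVecLin_add, LinearMap.add_apply]
    exact Submodule.add_mem_sup ⟨v, rfl⟩ ⟨v, rfl⟩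
  exact (Submodule.finrank_mono h1).trans (Submodule.finrank_add_le_finrank_add_finrank _ _)

/-- the join of two projections -/
theorem na_g_join {E E' : Matrix a a ℂ} (hE : IsPr E) (hE' : IsPr E') :
    ∃ F : Matrix a a ℂ, IsPr F ∧ F * E = E ∧ F * E' = E' ∧
      F.trace.re ≤ E.trace.re + E'.trace.re := by
  obtain ⟨F, hF, hFA, hFt⟩ := na_g_supp (E + E')
  have h1 : ((1 - F) * E) * ((1 - F) * E)ᴴ + ((1 - F) * E') * ((1 - F) * E')ᴴ = 0 := by
    rw [conjTranspose_mul, conjTranspose_mul, hE.2, hE'.2]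
    calc (1 - F) * E * (E * (1 - F)ᴴ) + (1 - F) * E' * (E' * (1 - F)ᴴ) =
        (1 - F) * (E * E) * (1 - F)ᴴ + (1 - F) * (E' * E') * (1 - F)ᴴ := by
          simp only [Matrix.mul_assoc]
      _ = ((1 - F) * (E + E')) * (1 - F)ᴴ := by
          rw [hE.1, hE'.1, Matrix.mul_add, Matrix.add_mul]
      _ = 0 := by rw [Matrix.sub_mul, Matrix.one_mul, hFA, sub_self, Matrix.zero_mul]
  obtain ⟨h2, h3⟩ := na_g_two_zero h1
  rw [Matrix.sub_mul, Matrix.one_mul, sub_eq_zero] at h2 h3
  refine ⟨F, hF, h2.symm, h3.symm, ?_⟩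
  rw [hFt, na_g_trace_rank hE, na_g_trace_rank hE']
  exact_mod_cast na_g_rank_add E E'

end pr

section lr
variable {N α β : Type*} [Fintype N] [DecidableEq N] [Fintype α] [DecidableEq α]
    [Fintype β] [DecidableEq β]

theorem LR_zero (e : N ≃ α × β) : LR e (0 : N → ℂ) 0 :=
  ⟨0, na_g_pr_zero, by simp, by rw [mulVec_zero]⟩

theorem LR_mono (e : N ≃ α × β) {φ : N → ℂ} {r r' : ℝ} (h : LR e φ r) (hr : r ≤ r') :
    LR e φ r' := by
  obtain ⟨E, h1, h2, h3⟩ := h
  exact ⟨E, h1, h2.trans hr, h3⟩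

theorem LR_add (e : N ≃ α × β) {φ φ' : N → ℂ} {r r' : ℝ} (h : LR e φ r)
    (h' : LR e φ' r') : LR e (φ + φ') (r + r') := by
  obtain ⟨E, hE, hEr, hEφ⟩ := h
  obtain ⟨E', hE', hEr', hEφ'⟩ := h'
  obtain ⟨F, hF, hFE, hFE', hFt⟩ := na_g_join hE hE'
  refine ⟨F, hF, by linarith, ?_⟩
  rw [mulVec_add]
  congr 1
  · conv_lhs => rw [← hEφ]
    rw [mulVec_mulVec, ← opL_mul, hFE, hEφ]
  · conv_lhs => rw [← hEφ']
    rw [mulVec_mulVec, ← opL_mul, hFE', hEφ']

theorem LR_smul (e : N ≃ α × β) {φ : N → ℂ} {r : ℝ} (c : ℂ) (h : LR e φ r) :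
    LR e (c • φ) r := by
  obtain ⟨E, hE, hEr, hEφ⟩ := h
  exact ⟨E, hE, hEr, by rw [mulVec_smul, hEφ]⟩

theorem LR_opL (e : N ≃ α × β) {φ : N → ℂ} {r : ℝ} (A : Matrix α α ℂ)
    (h : LR e φ r) : LR e (opL e A *ᵥ φ) r := by
  obtain ⟨E, hE, hEr, hEφ⟩ := h
  obtain ⟨F, hF, hFA, hFt⟩ := na_g_supp (A * E)
  refine ⟨F, hF, ?_, ?_⟩
  · rw [hFt]
    have h1 : ((A * E).rank : ℝ) ≤ E.rank := by exact_mod_cast Matrix.rank_mul_le_right A E
    rw [← na_g_trace_rank hE] at h1
    linarith
  · have h1 : opL e A *ᵥ φ = opL e (A * E) *ᵥ φ := by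
      rw [opL_mul, ← mulVec_mulVec, hEφ]
    rw [h1, mulVec_mulVec, ← opL_mul, hFA]

theorem LR_opR (e : N ≃ α × β) {φ : N → ℂ} {r : ℝ} (S : Matrix β β ℂ)
    (h : LR e φ r) : LR e (opR e S *ᵥ φ) r := by
  obtain ⟨E, hE, hEr, hEφ⟩ := h
  refine ⟨E, hE, hEr, ?_⟩
  rw [mulVec_mulVec, opL_opR_comm, ← mulVec_mulVec, hEφ]

theorem LR_sum (e : N ≃ α × β) {ι : Type*} (s : Finset ι) (φ : ι → N → ℂ) (r : ι → ℝ)
    (h : ∀ i ∈ s, LR e (φ i) (r i)) : LR e (∑ i ∈ s, φ i) (∑ i ∈ s, r i) := by
  classical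
  induction s using Finset.induction_on with
  | empty => rw [Finset.sum_empty, Finset.sum_empty]; exact LR_zero e
  | insert i s hi ih =>
    rw [Finset.sum_insert hi, Finset.sum_insert hi]
    exact LR_add e (h i (Finset.mem_insert_self i s))
      (ih fun j hj => h j (Finset.mem_insert_of_mem hj))

end lr

theorem na_g_nrm {N α β : Type*} [Fintype N] [DecidableEq N] [Fintype α] [DecidableEq α]
    [Fintype β] [DecidableEq β] (e : N ≃ α × β) {U : Matrix α α ℂ} (hU : U * Uᴴ = 1)
    (f : α → ℝ) {C : ℝ} (hC : 0 ≤ C) (hf : ∀ i, |f i| ≤ C) (v : N → ℂ) :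
    nrm (opL e (dOp U f) *ᵥ v) ≤ C * nrm v := by
  have h1 : nsq (opL e (dOp U f) *ᵥ v) +
      nsq (opL e (dOp U (fun i => Real.sqrt (C ^ 2 - f i ^ 2))) *ᵥ v) = C ^ 2 * nsq v := by
    have e1 : ∀ g : α → ℝ, nsq (opL e (dOp U g) *ᵥ v) =
        (star v ⬝ᵥ (opL e (dOp U (fun i => g i * g i)) *ᵥ v)).re := by
      intro g
      rw [← ip_self_re, ip_mulVec, opL_conjTranspose, dOp_herm, mulVec_mulVec, ← opL_mul,
        dOp_mul hU]
    rw [e1, e1, ← Complex.add_re, ← dotProduct_add, ← add_mulVec, ← opL_add]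
    have e2 : dOp U (fun i => f i * f i) +
        dOp U (fun i => Real.sqrt (C ^ 2 - f i ^ 2) * Real.sqrt (C ^ 2 - f i ^ 2)) =
        ((C ^ 2 : ℝ) : ℂ) • (1 : Matrix α α ℂ) := by
      have e3 : ∀ i, Real.sqrt (C ^ 2 - f i ^ 2) * Real.sqrt (C ^ 2 - f i ^ 2) =
          C ^ 2 - f i ^ 2 := by
        intro i
        refine Real.mul_self_sqrt ?_
        have := sq_le_sq' (abs_le.mp (hf i)).1 (abs_le.mp (hf i)).2
        linarith
      simp only [e3]
      rw [← dOp_one hU]
      ext a b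
      rw [Matrix.add_apply, Matrix.smul_apply, dOp_apply, dOp_apply, dOp_apply, smul_eq_mul,
        Finset.mul_sum, ← Finset.sum_add_distrib]
      refine Finset.sum_congr rfl fun i _ => ?_
      push_cast
      ring
    rw [e2, opL_smul, opL_one, smul_mulVec, one_mulVec, dotProduct_smul, smul_eq_mul,
      Complex.re_ofReal_mul, ip_self_re]
  have h2 : nsq (opL e (dOp U f) *ᵥ v) ≤ C ^ 2 * nsq v := by
    have := nsq_nonneg' (opL e (dOp U (fun i => Real.sqrt (C ^ 2 - f i ^ 2))) *ᵥ v)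
    linarith
  have h3 : nrm (opL e (dOp U f) *ᵥ v) ^ 2 ≤ (C * nrm v) ^ 2 := by
    rw [nrm_sq, mul_pow, nrm_sq]
    exact h2
  exact (sq_le_sq₀ (nrm_nonneg _) (mul_nonneg hC (nrm_nonneg v))).mp h3

section G
variable {N : Type} [Fintype N] [DecidableEq N] {α β : ℕ → Type}
  [∀ k, Fintype (α k)] [∀ k, DecidableEq (α k)] [∀ k, Fintype (β k)] [∀ k, DecidableEq (β k)]

/-- the remainder of the telescoping -/
noncomputable def na_g_T (Y Z : ℕ → Matrix N N ℂ) (ζ : N → ℂ) : ℕ → N → ℂ
  | 0 => ζ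
  | k + 1 => Z k *ᵥ (Y k *ᵥ na_g_T Y Z ζ k)

theorem na_g_tele (e : ∀ k, N ≃ α k × β k) (A : ∀ k, Matrix (α k) (α k) ℂ)
    (E : ∀ k, Matrix (α k) (α k) ℂ) (hE : ∀ k, IsPr (E k)) (ζ : N → ℂ)
    (hnest : ∀ j k, j ≤ k → ∀ Y : Matrix (α k) (α k) ℂ, ∃ Y' : Matrix (α j) (α j) ℂ,
      opL (e k) Y = opL (e j) Y') (n : ℕ) :
    ∃ Γ : ℕ → N → ℂ, prL (fun k => opL (e k) (A k)) n *ᵥ ζ = ∑ k ∈ range n, Γ k +
      na_g_T (fun k => opL (e k) (A k)) (fun k => 1 - opL (e k) (E k)) ζ n ∧
      ∀ k < n, LR (e k) (Γ k) (E k).trace.re := by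
  induction n with
  | zero =>
    refine ⟨fun _ => 0, ?_, fun k hk => absurd hk (Nat.not_lt_zero k)⟩
    rw [prL, one_mulVec, Finset.range_zero, Finset.sum_empty, zero_add, na_g_T]
  | succ n ih =>
    obtain ⟨Γ, h1, h2⟩ := ih
    refine ⟨fun k => if k < n then opL (e n) (A n) *ᵥ Γ k else
      opL (e n) (E n) *ᵥ (opL (e n) (A n) *ᵥ
        na_g_T (fun k => opL (e k) (A k)) (fun k => 1 - opL (e k) (E k)) ζ n), ?_, ?_⟩
    · rw [prL, ← mulVec_mulVec, h1, mulVec_add, mulVec_sum, Finset.sum_range_succ,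
        if_neg (lt_irrefl n), na_g_T, sub_mulVec, one_mulVec]
      have h3 : ∑ k ∈ range n, (if k < n then opL (e n) (A n) *ᵥ Γ k else
          opL (e n) (E n) *ᵥ (opL (e n) (A n) *ᵥ
            na_g_T (fun k => opL (e k) (A k)) (fun k => 1 - opL (e k) (E k)) ζ n)) =
          ∑ k ∈ range n, opL (e n) (A n) *ᵥ Γ k :=
        Finset.sum_congr rfl fun k hk => if_pos (Finset.mem_range.mp hk)
      rw [h3]
      abel
    · intro k hk
      rcases Nat.lt_succ_iff_lt_or_eq.mp hk with h | h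
      · simp only [if_pos h]
        obtain ⟨Y', hY'⟩ := hnest k n h.le (A n)
        rw [hY']
        exact LR_opL (e k) Y' (h2 k h)
      · subst h
        simp only [if_neg (lt_irrefl k)]
        refine ⟨E k, hE k, le_refl _, ?_⟩
        rw [mulVec_mulVec, ← opL_mul, (hE k).1]

theorem good_split (e : ∀ k, N ≃ α k × β k) (n : ℕ) (hn : 1 ≤ n)
    (hnest : ∀ j k, j ≤ k → ∀ Y : Matrix (α k) (α k) ℂ, ∃ Y' : Matrix (α j) (α j) ℂ,
      opL (e k) Y = opL (e j) Y')
    {m c : ℝ} {χ : N → ℂ} (h : Good e (fun _ => 1 / (n : ℝ)) n m χ c) {ε : ℝ} (hε : 0 < ε) :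
    ∃ (Γ : ℕ → N → ℂ) (T : N → ℂ), χ = ∑ k ∈ range n, Γ k + T ∧ nsq T ≤ ε ^ 2 ∧
      ∀ k < n, LR (e k) (Γ k) (n * Real.exp (c / 2) / ε) := by
  obtain ⟨π, hπ, hc⟩ := h
  have hn0 : (0 : ℝ) < n := by exact_mod_cast hn
  set θ : ℕ → ℝ := fun _ => 1 / (n : ℝ) with hθ
  set ζ := vv e θ χ n 1 π with hζ
  -- the inverse
  have hχ : prL (YY e θ π (-1)) n *ᵥ ζ = χ := by
    rw [hζ, vv, mulVec_mulVec, prL_mul_prR (fun j _ => YY_inv e θ (hπ j).1 1), one_mulVec]
  have hYn : ∀ k v, nrm (YY e θ π (-1) k *ᵥ v) ≤ 1 * nrm v := by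
    intro k v
    refine na_g_nrm (e k) (hπ k).1 _ zero_le_one (fun i => ?_) v
    rw [abs_of_pos (Real.exp_pos _)]
    refine Real.exp_le_one_iff.mpr ?_
    have h1 : 0 ≤ θ k * (π k).2 i := mul_nonneg (by positivity) ((hπ k).2 i).1
    linarith
  have hpen : 0 ≤ penR θ n π := by
    refine Finset.sum_nonneg fun k _ => ?_
    have : 0 ≤ ∑ i, Real.exp (-((π k).2 i)) := Finset.sum_nonneg fun i _ => (Real.exp_pos _).le
    have h2 : 0 ≤ 2 * θ k := by positivity
    exact mul_nonneg h2 this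
  have hζc : nrm ζ ≤ Real.exp (c / 2) * Real.exp (-(penR θ n π / 2)) := by
    have h1 : nrm ζ ^ 2 ≤ (Real.exp (c / 2) * Real.exp (-(penR θ n π / 2))) ^ 2 := by
      rw [nrm_sq, mul_pow, ← Real.exp_nat_mul, ← Real.exp_nat_mul]
      have e1 : ((2 : ℕ) : ℝ) * (c / 2) = c := by push_cast; ring
      have e2 : ((2 : ℕ) : ℝ) * (-(penR θ n π / 2)) = -penR θ n π := by push_cast; ring
      rw [e1, e2, Real.exp_neg]
      rw [← div_eq_mul_inv, le_div_iff₀ (Real.exp_pos _)]
      exact hc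
    exact (sq_le_sq₀ (nrm_nonneg _) (by positivity)).mp h1
  rcases le_or_gt (nrm ζ) ε with hsmall | hbig
  · -- everything is small
    refine ⟨fun _ => 0, χ, ?_, ?_, ?_⟩
    · rw [Finset.sum_const_zero, zero_add]
    · rw [← nrm_sq]
      have h1 : nrm χ ≤ nrm ζ := by
        rw [← hχ]
        have : ∀ j, nrm (prL (YY e θ π (-1)) j *ᵥ ζ) ≤ nrm ζ := by
          intro j
          induction j with
          | zero => rw [prL, one_mulVec]
          | succ j ih =>
            rw [prL, ← mulVec_mulVec]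
            have := hYn j (prL (YY e θ π (-1)) j *ᵥ ζ)
            linarith
        exact this n
      exact pow_le_pow_left₀ (nrm_nonneg _) (h1.trans hsmall) 2
    · intro k hk
      exact LR_mono (e k) (LR_zero (e k)) (by positivity)
  · set t : ℝ := Real.log (nrm ζ / ε) with ht
    have hζ0 : 0 < nrm ζ := hε.trans hbig
    have hexpt : Real.exp t = nrm ζ / ε := Real.exp_log (div_pos hζ0 hε)
    have ht0 : 0 ≤ t := Real.log_nonneg ((one_le_div hε).mpr hbig.le)
    set b : ∀ k, α k → ℝ := fun k i => if (π k).2 i < t then 1 else 0 with hb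
    set E : ∀ k, Matrix (α k) (α k) ℂ := fun k => dOp (π k).1 (b k) with hE
    have hEpr : ∀ k, IsPr (E k) := by
      intro k
      refine ⟨?_, dOp_herm _ _⟩
      simp only [hE]
      rw [dOp_mul (hπ k).1]
      congr 1
      funext i
      simp only [hb]
      split_ifs <;> norm_num
    obtain ⟨Γ, h1, h2⟩ := na_g_tele e
      (fun k => dOp (π k).1 (fun i => Real.exp (-1 * θ k * (π k).2 i))) E hEpr ζ hnest n
    refine ⟨Γ, na_g_T (fun k => opL (e k) (dOp (π k).1
      (fun i => Real.exp (-1 * θ k * (π k).2 i)))) (fun k => 1 - opL (e k) (E k)) ζ n, ?_, ?_, ?_⟩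
    · rw [← h1]
      exact hχ.symm
    · -- the remainder
      have hT : ∀ j, nrm (na_g_T (fun k => opL (e k) (dOp (π k).1
          (fun i => Real.exp (-1 * θ k * (π k).2 i)))) (fun k => 1 - opL (e k) (E k)) ζ j) ≤
          Real.exp (-(j * (t / n))) * nrm ζ := by
        intro j
        induction j with
        | zero =>
          rw [na_g_T]
          simp
        | succ j ih =>
          rw [na_g_T]
          set w := na_g_T (fun k => opL (e k) (dOp (π k).1
            (fun i => Real.exp (-1 * θ k * (π k).2 i)))) (fun k => 1 - opL (e k) (E k)) ζ j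
          have e1 : (1 - opL (e j) (E j)) *ᵥ (opL (e j) (dOp (π j).1
              (fun i => Real.exp (-1 * θ j * (π j).2 i))) *ᵥ w) =
              opL (e j) (dOp (π j).1 (fun i => (1 - b j i) *
                Real.exp (-1 * θ j * (π j).2 i))) *ᵥ w := by
            rw [mulVec_mulVec, ← opL_one (e j), ← opL_sub, ← opL_mul]
            congr 2
            rw [← dOp_mul (hπ j).1]
            congr 1
            rw [← dOp_one (hπ j).1]
            simp only [hE]
            ext a b'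
            rw [Matrix.sub_apply, dOp_apply, dOp_apply, dOp_apply, ← Finset.sum_sub_distrib]
            refine Finset.sum_congr rfl fun i _ => ?_
            push_cast
            ring
          rw [e1]
          have e2 := na_g_nrm (e j) (hπ j).1 (fun i => (1 - b j i) *
                Real.exp (-1 * θ j * (π j).2 i)) (C := Real.exp (-(t / n))) (Real.exp_pos _).le
                (fun i => by
                  simp only [hb]
                  split_ifs with hi
                  · rw [sub_self, zero_mul, abs_zero]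
                    exact (Real.exp_pos _).le
                  · rw [sub_zero, one_mul, abs_of_pos (Real.exp_pos _)]
                    refine Real.exp_le_exp.mpr ?_
                    push Not at hi
                    simp only [hθ]
                    have : t / n ≤ (π j).2 i / n := div_le_div_of_nonneg_right hi hn0.le
                    have e3 : -1 * (1 / (n : ℝ)) * (π j).2 i = -((π j).2 i / n) := by ring
                    rw [e3]
                    linarith) w
          refine e2.trans ?_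
          have e4 : Real.exp (-(((j + 1 : ℕ) : ℝ) * (t / n))) =
              Real.exp (-(t / n)) * Real.exp (-(j * (t / n))) := by
            rw [← Real.exp_add]
            congr 1
            push_cast
            ring
          rw [e4, mul_assoc]
          exact mul_le_mul_of_nonneg_left ih (Real.exp_pos _).le
      have h3 := hT n
      have e5 : (n : ℝ) * (t / n) = t := by field_simp
      rw [e5, Real.exp_neg, hexpt, inv_div, div_mul_cancel₀ _ hζ0.ne'] at h3
      rw [← nrm_sq]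
      exact pow_le_pow_left₀ (nrm_nonneg _) h3 2
    · intro k hk
      refine LR_mono (e k) (h2 k hk) ?_
      -- the trace
      have e1 : (E k).trace.re = ∑ i, b k i := by
        simp only [hE]
        rw [dOp, Matrix.trace_mul_comm, ← Matrix.mul_assoc,
          mul_eq_one_comm.mp (hπ k).1, Matrix.one_mul, Matrix.trace_diagonal, Complex.re_sum]
        simp only [Complex.ofReal_re]
      have e2 : ∑ i, b k i ≤ Real.exp t * ∑ i, Real.exp (-((π k).2 i)) := by
        rw [Finset.mul_sum]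
        refine Finset.sum_le_sum fun i _ => ?_
        simp only [hb]
        split_ifs with hi
        · rw [← Real.exp_add]
          refine Real.one_le_exp ?_
          linarith
        · positivity
      have e3 : 2 * (1 / (n : ℝ)) * ∑ i, Real.exp (-((π k).2 i)) ≤ penR θ n π := by
        rw [penR]
        refine Finset.single_le_sum (f := fun k => 2 * θ k * ∑ i, Real.exp (-((π k).2 i)))
          (fun j _ => ?_) (Finset.mem_range.mpr hk)
        have : 0 ≤ ∑ i, Real.exp (-((π j).2 i)) :=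
          Finset.sum_nonneg fun i _ => (Real.exp_pos _).le
        have h2 : 0 ≤ 2 * θ j := by positivity
        exact mul_nonneg h2 this
      set P := penR θ n π with hP
      have e4 : ∑ i, Real.exp (-((π k).2 i)) ≤ n * (P / 2) := by
        have : 2 * (1 / (n : ℝ)) * ∑ i, Real.exp (-((π k).2 i)) =
            (2 / n) * ∑ i, Real.exp (-((π k).2 i)) := by ring
        rw [this, div_mul_eq_mul_div, div_le_iff₀ hn0] at e3
        linarith
      have e5 : P / 2 * Real.exp (-(P / 2)) ≤ 1 := by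
        have h3 := Real.add_one_le_exp (P / 2)
        rw [Real.exp_neg, ← div_eq_mul_inv, div_le_one (Real.exp_pos _)]
        linarith
      rw [e1]
      calc ∑ i, b k i ≤ Real.exp t * ∑ i, Real.exp (-((π k).2 i)) := e2
        _ ≤ Real.exp t * (n * (P / 2)) := mul_le_mul_of_nonneg_left e4 (Real.exp_pos _).le
        _ = nrm ζ * (n * (P / 2)) / ε := by rw [hexpt]; ring
        _ ≤ (Real.exp (c / 2) * Real.exp (-(P / 2))) * (n * (P / 2)) / ε := by
            refine div_le_div_of_nonneg_right ?_ hε.le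
            exact mul_le_mul_of_nonneg_right hζc (by positivity)
        _ = n * Real.exp (c / 2) * (P / 2 * Real.exp (-(P / 2))) / ε := by ring
        _ ≤ n * Real.exp (c / 2) * 1 / ε := by
            refine div_le_div_of_nonneg_right ?_ hε.le
            exact mul_le_mul_of_nonneg_left e5 (by positivity)
        _ = _ := by rw [mul_one]

end G

end Vale.Agent.P356.NA
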