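import Vale.Agent.P356.NA.Defs
import Vale.Agent.P356.NA.Low
import Vale.Agent.P356.SV.Meas

/-!
The initial vector on regions (block I1 of the near-area law).
-/

set_option linter.all false

namespace Vale.Agent.P356.NA

open Matrix Finset Vale.Agent.P356 Vale.Agent.P356.SV Vale.Agent.P356.Path
open scoped BigOperators ComplexOrder Kronecker

section abs
variable {N : Type*} [Fintype N] [DecidableEq N]

/-- the adjoint of a contraction is a contraction -/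
theorem na_i_contr_adj {P : Matrix N N ℂ} (hP : Contr P) (v : N → ℂ) :
    nrm (Pᴴ *ᵥ v) ≤ nrm v := by
  have h1 : nrm (Pᴴ *ᵥ v) ^ 2 ≤ nrm (Pᴴ *ᵥ v) * nrm v := by
    rw [nrm_sq, ← ip_self_re]
    have h2 : star (Pᴴ *ᵥ v) ⬝ᵥ (Pᴴ *ᵥ v) = star v ⬝ᵥ (P *ᵥ (Pᴴ *ᵥ v)) := by
      rw [ip_mulVec, conjTranspose_conjTranspose]
    rw [h2]
    refine (Complex.re_le_norm _).trans ((nrm_ip_le _ _).trans ?_)
    rw [mul_comm]
    exact mul_le_mul_of_nonneg_right (contr_nrm hP _) (nrm_nonneg _)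
  rcases (nrm_nonneg (Pᴴ *ᵥ v)).eq_or_lt with h | h
  · rw [← h]
    exact nrm_nonneg v
  · rw [sq] at h1
    exact le_of_mul_le_mul_left h1 h

/-- successive projections move a vector little -/
theorem na_i_chain (Q : ℕ → Matrix N N ℂ) (φ : N → ℂ) (n : ℕ) (c : ℝ)
    (hQ : ∀ k < n, Contr (Q k)) (hc : ∀ k < n, nrm ((1 - Q k) *ᵥ φ) ≤ c) :
    ∀ k ≤ n, nrm (φ - prL Q k *ᵥ φ) ≤ k * c ∧ nrm (prL Q k *ᵥ φ) ≤ nrm φ := by
  intro k
  induction k with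
  | zero =>
    intro _
    rw [prL, one_mulVec, sub_self]
    refine ⟨?_, le_refl _⟩
    simp [nrm, nsq]
  | succ k ih =>
    intro hk
    obtain ⟨h1, h2⟩ := ih (by omega)
    have hk' : k < n := by omega
    refine ⟨?_, ?_⟩
    · have h3 : φ - prL Q (k + 1) *ᵥ φ = (1 - Q k) *ᵥ φ + Q k *ᵥ (φ - prL Q k *ᵥ φ) := by
        rw [prL, sub_mulVec, one_mulVec, mulVec_sub, mulVec_mulVec]
        abel
      rw [h3]
      refine (nrm_add_le _ _).trans ?_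
      have h4 := contr_nrm (hQ k hk') (φ - prL Q k *ᵥ φ)
      have h5 := hc k hk'
      push_cast
      linarith
    · rw [prL, ← mulVec_mulVec]
      exact (contr_nrm (hQ k hk') _).trans h2

end abs

section regions
variable {V : Type} [Fintype V] [DecidableEq V] {q : ℕ}

/-- an operator on a smaller region as an operator on a larger one -/
theorem na_i_lift (B A : Finset V) (hBA : B ⊆ A) (Y : Op {x // x ∈ B} q) :
    ∃ Y' : Op {x // x ∈ A} q, opOn B Y = opOn A Y' := by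
  refine ⟨b6d_prod B A hBA Y 1, ?_⟩
  rw [b6d_prod_opOn, opOn_one, Matrix.mul_one]

/-- rank across a cut is kept by an operator on a smaller region -/
theorem na_i_LR_sub (B A : Finset V) (hBA : B ⊆ A) (Y : Op {x // x ∈ B} q) {φ : Conf V q → ℂ}
    {r : ℝ} (h : LR (cut A q) φ r) : LR (cut A q) (opOn B Y *ᵥ φ) r := by
  obtain ⟨Y', hY⟩ := na_i_lift B A hBA Y
  rw [hY]
  exact LR_opL (cut A q) Y' h

/-- rank across a cut is kept by an operator on a disjoint region -/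
theorem na_i_LR_disj (B A : Finset V) (hBA : Disjoint B A) (Y : Op {x // x ∈ B} q)
    {φ : Conf V q → ℂ} {r : ℝ} (h : LR (cut A q) φ r) : LR (cut A q) (opOn B Y *ᵥ φ) r := by
  obtain ⟨E, hE, hEr, hEφ⟩ := h
  refine ⟨E, hE, hEr, ?_⟩
  have h1 : opOn A E *ᵥ φ = φ := hEφ
  show opOn A E *ᵥ (opOn B Y *ᵥ φ) = opOn B Y *ᵥ φ
  rw [mulVec_mulVec, ← opOn_comm B A hBA, ← mulVec_mulVec, h1]

/-- BLOCK I1. The initial vector. -/
theorem init_vec (X : Finset V) (n : ℕ) (A : ℕ → Finset V) (hXA : ∀ k < n, X ⊆ A k)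
    (hA : ∀ j k, j ≤ k → A j ⊆ A k)
    (Ω : Conf V q → ℂ) (hΩ : nsq Ω = 1) (K u : ℝ) (hu : 0 < u) (hK : 0 ≤ K)
    (hX : TailLe (rdm X Ω) K) (hAX : ∀ k < n, TailLe (rdm (A k \ X) Ω) K)
    (hu2 : 6 * Real.exp (-(u / (4 + 2 * Real.sqrt K))) ≤ 1 / (16 * ((n : ℝ) + 1) ^ 3)) :
    ∃ (v : Conf V q → ℂ) (p : ℝ), Real.exp (-(entropyOf X Ω + u)) ≤ p ∧ p ≤ 1 ∧ nsq v ≤ p ∧
      p / 2 ≤ ‖star Ω ⬝ᵥ v‖ ∧
      ∀ k < n, LR (cut (A k)ᶜ q) v (Real.exp (entropyOf (A k \ X) Ω + u)) := by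
  obtain ⟨Bm, hBm, hp, Pr, hPr⟩ := measured X n A hXA Ω hΩ K u hu hK hX hAX hu2
  set φ : Conf V q → ℂ := opOn X Bm *ᵥ Ω with hφ
  set Q : ℕ → Op V q := fun k => opOn (A k)ᶜ (Pr k) with hQ
  have hBc : Contr (opOn X Bm) := b5_contr X hBm
  have hp1 : nsq φ ≤ 1 := by
    rw [hφ, ← hΩ]
    exact hBc Ω
  have hQc : ∀ k < n, Contr (Q k) := fun k hk => b6d_contr (b6d_isPr_opOn _ (hPr k hk).1)
  have hstep : ∀ k < n, nrm ((1 - Q k) *ᵥ φ) ≤ 1 / (2 * ((n : ℝ) + 1)) * nrm φ := by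
    intro k hk
    have h1 := (hPr k hk).2.2
    have h2 : nrm ((1 - Q k) *ᵥ φ) ^ 2 ≤ (1 / (2 * ((n : ℝ) + 1)) * nrm φ) ^ 2 := by
      rw [nrm_sq, mul_pow, nrm_sq, div_pow, one_pow]
      exact h1
    exact (sq_le_sq₀ (nrm_nonneg _) (mul_nonneg (by positivity) (nrm_nonneg _))).mp h2
  have hchain := na_i_chain Q φ n _ hQc hstep
  set z : Conf V q → ℂ := prL Q n *ᵥ φ with hz
  have hz1 : nrm (φ - z) ≤ 1 / 2 * nrm φ := by
    refine (hchain n le_rfl).1.trans ?_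
    have h1 : (n : ℝ) * (1 / (2 * ((n : ℝ) + 1))) ≤ 1 / 2 := by
      rw [mul_one_div, div_le_div_iff₀ (by positivity) (by norm_num)]
      nlinarith [Nat.cast_nonneg (α := ℝ) n]
    calc (n : ℝ) * (1 / (2 * ((n : ℝ) + 1)) * nrm φ) =
        ((n : ℝ) * (1 / (2 * ((n : ℝ) + 1)))) * nrm φ := by ring
      _ ≤ 1 / 2 * nrm φ := mul_le_mul_of_nonneg_right h1 (nrm_nonneg _)
  have hz2 : nrm z ≤ nrm φ := (hchain n le_rfl).2
  refine ⟨(opOn X Bm)ᴴ *ᵥ z, nsq φ, hp, hp1, ?_, ?_, ?_⟩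
  · -- norm
    have h1 : nrm ((opOn X Bm)ᴴ *ᵥ z) ≤ nrm φ := (na_i_contr_adj hBc z).trans hz2
    have h2 := pow_le_pow_left₀ (nrm_nonneg _) h1 2
    rwa [nrm_sq, nrm_sq] at h2
  · -- overlap
    have h1 : star Ω ⬝ᵥ ((opOn X Bm)ᴴ *ᵥ z) = star φ ⬝ᵥ z := by
      rw [hφ, ip_mulVec]
    rw [h1]
    have h2 : star φ ⬝ᵥ z = ((nsq φ : ℝ) : ℂ) - star φ ⬝ᵥ (φ - z) := by
      rw [dotProduct_sub, ip_self]
      ring
    have h3 : (star φ ⬝ᵥ z).re = nsq φ - (star φ ⬝ᵥ (φ - z)).re := by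
      rw [h2, Complex.sub_re, Complex.ofReal_re]
    have h4 : (star φ ⬝ᵥ (φ - z)).re ≤ nrm φ * (1 / 2 * nrm φ) :=
      (Complex.re_le_norm _).trans ((nrm_ip_le _ _).trans
        (mul_le_mul_of_nonneg_left hz1 (nrm_nonneg _)))
    have h5 := nrm_sq φ
    have h6 := Complex.re_le_norm (star φ ⬝ᵥ z)
    nlinarith
  · -- rank
    intro k hk
    have h1 : ∀ i, k < i → i ≤ n →
        LR (cut (A k)ᶜ q) (prL Q i *ᵥ φ) (Real.exp (entropyOf (A k \ X) Ω + u)) := by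
      intro i
      induction i with
      | zero => intro h; omega
      | succ i ih =>
        intro h h'
        rw [prL, ← mulVec_mulVec]
        rcases Nat.lt_or_ge k i with h2 | h2
        · refine na_i_LR_sub (A i)ᶜ (A k)ᶜ ?_ (Pr i) (ih h2 (by omega))
          exact Finset.compl_subset_compl.mpr (hA k i h2.le)
        · have h3 : i = k := by omega
          subst h3
          refine ⟨Pr i, (hPr i hk).1, (hPr i hk).2.1, ?_⟩
          show opOn (A i)ᶜ (Pr i) *ᵥ (opOn (A i)ᶜ (Pr i) *ᵥ _) = opOn (A i)ᶜ (Pr i) *ᵥ _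
          rw [mulVec_mulVec, ← opOn_mul, (hPr i hk).1.1]
    rw [opOn_conjTranspose]
    refine na_i_LR_disj X (A k)ᶜ ?_ Bmᴴ (h1 n hk le_rfl)
    exact disjoint_compl_right.mono_left (hXA k hk)

end regions

end Vale.Agent.P356.NA
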