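import Vale.Agent.P356.NA.GoodCut
import Vale.Agent.P356.NA.RepCalc
import Vale.Agent.P356.SV.Tilt6

set_option linter.all false

/-!
The main step: amplification of an initial vector by powers of an approximate ground state
projector, and the choice of a good cut.
-/

namespace Vale.Agent.P356.NA

open Matrix Finset Vale.Agent.P356 Vale.Agent.P356.SV Vale.Agent.P356.Path
open scoped BigOperators ComplexOrder Kronecker

section H
variable {N : Type} [Fintype N] [DecidableEq N] {α β : ℕ → Type}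
  [∀ k, Fintype (α k)] [∀ k, DecidableEq (α k)] [∀ k, Fintype (β k)] [∀ k, DecidableEq (β k)]

/-- parameters at one cut for a vector of low rank -/
theorem na_h_par (e : ∀ k, N ≃ α k × β k) (k : ℕ) {m t : ℝ}
    (hm : Real.log (Fintype.card (α k)) ≤ m) {v : N → ℂ} {r : ℝ} (hr : 0 ≤ r ∧ r ≤ m)
    (hvr : LR (e k) v (Real.exp r)) :
    ∃ π : Par α k, (π.1 * π.1ᴴ = 1 ∧ ∀ i, 0 ≤ π.2 i ∧ π.2 i ≤ m) ∧
      opL (e k) (dOp π.1 (fun i => Real.exp (t * π.2 i))) *ᵥ v = (Real.exp (t * r) : ℂ) • v ∧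
      ∑ i, Real.exp (-(π.2 i)) ≤ 2 := by
  obtain ⟨E, hE, hEr, hEv⟩ := hvr
  obtain ⟨U, b, hU, hb, hEb, hEt⟩ := proj_basis hE
  classical
  have hm0 : 0 ≤ m := hr.1.trans hr.2
  refine ⟨(U, fun i => if b i = 1 then r else m), ⟨hU, fun i => ?_⟩, ?_, ?_⟩
  · show 0 ≤ (if b i = 1 then r else m) ∧ (if b i = 1 then r else m) ≤ m
    split_ifs
    · exact hr
    · exact ⟨hm0, le_rfl⟩
  · show opL (e k) (dOp U (fun i => Real.exp (t * (if b i = 1 then r else m)))) *ᵥ v = _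
    have h1 : dOp U (fun i => Real.exp (t * (if b i = 1 then r else m))) * E =
        (Real.exp (t * r) : ℂ) • E := by
      rw [hEb, dOp_mul hU]
      have h2 : (fun i => Real.exp (t * (if b i = 1 then r else m)) * b i) =
          fun i => Real.exp (t * r) * b i := by
        funext i
        rcases hb i with h | h
        · rw [h, mul_zero, mul_zero]
        · rw [h, if_pos rfl]
      rw [h2]
      ext i j
      rw [Matrix.smul_apply, dOp_apply, dOp_apply, smul_eq_mul, Finset.mul_sum]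
      refine Finset.sum_congr rfl fun x _ => ?_
      push_cast
      ring
    conv_lhs => rw [← hEv]
    rw [mulVec_mulVec, ← opL_mul, h1]
    conv_rhs => rw [← hEv]
    rw [← smul_mulVec]
    congr 1
    ext i j
    rw [opL_apply, Matrix.smul_apply, Matrix.smul_apply, opL_apply, smul_eq_mul, smul_eq_mul,
      mul_assoc]
  · show ∑ i, Real.exp (-(if b i = 1 then r else m)) ≤ 2
    have h1 : ∀ i, Real.exp (-(if b i = 1 then r else m)) ≤
        b i * Real.exp (-r) + Real.exp (-m) := by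
      intro i
      rcases hb i with h | h
      · rw [h, if_neg (by norm_num), zero_mul, zero_add]
      · rw [h, if_pos rfl, one_mul]
        linarith [Real.exp_pos (-m)]
    refine (Finset.sum_le_sum fun i _ => h1 i).trans ?_
    rw [Finset.sum_add_distrib, ← Finset.sum_mul, ← hEt, Finset.sum_const, Finset.card_univ,
      nsmul_eq_mul]
    have h2 : E.trace.re * Real.exp (-r) ≤ 1 := by
      calc E.trace.re * Real.exp (-r) ≤ Real.exp r * Real.exp (-r) :=
            mul_le_mul_of_nonneg_right hEr (Real.exp_pos _).le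
        _ = 1 := by rw [← Real.exp_add, add_neg_cancel, Real.exp_zero]
    have h3 : (Fintype.card (α k) : ℝ) * Real.exp (-m) ≤ 1 := by
      calc (Fintype.card (α k) : ℝ) * Real.exp (-m) ≤ Real.exp m * Real.exp (-m) := by
            refine mul_le_mul_of_nonneg_right ?_ (Real.exp_pos _).le
            exact (Real.le_exp_log _).trans (Real.exp_le_exp.mpr hm)
        _ = 1 := by rw [← Real.exp_add, add_neg_cancel, Real.exp_zero]
    linarith

/-- a vector of low rank at all cuts has a good amplifier -/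
theorem na_h_good (e : ∀ k, N ≃ α k × β k) (n : ℕ) (hn : 1 ≤ n) {m : ℝ}
    (hm : ∀ k < n, Real.log (Fintype.card (α k)) ≤ m)
    {v : N → ℂ} {p : ℝ} (hp : 0 < p) (hv : nsq v ≤ p) (r : ℕ → ℝ)
    (hr : ∀ k < n, 0 ≤ r k ∧ r k ≤ m)
    (hvr : ∀ k < n, LR (e k) v (Real.exp (r k))) :
    Good e (fun _ => 1 / (n : ℝ)) n m v
      (Real.log p + 2 * ((∑ k ∈ range n, r k) / n) + 4) := by
  classical
  have hn0 : (0 : ℝ) < n := by exact_mod_cast hn
  have hm0 : 0 ≤ m := (hr 0 hn).1.trans (hr 0 hn).2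
  have hex : ∀ k, ∃ π : Par α k, (π.1 * π.1ᴴ = 1 ∧ ∀ i, 0 ≤ π.2 i ∧ π.2 i ≤ m) ∧
      (k < n → opL (e k) (dOp π.1 (fun i => Real.exp ((1 / (n : ℝ)) * π.2 i))) *ᵥ v =
        (Real.exp ((1 / (n : ℝ)) * r k) : ℂ) • v ∧ ∑ i, Real.exp (-(π.2 i)) ≤ 2) := by
    intro k
    by_cases hk : k < n
    · obtain ⟨π, h1, h2, h3⟩ := na_h_par e k (t := 1 / (n : ℝ)) (hm k hk) (hr k hk) (hvr k hk)
      exact ⟨π, h1, fun _ => ⟨h2, h3⟩⟩
    · refine ⟨(1, fun _ => 0), ⟨by simp, fun i => ⟨le_rfl, hm0⟩⟩, fun h => absurd h hk⟩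
  choose π hπ hπ' using hex
  refine ⟨π, fun k => hπ k, ?_⟩
  have h1 : ∀ s, s ≤ n → prR (YY e (fun _ => 1 / (n : ℝ)) π 1) s *ᵥ v =
      (Real.exp (∑ k ∈ range s, (1 / (n : ℝ)) * r k) : ℂ) • v := by
    intro s
    induction s with
    | zero => intro _; simp [prR]
    | succ s ih =>
      intro hs
      rw [prR, ← mulVec_mulVec, YY]
      have h2 := (hπ' s (by omega)).1
      have h3 : (fun i => Real.exp (1 * (1 / (n : ℝ)) * (π s).2 i)) =
          fun i => Real.exp ((1 / (n : ℝ)) * (π s).2 i) := by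
        funext i
        rw [one_mul]
      rw [h3, h2, mulVec_smul, ih (by omega), smul_smul, Finset.sum_range_succ, Real.exp_add]
      congr 1
      push_cast
      ring
  have h2 : nsq (vv e (fun _ => 1 / (n : ℝ)) v n 1 π) =
      Real.exp (2 * ((∑ k ∈ range n, r k) / n)) * nsq v := by
    rw [vv, h1 n le_rfl, nsq_smul, Complex.norm_real, Real.norm_eq_abs,
      abs_of_pos (Real.exp_pos _), ← Real.exp_nat_mul, ← Finset.mul_sum]
    congr 2
    push_cast
    ring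
  have h3 : penR (fun _ => 1 / (n : ℝ)) n π ≤ 4 := by
    rw [penR]
    calc ∑ k ∈ range n, 2 * (1 / (n : ℝ)) * ∑ i, Real.exp (-((π k).2 i)) ≤
        ∑ k ∈ range n, 2 * (1 / (n : ℝ)) * 2 := by
          refine Finset.sum_le_sum fun k hk => ?_
          exact mul_le_mul_of_nonneg_left (hπ' k (Finset.mem_range.mp hk)).2 (by positivity)
      _ = 4 := by
          rw [Finset.sum_const, Finset.card_range, nsmul_eq_mul]
          field_simp
          norm_num
  rw [h2, Real.exp_add, Real.exp_add, Real.exp_log hp]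
  have h4 := Real.exp_le_exp.mpr h3
  have h5 := nsq_nonneg' v
  calc Real.exp (2 * ((∑ k ∈ range n, r k) / n)) * nsq v * Real.exp (penR _ n π) ≤
      Real.exp (2 * ((∑ k ∈ range n, r k) / n)) * p * Real.exp 4 := by
        refine mul_le_mul ?_ h4 (Real.exp_pos _).le (by positivity)
        exact mul_le_mul_of_nonneg_left hv (Real.exp_pos _).le
    _ = _ := by ring

/-- decay of the powers on the complement of the ground state -/
theorem na_h_decay {Ω : N → ℂ} {K : Matrix N N ℂ} (hKΩ' : Kᴴ *ᵥ Ω = Ω) {ε : ℝ} (hε : 0 ≤ ε)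
    (hKs : ∀ ψ, star Ω ⬝ᵥ ψ = 0 → nsq (K *ᵥ ψ) ≤ ε ^ 2 * nsq ψ) (w : N → ℂ)
    (hw : star Ω ⬝ᵥ w = 0) (j : ℕ) :
    star Ω ⬝ᵥ (K ^ j *ᵥ w) = 0 ∧ nrm (K ^ j *ᵥ w) ≤ ε ^ j * nrm w := by
  induction j with
  | zero => exact ⟨by rw [pow_zero, one_mulVec]; exact hw, by rw [pow_zero, pow_zero, one_mulVec, one_mul]⟩
  | succ j ih =>
    obtain ⟨h1, h2⟩ := ih
    have h3 : K ^ (j + 1) *ᵥ w = K *ᵥ (K ^ j *ᵥ w) := by
      rw [pow_succ', mulVec_mulVec]
    constructor
    · have h4 := ip_mulVec Kᴴ Ω (K ^ j *ᵥ w)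
      rw [conjTranspose_conjTranspose, hKΩ', h1] at h4
      rw [h3, ← h4]
    · rw [h3]
      have h4 := hKs _ h1
      have h5 : nrm (K *ᵥ (K ^ j *ᵥ w)) ≤ ε * nrm (K ^ j *ᵥ w) := by
        have h6 : nrm (K *ᵥ (K ^ j *ᵥ w)) ^ 2 ≤ (ε * nrm (K ^ j *ᵥ w)) ^ 2 := by
          rw [nrm_sq, mul_pow, nrm_sq]
          exact h4
        exact (sq_le_sq₀ (nrm_nonneg _) (mul_nonneg hε (nrm_nonneg _))).mp h6
      calc nrm (K *ᵥ (K ^ j *ᵥ w)) ≤ ε * nrm (K ^ j *ᵥ w) := h5
        _ ≤ ε * (ε ^ j * nrm w) := mul_le_mul_of_nonneg_left h2 hε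
        _ = _ := by ring

theorem na_h_nrm_sum {ι : Type*} (s : Finset ι) (f : ι → N → ℂ) :
    nrm (∑ i ∈ s, f i) ≤ ∑ i ∈ s, nrm (f i) := by
  classical
  induction s using Finset.induction_on with
  | empty => rw [Finset.sum_empty, Finset.sum_empty, nrm, nsq_def]; simp
  | insert i s hi ih =>
    rw [Finset.sum_insert hi, Finset.sum_insert hi]
    exact (nrm_add_le _ _).trans (by linarith)

theorem abstract_main (e : ∀ k, N ≃ α k × β k) (n : ℕ) (hn : 1 ≤ n)
    (hnest : ∀ j k, j ≤ k → ∀ Y : Matrix (α k) (α k) ℂ, ∃ Y' : Matrix (α j) (α j) ℂ,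
      opL (e k) Y = opL (e j) Y')
    {m : ℝ} (hm : ∀ k < n, Real.log (Fintype.card (α k)) ≤ m)
    {Ω v : N → ℂ} (hΩ : nsq Ω = 1) {p : ℝ} (hp : 0 < p) (hp1 : p ≤ 1) (hv : nsq v ≤ p)
    (hov : p / 2 ≤ ‖star Ω ⬝ᵥ v‖) (r : ℕ → ℝ) (hr : ∀ k < n, 0 ≤ r k ∧ r k ≤ m)
    (hvr : ∀ k < n, LR (e k) v (Real.exp (r k)))
    {K : Matrix N N ℂ} {D g ε : ℝ} (hD : 1 ≤ D) (hg : 0 ≤ g)
    (hK : Rep e (fun _ => 1 / (n : ℝ)) n m K D g)
    (hKΩ : K *ᵥ Ω = Ω) (hKΩ' : Kᴴ *ᵥ Ω = Ω) (hε : 0 ≤ ε)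
    (hKs : ∀ ψ, star Ω ⬝ᵥ ψ = 0 → nsq (K *ᵥ ψ) ≤ ε ^ 2 * nsq ψ)
    (j : ℕ) (hj : ε ^ j ≤ Real.sqrt p / 20) :
    ∃ k < n, ∃ F : Matrix (α k) (α k) ℂ, IsPr F ∧
      F.trace.re ≤ Real.exp (n + 2 * Real.log n + 8 + 2 * j * Real.log D + j * g / 2 +
        Real.log (1 / p) / 2 + (∑ k ∈ range n, r k) / n) ∧
      1 / (4 * (n : ℝ) ^ 2) ≤ nsq (opL (e k) F *ᵥ Ω) := by
  classical
  have hn0 : (0 : ℝ) < n := by exact_mod_cast hn
  have hn1 : (1 : ℝ) ≤ n := by exact_mod_cast hn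
  have hD0 : 0 < D := by linarith
  have hDj : 0 < D ^ j := pow_pos hD0 j
  set S := ∑ k ∈ range n, r k with hS
  have hgood := na_h_good e n hn hm hp hv r hr hvr
  rw [← hS] at hgood
  set c0 := Real.log p + 2 * (S / n) + 4 with hc0
  obtain ⟨R, M, η, hRD, hM, hKj⟩ := hK.pow j
  set ε₁ := p / (20 * D ^ j) with hε₁
  have hε₁0 : 0 < ε₁ := by positivity
  have hsp : ∀ i, ∃ (Γ : ℕ → N → ℂ) (T : N → ℂ), M i *ᵥ v = ∑ k ∈ range n, Γ k + T ∧
      nsq T ≤ ε₁ ^ 2 ∧ ∀ k < n, LR (e k) (Γ k) (n * Real.exp ((c0 + j * g) / 2) / ε₁) :=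
    fun i => good_split e n hn hnest ((hM i).2 v c0 hgood) hε₁0
  choose Γ T hMv hT hΓ using hsp
  set a := star Ω ⬝ᵥ v with ha
  have ha0 : 0 < ‖a‖ := by linarith
  have ha1 : a ≠ 0 := norm_pos_iff.mp ha0
  have hainv : ‖a⁻¹‖ ≤ 2 / p := by
    rw [norm_inv, inv_le_comm₀ ha0 (by positivity)]
    rw [inv_div]
    exact hov
  -- the projected vector
  set w := v - a • Ω with hw
  have hΩΩ : star Ω ⬝ᵥ Ω = 1 := by rw [ip_self, hΩ, Complex.ofReal_one]
  have hw0 : star Ω ⬝ᵥ w = 0 := by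
    rw [hw, dotProduct_sub, dotProduct_smul, hΩΩ, smul_eq_mul, mul_one, ← ha, sub_self]
  have hvw : nsq v = ‖a‖ ^ 2 + nsq w := by
    have h1 : v = a • Ω + w := by rw [hw]; abel
    conv_lhs => rw [h1]
    rw [nsq_add, nsq_smul, hΩ, mul_one]
    have h2 : star (a • Ω) ⬝ᵥ w = 0 := by
      rw [star_smul, smul_dotProduct, hw0, smul_zero]
    rw [h2]
    simp
  have hwn : nrm w ≤ Real.sqrt p := by
    rw [nrm]
    refine Real.sqrt_le_sqrt ?_
    have := sq_nonneg ‖a‖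
    linarith
  obtain ⟨-, hdec⟩ := na_h_decay hKΩ' hε hKs w hw0 j
  have hdec2 : nrm (K ^ j *ᵥ w) ≤ p / 20 := by
    calc nrm (K ^ j *ᵥ w) ≤ ε ^ j * nrm w := hdec
      _ ≤ (Real.sqrt p / 20) * Real.sqrt p :=
          mul_le_mul hj hwn (nrm_nonneg _) (by positivity)
      _ = p / 20 := by
          rw [div_mul_eq_mul_div, Real.mul_self_sqrt hp.le]
  have hKΩj : K ^ j *ᵥ Ω = Ω := by
    have : ∀ s : ℕ, K ^ s *ᵥ Ω = Ω := by
      intro s
      induction s with
      | zero => rw [pow_zero, one_mulVec]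
      | succ s ih => rw [pow_succ, ← mulVec_mulVec, hKΩ, ih]
    exact this j
  have hKv : K ^ j *ᵥ v = a • Ω + K ^ j *ᵥ w := by
    rw [hw, mulVec_sub, mulVec_smul, hKΩj]
    abel
  have hKv2 : K ^ j *ᵥ v = ∑ k ∈ range n, ∑ i, η i • Γ i k + ∑ i, η i • T i := by
    rw [hKj, sum_mulVec, Finset.sum_comm, ← Finset.sum_add_distrib]
    refine Finset.sum_congr rfl fun i _ => ?_
    rw [smul_mulVec, hMv i, smul_add, Finset.smul_sum]
  have hA : ∀ k < n, LR (e k) (a⁻¹ • ∑ i, η i • Γ i k)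
      (D ^ j * (n * Real.exp ((c0 + j * g) / 2) / ε₁)) := by
    intro k hk
    refine LR_smul _ _ ?_
    refine LR_mono _ (LR_sum (e k) Finset.univ (fun i => η i • Γ i k)
      (fun _ => n * Real.exp ((c0 + j * g) / 2) / ε₁) fun i _ => LR_smul _ _ (hΓ i k hk)) ?_
    rw [Finset.sum_const, Finset.card_univ, Fintype.card_fin, nsmul_eq_mul]
    exact mul_le_mul_of_nonneg_right hRD (by positivity)
  have hB : nsq (Ω - ∑ k ∈ range n, a⁻¹ • ∑ i, η i • Γ i k) ≤ 1 / 16 := by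
    have h1 : Ω - ∑ k ∈ range n, a⁻¹ • ∑ i, η i • Γ i k =
        a⁻¹ • ((∑ i, η i • T i) - K ^ j *ᵥ w) := by
      have h2 : ∑ k ∈ range n, ∑ i, η i • Γ i k = K ^ j *ᵥ v - ∑ i, η i • T i := by
        rw [hKv2]; abel
      rw [← Finset.smul_sum, h2, hKv]
      have h3 : Ω = a⁻¹ • (a • Ω) := by rw [smul_smul, inv_mul_cancel₀ ha1, one_smul]
      generalize (∑ i, η i • T i) = T'
      generalize K ^ j *ᵥ w = w'
      rw [smul_sub, smul_sub, smul_add, ← h3]
      abel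
    rw [h1, ← nrm_sq]
    have hTs : nrm (∑ i, η i • T i) ≤ p / 20 := by
      refine (na_h_nrm_sum _ _).trans ?_
      calc ∑ i, nrm (η i • T i) ≤ ∑ _i : Fin R, ε₁ := by
            refine Finset.sum_le_sum fun i _ => ?_
            rw [nrm_smul]
            have h2 : nrm (T i) ≤ ε₁ := by
              rw [nrm]
              exact (Real.sqrt_le_sqrt (hT i)).trans_eq (Real.sqrt_sq hε₁0.le)
            calc ‖η i‖ * nrm (T i) ≤ 1 * ε₁ :=
                  mul_le_mul (hM i).1 h2 (nrm_nonneg _) zero_le_one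
              _ = ε₁ := one_mul _
        _ = R * ε₁ := by rw [Finset.sum_const, Finset.card_univ, Fintype.card_fin, nsmul_eq_mul]
        _ ≤ D ^ j * ε₁ := mul_le_mul_of_nonneg_right hRD hε₁0.le
        _ = p / 20 := by rw [hε₁]; field_simp
    have h4 : nrm (a⁻¹ • ((∑ i, η i • T i) - K ^ j *ᵥ w)) ≤ 1 / 4 := by
      rw [nrm_smul]
      calc ‖a⁻¹‖ * nrm ((∑ i, η i • T i) - K ^ j *ᵥ w) ≤ (2 / p) * (p / 20 + p / 20) := by
            refine mul_le_mul hainv ?_ (nrm_nonneg _) (by positivity)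
            exact (nrm_sub_le _ _).trans (by linarith)
        _ ≤ 1 / 4 := by
            have : (2 / p) * (p / 20 + p / 20) = 1 / 5 := by field_simp; norm_num
            rw [this]; norm_num
    calc nrm (a⁻¹ • ((∑ i, η i • T i) - K ^ j *ᵥ w)) ^ 2 ≤ (1 / 4) ^ 2 :=
          pow_le_pow_left₀ (nrm_nonneg _) h4 2
      _ = 1 / 16 := by norm_num
  obtain ⟨k, hk, F, hF, hFt, hFΩ⟩ := good_cut e n hn hnest hΩ
    (fun k => a⁻¹ • ∑ i, η i • Γ i k)
    (D := D ^ j * (n * Real.exp ((c0 + j * g) / 2) / ε₁)) (by positivity) hA hB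
  · refine ⟨k, hk, F, hF, hFt.trans ?_, hFΩ⟩
    have e1 : (2 : ℝ) ^ n ≤ Real.exp n := by
      rw [← Real.exp_one_pow]
      exact pow_le_pow_left₀ (by norm_num) (by linarith [Real.exp_one_gt_d9]) n
    have e2 : (n : ℝ) ≤ Real.exp (2 * Real.log n) := by
      rw [two_mul, Real.exp_add, Real.exp_log hn0]
      nlinarith
    have e3 : D ^ j * D ^ j = Real.exp (2 * j * Real.log D) := by
      have h1 : 2 * (j : ℝ) * Real.log D = (j : ℝ) * Real.log D + (j : ℝ) * Real.log D := by ring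
      rw [h1, Real.exp_add, Real.exp_nat_mul, Real.exp_log hD0]
    have e4 : Real.exp ((c0 + j * g) / 2) / p =
        Real.exp 2 * (Real.exp (j * g / 2) * (Real.exp (Real.log (1 / p) / 2) *
          Real.exp (S / n))) := by
      rw [← Real.exp_add, ← Real.exp_add, ← Real.exp_add]
      conv_lhs => rw [← Real.exp_log hp]
      rw [Real.exp_log hp, ← Real.exp_log hp, ← Real.exp_sub, Real.exp_log hp]
      congr 1
      rw [hc0, one_div, Real.log_inv]
      ring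
    have e5 : 20 * Real.exp 2 ≤ Real.exp 8 := by
      have h1 : Real.exp 8 = Real.exp 6 * Real.exp 2 := by rw [← Real.exp_add]; norm_num
      rw [h1]
      refine mul_le_mul_of_nonneg_right ?_ (Real.exp_pos _).le
      have h2 : Real.exp 6 = Real.exp 1 ^ 6 := by rw [← Real.exp_nat_mul]; norm_num
      rw [h2]
      have h3 : (2 : ℝ) ≤ Real.exp 1 := by linarith [Real.exp_one_gt_d9]
      have h4 : (2 : ℝ) ^ 6 ≤ Real.exp 1 ^ 6 := pow_le_pow_left₀ (by norm_num) h3 6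
      linarith
    have e6 : (2 : ℝ) ^ n * (D ^ j * (n * Real.exp ((c0 + j * g) / 2) / ε₁)) =
        2 ^ n * (n * ((D ^ j * D ^ j) * (20 * (Real.exp ((c0 + j * g) / 2) / p)))) := by
      rw [hε₁]
      field_simp
    rw [e6, e3, e4]
    have e7 : Real.exp (n + 2 * Real.log n + 8 + 2 * j * Real.log D + j * g / 2 +
        Real.log (1 / p) / 2 + S / n) = Real.exp n * (Real.exp (2 * Real.log n) *
          (Real.exp (2 * j * Real.log D) * (Real.exp 8 * (Real.exp (j * g / 2) *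
            (Real.exp (Real.log (1 / p) / 2) * Real.exp (S / n)))))) := by
      rw [← Real.exp_add, ← Real.exp_add, ← Real.exp_add, ← Real.exp_add, ← Real.exp_add,
        ← Real.exp_add]
      congr 1
      ring
    rw [e7]
    refine mul_le_mul e1 ?_ (by positivity) (Real.exp_pos _).le
    refine mul_le_mul e2 ?_ (by positivity) (Real.exp_pos _).le
    refine mul_le_mul_of_nonneg_left ?_ (Real.exp_pos _).le
    rw [← mul_assoc]
    exact mul_le_mul_of_nonneg_right e5 (by positivity)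

end H

end Vale.Agent.P356.NA
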