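import Vale.Agent.P356.NA.Defs
import Vale.Agent.P356.SV.Top

/-!
BLOCK I2: a projection of not too small weight has large rank.
-/

set_option linter.all false

namespace Vale.Agent.P356.NA

open Matrix Finset Vale.Agent.P356 Vale.Agent.P356.SV Vale.Agent.P356.Path
open scoped BigOperators ComplexOrder Kronecker

section I
variable {V : Type} [Fintype V] [DecidableEq V] {q : ℕ}

theorem na_i2_col {α β : Type*} [Fintype α] [Fintype β] [DecidableEq α] [DecidableEq β]
    (x : α × β → ℂ) (k : α) : ∑ i, ‖(eigU x) i k‖ ^ 2 = 1 := by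
  have h3 := congrFun (congrFun (eigU_mul' x) k) k
  rw [mul_apply, one_apply_eq] at h3
  have h4 : ((∑ i, ‖(eigU x) i k‖ ^ 2 : ℝ) : ℂ) = 1 := by
    rw [← h3]
    push_cast
    refine Finset.sum_congr rfl fun i _ => ?_
    rw [conjTranspose_apply, ← Complex.conj_mul']
    rfl
  exact_mod_cast h4

/-- a projection of not too small weight has large rank -/
theorem rank_large (A : Finset V) (Ω : Conf V q → ℂ) (hΩ : nsq Ω = 1) (K u b : ℝ) (hK : 0 ≤ K)
    (hA : TailLe (rdm A Ω) K) (hu : 0 ≤ u) (hb : 0 < b)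
    (hu2 : 6 * Real.exp (-(u / (4 + 2 * Real.sqrt K))) ≤ b / 2)
    (F : Op {x // x ∈ A} q) (hF : IsPr F) (hw : b ≤ nsq (opOn A F *ᵥ Ω)) :
    entropyOf A Ω ≤ Real.log (F.trace.re) + u + Real.log (2 / b) := by
  classical
  set x := Ω ∘ (cut A q).symm with hx
  set S := entropyOf A Ω with hS
  have hunit := b6a_unit A Ω hΩ
  have hp0 := eigp_nonneg x
  have hp1 := eigp_sum x hunit
  set a : ({x // x ∈ A} → Fin q) → ℝ := fun k => ∑ i, ‖(F * eigU x) i k‖ ^ 2 with ha
  have ha0 : ∀ k, 0 ≤ a k := fun k => Finset.sum_nonneg fun i _ => sq_nonneg _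
  have ha1 : ∀ k, a k ≤ 1 := by
    intro k
    have h1 : a k = nsq (F *ᵥ (fun j => (eigU x) j k)) := rfl
    rw [h1]
    refine (contr_of_isPr hF _).trans (le_of_eq ?_)
    exact na_i2_col x k
  have hsum : ∑ k, a k = F.trace.re := by
    simp only [ha]
    rw [Finset.sum_comm, b6a_hs_rot]
    exact b6c_hs_proj hF
  have hnsq : nsq (opOn A F *ᵥ Ω) = ∑ k, eigp x k * a k := b6a_nsq_opL (cut A q) Ω F
  have heig : ∀ i, eig (rdm A Ω) i = eigp x i := fun i => by
    rw [eig_of_herm (rdm_herm A Ω)]
    rfl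
  have hterm : ∀ k, eigp x k * a k ≤
      (if u ≤ |dev (rdm A Ω) k| then eig (rdm A Ω) k else 0) + Real.exp (-S + u) * a k := by
    intro k
    rw [heig]
    by_cases h : u ≤ |dev (rdm A Ω) k|
    · rw [if_pos h]
      have h1 : eigp x k * a k ≤ eigp x k * 1 := mul_le_mul_of_nonneg_left (ha1 k) (hp0 k)
      have h2 : 0 ≤ Real.exp (-S + u) * a k := mul_nonneg (Real.exp_pos _).le (ha0 k)
      linarith
    · rw [if_neg h, zero_add]
      refine mul_le_mul_of_nonneg_right ?_ (ha0 k)
      rcases (hp0 k).lt_or_eq with h4 | h4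
      · have hdev : dev (rdm A Ω) k = -Real.log (eigp x k) - S := by
          rw [dev, heig]
          rfl
        rw [hdev, not_le, abs_lt] at h
        have h5 : Real.log (eigp x k) ≤ -S + u := by linarith [h.1]
        rw [← Real.exp_log h4]
        exact Real.exp_le_exp.mpr h5
      · rw [← h4]
        exact (Real.exp_pos _).le
  have h1 : b ≤ b / 2 + Real.exp (-S + u) * F.trace.re := by
    calc b ≤ ∑ k, eigp x k * a k := by rw [← hnsq]; exact hw
      _ ≤ ∑ k, ((if u ≤ |dev (rdm A Ω) k| then eig (rdm A Ω) k else 0) +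
          Real.exp (-S + u) * a k) := Finset.sum_le_sum fun k _ => hterm k
      _ = (∑ k, (if u ≤ |dev (rdm A Ω) k| then eig (rdm A Ω) k else 0)) +
          Real.exp (-S + u) * F.trace.re := by
          rw [Finset.sum_add_distrib, ← Finset.mul_sum, hsum]
      _ ≤ b / 2 + Real.exp (-S + u) * F.trace.re := by
          have := hA u
          linarith
  have h2 : b / 2 ≤ Real.exp (-S + u) * F.trace.re := by linarith
  have h3 : 0 < F.trace.re := by
    by_contra hc
    push Not at hc
    have := mul_nonpos_of_nonneg_of_nonpos (Real.exp_pos (-S + u)).le hc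
    linarith
  have h4 := Real.log_le_log (by positivity) h2
  rw [Real.log_mul (Real.exp_pos _).ne' h3.ne', Real.log_exp] at h4
  have h5 : Real.log (2 / b) = -Real.log (b / 2) := by
    rw [← Real.log_inv]
    congr 1
    rw [inv_div]
  rw [h5]
  linarith

end I

end Vale.Agent.P356.NA
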