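import Vale.Agent.P356.NA.SpecPow
import Vale.Agent.P356.NA.Main
import Vale.Agent.P356.NA.Init
import Vale.Agent.P356.NA.RankLarge
import Vale.Agent.P356.NA.ExK
import Vale.Agent.P356.SV.Top
import Vale.Agent.P356.SV.Meas
import Vale.Agent.P356.SV.Ent

/-!
Block K: the boundary layer inequality for frustration free, locally gapped Hamiltonians.
-/

set_option linter.all false

namespace Vale.Agent.P356.NA

open Matrix Finset Vale.Agent.P356 Vale.Agent.P356.SV Vale.Agent.P356.Path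
open scoped BigOperators ComplexOrder Kronecker

section general
variable {N : Type*} [Fintype N] [DecidableEq N]

theorem na_k_en_sum {ι N : Type*} [Fintype N] (s : Finset ι) (A : ι → Matrix N N ℂ)
    (ψ : N → ℂ) : en (∑ i ∈ s, A i) ψ = ∑ i ∈ s, en (A i) ψ := by
  simp only [en]
  rw [Matrix.sum_mulVec, dotProduct_sum, Complex.re_sum]

theorem na_k_adj {P : Matrix N N ℂ} (hP : Pᴴ = P) (a b : N → ℂ) :
    star a ⬝ᵥ (P *ᵥ b) = star (P *ᵥ a) ⬝ᵥ b := by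
  rw [Matrix.dotProduct_mulVec, Matrix.star_mulVec, hP]

theorem na_k_gap_gen {H : Matrix N N ℂ} (hHerm : H.IsHermitian) (hpos : ∀ ψ, 0 ≤ en H ψ)
    {Δ : ℝ} (hΔ : 0 < Δ) (hgap : ∀ ψ, Δ * en H ψ ≤ nsq (H *ᵥ ψ)) {Ω : N → ℂ}
    (hΩ : nsq Ω = 1) (hΩ0 : H *ᵥ Ω = 0) (huniq : ∀ ψ, H *ᵥ ψ = 0 → ∃ c : ℂ, ψ = c • Ω)
    (ψ : N → ℂ) : Δ * (nsq ψ - ‖star Ω ⬝ᵥ ψ‖ ^ 2) ≤ en H ψ := by
  have h1 := kpr_gap hHerm hpos hΔ hgap ψ
  refine le_trans (le_of_eq ?_) h1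
  have hker : H *ᵥ (kpr H *ᵥ ψ) = 0 := by
    rw [Matrix.mulVec_mulVec, mul_kpr hHerm, Matrix.zero_mulVec]
  obtain ⟨c, hc⟩ := huniq _ hker
  have hΩΩ : star Ω ⬝ᵥ Ω = 1 := by
    have h4 : star Ω ⬝ᵥ Ω = ((nsq Ω : ℝ) : ℂ) := by
      rw [nsq, dotProduct, Complex.ofReal_sum]
      refine Finset.sum_congr rfl fun i _ => ?_
      rw [Pi.star_apply, RCLike.star_def, ← Complex.normSq_eq_conj_mul_self,
        Complex.normSq_eq_norm_sq]
    rw [h4, hΩ]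
    simp
  have h5 : star Ω ⬝ᵥ (kpr H *ᵥ ψ) = star Ω ⬝ᵥ ψ := by
    rw [na_k_adj (kpr_isPr hHerm).2, kpr_of_ker hHerm hΩ0]
  have hcv : c = star Ω ⬝ᵥ ψ := by
    rw [← h5, hc, dotProduct_smul, hΩΩ]
    simp
  have h7 : nsq (c • Ω) = ‖c‖ ^ 2 * nsq Ω := by
    rw [nsq, nsq, Finset.mul_sum]
    refine Finset.sum_congr rfl fun i _ => ?_
    rw [Pi.smul_apply, smul_eq_mul, norm_mul, mul_pow]
  rw [hc, h7, hΩ, mul_one, hcv]

end general

section gapped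
variable {L q R : ℕ} {J Δ : ℝ} {h : Finset (Site L) → Op (Site L) q}
  {Ω : Conf (Site L) q → ℂ}

theorem na_k_HB_univ : HB h Finset.univ = ∑ X, h X := by
  rw [HB]
  congr 1
  ext X
  simp

theorem na_k_rect_univ (L : ℕ) : rect L 0 L 0 L = Finset.univ := by
  ext p
  simp [rect]

theorem na_k_adm (hF : FFLG L q R J Δ h Ω) : Admissible L q R J (HB h Finset.univ) :=
  ⟨h, fun X => ⟨hF.herm X, hF.loc X, hF.norm X, hF.range X⟩, na_k_HB_univ⟩

theorem na_k_herm (hF : FFLG L q R J Δ h Ω) (B : Finset (Site L)) : (HB h B).IsHermitian := by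
  rw [HB, Matrix.IsHermitian, Matrix.conjTranspose_sum]
  exact Finset.sum_congr rfl fun X _ => hF.herm X

theorem na_k_pos (hF : FFLG L q R J Δ h Ω) (B : Finset (Site L)) (ψ) : 0 ≤ en (HB h B) ψ := by
  rw [HB, na_k_en_sum]
  exact Finset.sum_nonneg fun X _ => hF.pos X ψ

theorem na_k_gapped (hΔ : 0 < Δ) (hF : FFLG L q R J Δ h Ω) :
    GappedGround (HB h Finset.univ) Δ 0 Ω := by
  have hΩ0 : HB h Finset.univ *ᵥ Ω = 0 := by
    rw [na_k_HB_univ, Matrix.sum_mulVec]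
    exact Finset.sum_eq_zero fun X _ => hF.free X
  refine ⟨hF.unit, ?_, ?_⟩
  · rw [hΩ0]
    simp
  · intro ψ
    rw [zero_mul, sub_zero]
    refine na_k_gap_gen (na_k_herm hF _) (na_k_pos hF _) hΔ ?_ hF.unit hΩ0 ?_ ψ
    · intro φ
      have := hF.gap 0 L 0 L φ
      rw [na_k_rect_univ] at this
      exact this
    · intro φ hφ
      refine hF.uniq φ ?_
      have h2 : en (HB h Finset.univ) φ = 0 := by
        rw [en, hφ]
        simp
      rw [na_k_HB_univ, na_k_en_sum] at h2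
      intro X
      have h3 := (Finset.sum_eq_zero_iff_of_nonneg (fun X _ => hF.pos X φ)).mp h2 X
        (Finset.mem_univ X)
      exact en_zero (hF.herm X) (hF.pos X) h3

end gapped


section geom

theorem na_k_mem {L x0 x1 y0 y1 : ℕ} {p : Site L} :
    p ∈ rect L x0 x1 y0 y1 ↔ x0 ≤ p.1.val ∧ p.1.val < x1 ∧ y0 ≤ p.2.val ∧ p.2.val < y1 := by
  simp [rect]

/-- boundary of a rectangle -/
theorem na_k_bdry_rect (L x0 x1 y0 y1 : ℕ) :
    bdry (rect L x0 x1 y0 y1) ≤ 2 * (x1 - x0) + 2 * (y1 - y0) := by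
  classical
  set F : Finset (ℕ × ℕ) := (({0, 1} : Finset ℕ) ×ˢ Finset.Ico y0 y1) ∪
    (({2, 3} : Finset ℕ) ×ˢ Finset.Ico x0 x1) with hF
  have hcard : F.card ≤ 2 * (x1 - x0) + 2 * (y1 - y0) := by
    refine (Finset.card_union_le _ _).trans ?_
    rw [Finset.card_product, Finset.card_product, Nat.card_Ico, Nat.card_Ico]
    simp
    omega
  refine le_trans ?_ hcard
  rw [bdry]
  set g : Site L × Site L → ℕ × ℕ := fun p =>
    if p.2.1.val = p.1.1.val + 1 then (0, p.1.2.val)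
    else if p.1.1.val = p.2.1.val + 1 then (1, p.1.2.val)
    else if p.2.2.val = p.1.2.val + 1 then (2, p.1.1.val)
    else (3, p.1.1.val) with hg
  refine Finset.card_le_card_of_injOn g ?_ ?_
  · intro p hp
    rw [Finset.mem_coe, Finset.mem_filter] at hp
    obtain ⟨_, h1, h2, h3⟩ := hp
    rw [na_k_mem] at h1 h2
    rw [Finset.mem_coe, hF, Finset.mem_union, Finset.mem_product, Finset.mem_product,
      Finset.mem_Ico, Finset.mem_Ico]
    simp only [hg]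
    split_ifs <;> simp <;> omega
  · intro p hp p' hp' hpp
    rw [Finset.mem_coe, Finset.mem_filter] at hp hp'
    obtain ⟨_, h1, h2, h3⟩ := hp
    obtain ⟨_, h1', h2', h3'⟩ := hp'
    rw [na_k_mem] at h1 h2 h1' h2'
    rw [dist1] at h3 h3'
    obtain ⟨⟨a, b⟩, ⟨c, d⟩⟩ := p
    obtain ⟨⟨a', b'⟩, ⟨c', d'⟩⟩ := p'
    simp only [hg] at hpp
    simp only at h1 h2 h3 h1' h2' h3'
    have key : a.val = a'.val ∧ b.val = b'.val ∧ c.val = c'.val ∧ d.val = d'.val := by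
      split_ifs at hpp <;> simp only [Prod.mk.injEq] at hpp <;> omega
    obtain ⟨k1, k2, k3, k4⟩ := key
    rw [Fin.ext k1, Fin.ext k2, Fin.ext k3, Fin.ext k4]

theorem na_k_dist_comm {L : ℕ} (x y : Site L) : dist1 x y = dist1 y x := by
  simp only [dist1]
  omega

/-- boundary of the complement -/
theorem na_k_bdry_compl {L : ℕ} (A : Finset (Site L)) : bdry Aᶜ ≤ bdry A := by
  classical
  rw [bdry, bdry]
  refine Finset.card_le_card_of_injOn Prod.swap ?_ Prod.swap_injective.injOn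
  intro p hp
  rw [Finset.mem_coe, Finset.mem_filter] at hp ⊢
  obtain ⟨_, h1, h2, h3⟩ := hp
  rw [Finset.mem_compl] at h1 h2
  refine ⟨Finset.mem_univ _, ?_, h1, ?_⟩
  · by_contra hcon
    exact h2 hcon
  · rw [← h3]
    exact na_k_dist_comm _ _

/-- boundary of a difference -/
theorem na_k_bdry_sdiff {L : ℕ} (B X : Finset (Site L)) :
    bdry (B \ X) ≤ bdry B + bdry X := by
  classical
  rw [bdry, bdry, bdry]
  set FB := (Finset.univ : Finset (Site L × Site L)).filter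
    (fun p => p.1 ∈ B ∧ p.2 ∉ B ∧ dist1 p.1 p.2 = 1) with hFB
  set FX := (Finset.univ : Finset (Site L × Site L)).filter
    (fun p => p.1 ∈ X ∧ p.2 ∉ X ∧ dist1 p.1 p.2 = 1) with hFX
  have hsub : (Finset.univ : Finset (Site L × Site L)).filter
      (fun p => p.1 ∈ B \ X ∧ p.2 ∉ B \ X ∧ dist1 p.1 p.2 = 1) ⊆ FB ∪ FX.image Prod.swap := by
    intro p hp
    rw [Finset.mem_filter] at hp
    obtain ⟨_, h1, h2, h3⟩ := hp
    rw [Finset.mem_sdiff] at h1 h2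
    rw [Finset.mem_union, Finset.mem_image]
    by_cases h4 : p.2 ∈ B
    · right
      have h5 : p.2 ∈ X := by
        by_contra h
        exact h2 ⟨h4, h⟩
      refine ⟨p.swap, ?_, Prod.swap_swap p⟩
      rw [hFX, Finset.mem_filter]
      refine ⟨Finset.mem_univ _, h5, h1.2, ?_⟩
      rw [← h3]
      exact na_k_dist_comm _ _
    · left
      rw [hFB, Finset.mem_filter]
      exact ⟨Finset.mem_univ _, h1.1, h4, h3⟩
  refine (Finset.card_le_card hsub).trans ((Finset.card_union_le _ _).trans ?_)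
  exact Nat.add_le_add_left Finset.card_image_le _

/-- number of sites of a rectangle -/
theorem na_k_card_rect (L x0 x1 y0 y1 l : ℕ) (hx : x1 ≤ x0 + l) (hy : y1 ≤ y0 + l) :
    (rect L x0 x1 y0 y1).card ≤ l ^ 2 := by
  classical
  have h1 : (rect L x0 x1 y0 y1).card ≤ (Finset.Ico x0 (x0 + l) ×ˢ Finset.Ico y0 (y0 + l)).card := by
    refine Finset.card_le_card_of_injOn (fun p => (p.1.val, p.2.val)) ?_ ?_
    · intro p hp
      rw [Finset.mem_coe, na_k_mem] at hp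
      rw [Finset.mem_coe, Finset.mem_product, Finset.mem_Ico, Finset.mem_Ico]
      simp only
      omega
    · intro p _ p' _ hpp
      simp only [Prod.mk.injEq] at hpp
      exact Prod.ext (Fin.ext hpp.1) (Fin.ext hpp.2)
  rw [Finset.card_product, Nat.card_Ico, Nat.card_Ico, Nat.add_sub_cancel_left,
    Nat.add_sub_cancel_left, ← sq] at h1
  exact h1

/-- monotonicity of the tail bound -/
theorem na_k_tail_mono {ι : Type*} [Fintype ι] [DecidableEq ι] {ρ : Matrix ι ι ℂ} {K K' : ℝ}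
    (hK : K ≤ K') (h : TailLe ρ K) : TailLe ρ K' := by
  intro u
  rcases le_total 0 u with hu | hu
  · refine (h u).trans ?_
    refine mul_le_mul_of_nonneg_left (Real.exp_le_exp.mpr ?_) (by norm_num)
    have h1 : 4 + 2 * Real.sqrt K ≤ 4 + 2 * Real.sqrt K' := by
      have := Real.sqrt_le_sqrt hK
      linarith only [this]
    have h2 : 0 < 4 + 2 * Real.sqrt K := by positivity
    exact neg_le_neg (div_le_div_of_nonneg_left hu h2 h1)
  · have h0 := h 0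
    rw [zero_div, neg_zero, Real.exp_zero, mul_one] at h0
    have h1 : ∀ i, (open Classical in (if u ≤ |dev ρ i| then eig ρ i else 0)) = eig ρ i := by
      intro i
      rw [if_pos (hu.trans (abs_nonneg _))]
    have h2 : ∀ i, (open Classical in (if (0 : ℝ) ≤ |dev ρ i| then eig ρ i else 0)) =
        eig ρ i := by
      intro i
      rw [if_pos (abs_nonneg _)]
    simp only [h1]
    simp only [h2] at h0
    refine h0.trans ?_
    have h3 : 0 ≤ -(u / (4 + 2 * Real.sqrt K')) := by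
      rw [← neg_div]
      exact div_nonneg (by linarith only [hu]) (by positivity)
    have h4 := Real.one_le_exp h3
    linarith only [h4]

/-- the nested rectangles -/
noncomputable def na_k_I (L R x0 x1 y0 y1 : ℕ) (k : ℕ) : Finset (Site L) :=
  rect L (x0 - k * (R + 1)) (x1 + k * (R + 1)) (y0 - k * (R + 1)) (y1 + k * (R + 1))

theorem na_k_I_zero (L R x0 x1 y0 y1 : ℕ) : na_k_I L R x0 x1 y0 y1 0 = rect L x0 x1 y0 y1 := by
  simp only [na_k_I, Nat.zero_mul, Nat.sub_zero, Nat.add_zero]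

theorem na_k_I_mono (L R x0 x1 y0 y1 : ℕ) {j k : ℕ} (hjk : j ≤ k) :
    na_k_I L R x0 x1 y0 y1 j ⊆ na_k_I L R x0 x1 y0 y1 k := by
  intro p hp
  simp only [na_k_I, na_k_mem] at hp ⊢
  have := Nat.mul_le_mul_right (R + 1) hjk
  omega

theorem na_k_I_bdry (L R x0 x1 y0 y1 l n : ℕ) (hx : x1 ≤ x0 + l) (hy : y1 ≤ y0 + l)
    (hn : n * (R + 1) ≤ l) {k : ℕ} (hk : k ≤ n) :
    bdry (na_k_I L R x0 x1 y0 y1 k) ≤ 12 * l := by
  refine (na_k_bdry_rect _ _ _ _ _).trans ?_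
  have := Nat.mul_le_mul_right (R + 1) hk
  omega

variable {V : Type*} [Fintype V] [DecidableEq V] {q : ℕ}

theorem na_k_nest (X A : Finset V) (hXA : X ⊆ A) (Y : Op {x // x ∈ X} q) :
    ∃ Y' : Op {x // x ∈ A} q, opOn X Y = opOn A Y' := by
  refine ⟨b6d_prod X A hXA Y 1, ?_⟩
  rw [b6d_prod_opOn, opOn_one, mul_one]

theorem na_k_trace_nonneg {n : Type*} [Fintype n] [DecidableEq n] {P : Matrix n n ℂ}
    (hP : IsPr P) : 0 ≤ P.trace.re := by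
  have h1 : P.trace.re = ∑ i, ∑ j, ‖P i j‖ ^ 2 := by
    have h2 : P.trace = (Pᴴ * P).trace := by rw [hP.2, hP.1]
    rw [h2, Matrix.trace]
    simp only [Matrix.diag_apply, Matrix.mul_apply, Matrix.conjTranspose_apply, Complex.re_sum]
    rw [Finset.sum_comm]
    refine Finset.sum_congr rfl fun i _ => Finset.sum_congr rfl fun j _ => ?_
    rw [RCLike.star_def, ← Complex.normSq_eq_conj_mul_self, Complex.normSq_eq_norm_sq,
      Complex.ofReal_re]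
  rw [h1]
  positivity

/-- entropy of a part through the entropy of a larger region and of the difference -/
theorem na_k_ent (hq : 1 ≤ q) (X A : Finset V) (hXA : X ⊆ A) (Ω : Conf V q → ℂ)
    (hΩ : nsq Ω = 1) : entropyOf X Ω ≤ entropyOf A Ω + entropyOf (A \ X) Ω := by
  have h1 : Xᶜ = Aᶜ ∪ (A \ X) := by
    ext x
    simp only [Finset.mem_compl, Finset.mem_union, Finset.mem_sdiff]
    constructor
    · intro hx
      by_cases hA : x ∈ A
      · exact Or.inr ⟨hA, hx⟩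
      · exact Or.inl hA
    · rintro (hA | hA) hx
      · exact hA (hXA hx)
      · exact hA.2 hx
  have h2 : Disjoint Aᶜ (A \ X) := by
    rw [Finset.disjoint_left]
    intro x hx hx'
    exact (Finset.mem_compl.mp hx) (Finset.mem_sdiff.mp hx').1
  rw [← entropy_compl X Ω hΩ, h1, ← entropy_compl A Ω hΩ]
  exact entropy_union _ _ h2 Ω hΩ

end geom


section numerics

theorem na_k_one_le {l : ℝ} (hl : 1 ≤ l) {t : ℝ} (ht : 0 ≤ t) : 1 ≤ l ^ t :=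
  Real.one_le_rpow hl ht

theorem na_k_params (a r l : ℕ) (ha : 1 ≤ a) (hr : 1 ≤ r) (hl : (2 * a * r) ^ 5 ≤ l) :
    ∃ n : ℕ, 1 ≤ n ∧ a * l ^ 4 ≤ n ^ 5 ∧ n * r ≤ l ∧ (n : ℝ) ≤ 2 * a * (l : ℝ) ^ (4 / 5 : ℝ) := by
  have har : 1 ≤ a * r := Nat.one_le_iff_ne_zero.mpr (by positivity)
  have hl1 : 1 ≤ l := by
    refine le_trans ?_ hl
    exact Nat.one_le_pow _ _ (by nlinarith only [har])
  have hl1r : (1 : ℝ) ≤ l := by exact_mod_cast hl1
  have hl0 : (0 : ℝ) ≤ l := by linarith only [hl1r]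
  set y : ℝ := (l : ℝ) ^ (4 / 5 : ℝ) with hy
  have hy1 : 1 ≤ y := na_k_one_le hl1r (by norm_num)
  have hy5 : y ^ 5 = (l : ℝ) ^ 4 := by
    rw [hy, ← Real.rpow_natCast, ← Real.rpow_mul hl0]
    norm_num
  set c : ℕ := ⌈y⌉₊ with hc
  have hc1 : y ≤ c := Nat.le_ceil y
  have hc2 : (c : ℝ) ≤ 2 * y := by
    have := (Nat.ceil_lt_add_one (by linarith only [hy1] : (0 : ℝ) ≤ y)).le
    rw [hc]
    linarith only [this, hy1]
  have hc0 : 1 ≤ c := by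
    have : (1 : ℝ) ≤ c := hy1.trans hc1
    exact_mod_cast this
  have ha1 : (1 : ℝ) ≤ a := by exact_mod_cast ha
  refine ⟨a * c, ?_, ?_, ?_, ?_⟩
  · exact Nat.one_le_iff_ne_zero.mpr (by positivity)
  · have h1 : (a : ℝ) * (l : ℝ) ^ 4 ≤ ((a * c : ℕ) : ℝ) ^ 5 := by
      push_cast
      rw [mul_pow, ← hy5]
      refine mul_le_mul ?_ (pow_le_pow_left₀ (by linarith only [hy1]) hc1 5) (by positivity)
        (by positivity)
      exact le_self_pow₀ ha1 (by norm_num)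
    exact_mod_cast h1
  · have h2 : ((2 * a * r : ℕ) : ℝ) ≤ (l : ℝ) ^ (1 / 5 : ℝ) := by
      have h3 : (((2 * a * r : ℕ) : ℝ) ^ 5) ≤ l := by exact_mod_cast hl
      have h4 := Real.rpow_le_rpow (by positivity) h3 (by norm_num : (0 : ℝ) ≤ 1 / 5)
      have h5 : (((2 * a * r : ℕ) : ℝ) ^ 5) ^ (1 / 5 : ℝ) = ((2 * a * r : ℕ) : ℝ) := by
        rw [← Real.rpow_natCast, ← Real.rpow_mul (by positivity)]
        norm_num
      rwa [h5] at h4
    have h6 : (l : ℝ) ^ (1 / 5 : ℝ) * y = l := by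
      rw [hy, ← Real.rpow_add (by linarith only [hl1r])]
      norm_num
    have h7 : ((a * c * r : ℕ) : ℝ) ≤ l := by
      have h8 : ((a * c * r : ℕ) : ℝ) ≤ ((2 * a * r : ℕ) : ℝ) * y := by
        push_cast
        have h9 : (a : ℝ) * c * r ≤ a * (2 * y) * r := by gcongr
        linarith only [h9]
      refine h8.trans ?_
      refine (mul_le_mul_of_nonneg_right h2 (by linarith only [hy1])).trans (le_of_eq h6)
    exact_mod_cast h7
  · push_cast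
    have h9 : (a : ℝ) * c ≤ a * (2 * y) := by gcongr
    linarith only [h9]

theorem na_k_u_bound {κ : ℝ} (hκ : 0 ≤ κ) {l n : ℕ} (hl : 1 ≤ l) (hn : n ≤ l) :
    (4 + 2 * Real.sqrt (κ * l)) * Real.log (1536 * ((n : ℝ) + 1) ^ 3) ≤
      (4 + 2 * Real.sqrt κ) * (Real.log 1536 + 3 * Real.log 2 + 15 / 2) *
        (l : ℝ) ^ (9 / 10 : ℝ) := by
  have hl1 : (1 : ℝ) ≤ l := by exact_mod_cast hl
  have hl0 : (0 : ℝ) < l := by linarith only [hl1]
  have hn0 : (0 : ℝ) ≤ n := Nat.cast_nonneg n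
  have hnl : (n : ℝ) ≤ l := by exact_mod_cast hn
  have h1 : Real.log (1536 * ((n : ℝ) + 1) ^ 3) ≤
      (Real.log 1536 + 3 * Real.log 2 + 15 / 2) * (l : ℝ) ^ (2 / 5 : ℝ) := by
    rw [Real.log_mul (by norm_num) (by positivity), Real.log_pow]
    have h2 : Real.log ((n : ℝ) + 1) ≤ Real.log 2 + Real.log l := by
      rw [← Real.log_mul (by norm_num) (by linarith only [hl0])]
      exact Real.log_le_log (by positivity) (by linarith only [hnl, hl1])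
    have h3 : Real.log l ≤ (l : ℝ) ^ (2 / 5 : ℝ) / (2 / 5) :=
      Real.log_le_rpow_div hl0.le (by norm_num)
    have h4 : 1 ≤ (l : ℝ) ^ (2 / 5 : ℝ) := na_k_one_le hl1 (by norm_num)
    have h5 : 0 ≤ Real.log 1536 := Real.log_nonneg (by norm_num)
    have h6 : 0 ≤ Real.log 2 := Real.log_nonneg (by norm_num)
    push_cast
    nlinarith only [h2, h3, mul_nonneg (add_nonneg h5 (mul_nonneg (by norm_num : (0:ℝ) ≤ 3) h6))
      (sub_nonneg.mpr h4)]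
  have h2 : 4 + 2 * Real.sqrt (κ * l) ≤ (4 + 2 * Real.sqrt κ) * (l : ℝ) ^ (1 / 2 : ℝ) := by
    rw [Real.sqrt_mul hκ, ← Real.sqrt_eq_rpow]
    have hs1 : 1 ≤ Real.sqrt l := by
      rw [Real.one_le_sqrt]
      exact hl1
    nlinarith only [hs1]
  have h3 : 0 ≤ Real.log (1536 * ((n : ℝ) + 1) ^ 3) := by
    refine Real.log_nonneg ?_
    have : (1 : ℝ) ≤ ((n : ℝ) + 1) ^ 3 := one_le_pow₀ (by linarith only [hn0])
    linarith only [this]
  have h4 : (l : ℝ) ^ (9 / 10 : ℝ) = (l : ℝ) ^ (1 / 2 : ℝ) * (l : ℝ) ^ (2 / 5 : ℝ) := by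
    rw [← Real.rpow_add hl0]
    norm_num
  calc (4 + 2 * Real.sqrt (κ * l)) * Real.log (1536 * ((n : ℝ) + 1) ^ 3) ≤
      ((4 + 2 * Real.sqrt κ) * (l : ℝ) ^ (1 / 2 : ℝ)) *
        ((Real.log 1536 + 3 * Real.log 2 + 15 / 2) * (l : ℝ) ^ (2 / 5 : ℝ)) :=
        mul_le_mul h2 h1 h3 (by positivity)
    _ = _ := by
      rw [h4]
      ring

/-- the window -/
theorem na_k_window {K : ℝ} (n : ℕ) : ∃ u : ℝ,
    u = (4 + 2 * Real.sqrt K) * Real.log (1536 * ((n : ℝ) + 1) ^ 3) ∧ 0 < u ∧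
    6 * Real.exp (-(u / (4 + 2 * Real.sqrt K))) ≤ 1 / (16 * ((n : ℝ) + 1) ^ 3) := by
  have hn0 : (0 : ℝ) ≤ n := Nat.cast_nonneg n
  have hcube : (1 : ℝ) ≤ ((n : ℝ) + 1) ^ 3 := one_le_pow₀ (by linarith only [hn0])
  have harg : (1 : ℝ) < 1536 * ((n : ℝ) + 1) ^ 3 := by linarith only [hcube]
  have hv0 : 0 < Real.log (1536 * ((n : ℝ) + 1) ^ 3) := Real.log_pos harg
  have hden : 0 < 4 + 2 * Real.sqrt K := by positivity
  have huv : (4 + 2 * Real.sqrt K) * Real.log (1536 * ((n : ℝ) + 1) ^ 3) /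
      (4 + 2 * Real.sqrt K) = Real.log (1536 * ((n : ℝ) + 1) ^ 3) := by
    field_simp
  have hexp : 6 * Real.exp (-((4 + 2 * Real.sqrt K) * Real.log (1536 * ((n : ℝ) + 1) ^ 3) /
      (4 + 2 * Real.sqrt K))) = 1 / (256 * ((n : ℝ) + 1) ^ 3) := by
    rw [huv, Real.exp_neg, Real.exp_log (by linarith only [harg])]
    field_simp
    norm_num
  refine ⟨_, rfl, by positivity, ?_⟩
  rw [hexp]
  refine one_div_le_one_div_of_le (by positivity) ?_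
  linarith only [hcube]

/-- number of steps -/
theorem na_k_steps {c s p : ℝ} (hc : 0 < c) (hs : 0 < s) (hp : 0 < p) (hp1 : p ≤ 1) :
    ∃ j : ℕ, Real.exp (-(c * s)) ^ j ≤ Real.sqrt p / 20 ∧
      (j : ℝ) * (c * s) ≤ Real.log (1 / p) / 2 + 3 + c * s := by
  have hcs : 0 < c * s := mul_pos hc hs
  have hlog : 0 ≤ Real.log (1 / p) := Real.log_nonneg (by
    rw [le_div_iff₀ hp]
    linarith only [hp1])
  set j : ℕ := ⌈(Real.log (1 / p) / 2 + 3) / (c * s)⌉₊ with hj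
  have h1 : (Real.log (1 / p) / 2 + 3) / (c * s) ≤ j := Nat.le_ceil _
  have h2 : (j : ℝ) ≤ (Real.log (1 / p) / 2 + 3) / (c * s) + 1 :=
    (Nat.ceil_lt_add_one (by positivity)).le
  rw [div_le_iff₀ hcs] at h1
  refine ⟨j, ?_, ?_⟩
  · rw [← Real.exp_nat_mul]
    have h3 : (j : ℝ) * -(c * s) ≤ -(Real.log (1 / p) / 2 + 3) := by linarith only [h1]
    refine (Real.exp_le_exp.mpr h3).trans ?_
    have h4 : Real.exp (-(Real.log (1 / p) / 2 + 3)) = Real.sqrt p * Real.exp (-3) := by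
      have h5 : Real.sqrt p = Real.exp (-(Real.log (1 / p) / 2)) := by
        have h5' : Real.log (1 / p) = -Real.log p := by rw [one_div, Real.log_inv]
        rw [Real.sqrt_eq_rpow, Real.rpow_def_of_pos hp, h5']
        congr 1
        ring
      rw [h5, ← Real.exp_add]
      congr 1
      ring
    rw [h4, div_eq_mul_inv]
    refine mul_le_mul_of_nonneg_left ?_ (Real.sqrt_nonneg _)
    rw [Real.exp_neg]
    refine inv_anti₀ (by norm_num) ?_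
    have h6 : Real.exp 3 = Real.exp 1 ^ 3 := by
      rw [← Real.exp_nat_mul]
      norm_num
    rw [h6]
    have h7 := Real.exp_one_gt_d9
    calc (20 : ℝ) ≤ 2.7182818283 ^ 3 := by norm_num
      _ ≤ Real.exp 1 ^ 3 := pow_le_pow_left₀ (by norm_num) h7.le 3
  · have h8 := mul_le_mul_of_nonneg_right h2 hcs.le
    have h9 : ((Real.log (1 / p) / 2 + 3) / (c * s) + 1) * (c * s) =
        Real.log (1 / p) / 2 + 3 + c * s := by
      field_simp
    rw [h9] at h8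
    exact h8

end numerics


section main

theorem na_k_logF {n : Type*} [Fintype n] [DecidableEq n] {F : Matrix n n ℂ} (hF : IsPr F)
    {T : ℝ} (hT : 0 ≤ T) (h : F.trace.re ≤ Real.exp T) : Real.log (F.trace.re) ≤ T := by
  rcases (na_k_trace_nonneg hF).eq_or_lt with h9 | h9
  · rw [← h9, Real.log_zero]
    exact hT
  · have h10 := Real.log_le_log h9 h
    rwa [Real.log_exp] at h10

theorem na_k_log8 : Real.log 8 ≤ 3 := by
  rw [Real.log_le_iff_le_exp (by norm_num)]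
  have h6 : Real.exp 3 = Real.exp 1 ^ 3 := by
    rw [← Real.exp_nat_mul]
    norm_num
  rw [h6]
  have h7 := Real.exp_one_gt_d9
  calc (8 : ℝ) ≤ 2.7182818283 ^ 3 := by norm_num
    _ ≤ Real.exp 1 ^ 3 := pow_le_pow_left₀ (by norm_num) h7.le 3

theorem na_k_T {n lgn j lgD g lgp avg : ℝ} (hn : 0 ≤ n) (hlgn : 0 ≤ lgn) (hj : 0 ≤ j)
    (hD : 0 ≤ lgD) (hg : 0 ≤ g) (hp : 0 ≤ lgp) (ha : 0 ≤ avg) :
    0 ≤ n + 2 * lgn + 8 + 2 * j * lgD + j * g / 2 + lgp / 2 + avg := by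
  have h1 : 0 ≤ j * lgD := mul_nonneg hj hD
  have h2 : 0 ≤ j * g := mul_nonneg hj hg
  linarith only [h1, h2, hn, hlgn, hp, ha]

theorem na_k_jg {j lgD g c s lgp : ℝ} (hj : 0 ≤ j) (hDg : 2 * lgD + g / 2 ≤ c * s / 4)
    (hj2 : j * (c * s) ≤ lgp / 2 + 3 + c * s) :
    2 * j * lgD + j * g / 2 ≤ (lgp / 2 + 3 + c * s) / 4 := by
  have h6 := mul_le_mul_of_nonneg_left hDg hj
  linarith only [h6, hj2]

theorem na_k_u3 {n : ℕ} (hn : 1 ≤ n) {x : ℝ} (h : x ≤ 1 / (16 * ((n : ℝ) + 1) ^ 3)) :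
    x ≤ 1 / (4 * (n : ℝ) ^ 2) / 2 := by
  have hn1 : (1 : ℝ) ≤ n := by exact_mod_cast hn
  have hn0 : (0 : ℝ) < n := by linarith only [hn1]
  refine h.trans ?_
  rw [div_div]
  refine one_div_le_one_div_of_le (by positivity) ?_
  nlinarith only [hn1, mul_nonneg hn0.le hn0.le, mul_nonneg (mul_nonneg hn0.le hn0.le) hn0.le]

theorem na_k_logb {n : ℕ} (hn : 1 ≤ n) :
    Real.log (2 / (1 / (4 * (n : ℝ) ^ 2))) = Real.log 8 + 2 * Real.log n := by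
  have hn1 : (1 : ℝ) ≤ n := by exact_mod_cast hn
  have hn0 : (0 : ℝ) < n := by linarith only [hn1]
  have h11 : 2 / (1 / (4 * (n : ℝ) ^ 2)) = 8 * (n : ℝ) ^ 2 := by
    field_simp
    norm_num
  rw [h11, Real.log_mul (by norm_num) (by positivity), Real.log_pow]
  push_cast
  ring

theorem na_k_cut {V : Type} [Fintype V] [DecidableEq V] {q : ℕ} (hq : 1 ≤ q)
    {Ω : Conf V q → ℂ} (hΩ : nsq Ω = 1) (I : ℕ → Finset V) (hmono : ∀ j k, j ≤ k → I j ⊆ I k)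
    (n : ℕ) (hn : 1 ≤ n) {c₀ s : ℝ} (hc₀ : 0 < c₀) (hs : 0 < s) (K u : ℝ) (hK0 : 0 ≤ K)
    (hu : 0 < u)
    (hu2 : 6 * Real.exp (-(u / (4 + 2 * Real.sqrt K))) ≤ 1 / (16 * ((n : ℝ) + 1) ^ 3))
    (tX : TailLe (rdm (I 0) Ω) K) (tIX : ∀ k < n, TailLe (rdm (I k \ I 0) Ω) K)
    (tIc : ∀ k < n, TailLe (rdm (I k)ᶜ Ω) K)
    (hKex : ∀ m : ℝ, 0 ≤ m → ∃ (K : Op V q) (D g : ℝ), 1 ≤ D ∧ 0 ≤ g ∧
        2 * Real.log D + g / 2 ≤ c₀ * s / 4 ∧
        Rep (α := fun k => Conf {x // x ∈ (I k)ᶜ} q) (β := fun k => Conf {x // ¬ x ∈ (I k)ᶜ} q)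
          (fun k => cut (I k)ᶜ q) (fun _ => 1 / (n : ℝ)) n m K D g ∧
        K *ᵥ Ω = Ω ∧ Kᴴ *ᵥ Ω = Ω ∧
        ∀ ψ, star Ω ⬝ᵥ ψ = 0 → nsq (K *ᵥ ψ) ≤ Real.exp (-(c₀ * s)) ^ 2 * nsq ψ) :
    ∃ k < n, entropyOf (I k) Ω ≤ n + 4 * Real.log n + 12 + 5 / 8 * (entropyOf (I 0) Ω + u) +
      c₀ * s / 4 + (∑ k ∈ range n, (entropyOf (I k \ I 0) Ω + u)) / n + u := by
  obtain ⟨v, p, hp, hp1, hv, hov, hvr⟩ := init_vec (I 0) n I (fun k _ => hmono 0 k (Nat.zero_le k))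
    hmono Ω hΩ K u hu hK0 tX tIX hu2
  have hp0 : 0 < p := lt_of_lt_of_le (Real.exp_pos _) hp
  have hlogq : 0 ≤ Real.log q := Real.log_nonneg (by exact_mod_cast hq)
  obtain ⟨m, hm⟩ : ∃ m : ℝ, m = Real.log q * (Fintype.card V : ℝ) + u := ⟨_, rfl⟩
  have hm0 : 0 ≤ m := by
    rw [hm]
    positivity
  obtain ⟨K', D, g, hD, hg, hDg, hrep, hKΩ, hKΩ', hKs⟩ := hKex m hm0
  obtain ⟨j, hj1, hj2⟩ := na_k_steps hc₀ hs hp0 hp1
  have hcard : ∀ k < n, Real.log (Fintype.card (Conf {x // x ∈ (I k)ᶜ} q)) ≤ m := by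
    intro k _
    rw [Fintype.card_fun, Fintype.card_fin, Nat.cast_pow, Real.log_pow, mul_comm]
    have h1 : (Fintype.card {x // x ∈ (I k)ᶜ} : ℝ) ≤ (Fintype.card V : ℝ) := by
      exact_mod_cast Fintype.card_subtype_le _
    have h2 := mul_le_mul_of_nonneg_left h1 hlogq
    rw [hm]
    linarith only [h2, hu]
  have hr : ∀ k < n, 0 ≤ entropyOf (I k \ I 0) Ω + u ∧ entropyOf (I k \ I 0) Ω + u ≤ m := by
    intro k _
    refine ⟨add_nonneg (entropy_nonneg _ Ω hΩ) hu.le, ?_⟩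
    rw [hm]
    have h1 := entropy_le_card hq (I k \ I 0) Ω hΩ
    have h2 : (((I k \ I 0).card : ℕ) : ℝ) ≤ (Fintype.card V : ℝ) := by
      exact_mod_cast Finset.card_le_univ _
    have h3 := mul_le_mul_of_nonneg_left h2 hlogq
    linarith only [h1, h3]
  obtain ⟨k, hk, F, hFp, hFt, hFw⟩ := abstract_main
    (α := fun k => Conf {x // x ∈ (I k)ᶜ} q) (β := fun k => Conf {x // ¬ x ∈ (I k)ᶜ} q)
    (fun k => cut (I k)ᶜ q) n hn
    (fun i k hik Y => na_k_nest (I k)ᶜ (I i)ᶜ (Finset.compl_subset_compl.mpr (hmono i k hik)) Y)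
    hcard hΩ hp0 hp1 hv hov (fun k => entropyOf (I k \ I 0) Ω + u) hr hvr hD hg hrep hKΩ hKΩ'
    (Real.exp_pos _).le hKs j hj1
  refine ⟨k, hk, ?_⟩
  have hn1 : (1 : ℝ) ≤ n := by exact_mod_cast hn
  have hn0 : (0 : ℝ) < n := by linarith only [hn1]
  have havg0 : 0 ≤ (∑ k ∈ Finset.range n, (entropyOf (I k \ I 0) Ω + u)) / (n : ℝ) :=
    div_nonneg (Finset.sum_nonneg fun k hk => (hr k (Finset.mem_range.mp hk)).1) hn0.le
  have hlogp : 0 ≤ Real.log (1 / p) := Real.log_nonneg (by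
    rw [le_div_iff₀ hp0]
    linarith only [hp1])
  have hlogp2 : Real.log (1 / p) ≤ entropyOf (I 0) Ω + u := by
    have h5 := Real.log_le_log (Real.exp_pos _) hp
    rw [Real.log_exp] at h5
    rw [one_div, Real.log_inv]
    linarith only [h5]
  have hlogF := na_k_logF hFp (na_k_T hn0.le (Real.log_nonneg hn1) (Nat.cast_nonneg j)
    (Real.log_nonneg hD) hg hlogp havg0) hFt
  have hjg := na_k_jg (Nat.cast_nonneg j) hDg hj2
  have hb : (0 : ℝ) < 1 / (4 * (n : ℝ) ^ 2) := by positivity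
  have hrank := rank_large (I k)ᶜ Ω hΩ K u (1 / (4 * (n : ℝ) ^ 2)) hK0 (tIc k hk) hu.le hb
    (na_k_u3 hn hu2) F hFp hFw
  rw [entropy_compl (I k) Ω hΩ, na_k_logb hn] at hrank
  have hlog8 := na_k_log8
  linarith only [hlogF, hrank, hjg, hlogp2, hlog8, hu]

theorem na_k_arith {S Sk Sd M u n lgn cs avg : ℝ}
    (h1 : Sk ≤ n + 4 * lgn + 12 + 5 / 8 * (S + u) + cs / 4 + avg + u) (h2 : avg ≤ M + u)
    (h3 : S ≤ Sk + Sd) (h4 : Sd ≤ M) (h5 : lgn ≤ n - 1) (hM : 0 ≤ M) (hu : 0 < u) (hcs : 0 < cs)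
    (hn : 1 ≤ n) : S ≤ 6 * M + 3 * (5 * n + 12 + 3 * u + cs / 4) := by
  linarith

/-- the boundary layer inequality for given parameters -/
theorem na_k_main {L q R : ℕ} (hq : 1 ≤ q) {J Δ : ℝ} (hJ : 0 < J) (hΔ : 0 < Δ)
    {h : Finset (Site L) → Op (Site L) q} {Ω : Conf (Site L) q → ℂ}
    (hF : FFLG L q R J Δ h Ω) (l n : ℕ) (hl : 1 ≤ l) (hn : 1 ≤ n) (hnl : n * (R + 1) ≤ l)
    (x0 x1 y0 y1 : ℕ) (hx : x1 ≤ x0 + l) (hy : y1 ≤ y0 + l) {c₀ s : ℝ} (hc₀ : 0 < c₀)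
    (hs : 0 < s) (K u : ℝ) (hK : K = spread_const q R * (J / Δ) * 16 * l) (hu : 0 < u)
    (hu2 : 6 * Real.exp (-(u / (4 + 2 * Real.sqrt K))) ≤ 1 / (16 * ((n : ℝ) + 1) ^ 3))
    (hKex : ∀ m : ℝ, 0 ≤ m → ∃ (K : Op (Site L) q) (D g : ℝ), 1 ≤ D ∧ 0 ≤ g ∧
        2 * Real.log D + g / 2 ≤ c₀ * s / 4 ∧
        Rep (α := fun k => Conf {x // x ∈ (na_k_I L R x0 x1 y0 y1 k)ᶜ} q)
          (β := fun k => Conf {x // ¬ x ∈ (na_k_I L R x0 x1 y0 y1 k)ᶜ} q)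
          (fun k => cut (na_k_I L R x0 x1 y0 y1 k)ᶜ q) (fun _ => 1 / (n : ℝ)) n m K D g ∧
        K *ᵥ Ω = Ω ∧ Kᴴ *ᵥ Ω = Ω ∧
        ∀ ψ, star Ω ⬝ᵥ ψ = 0 → nsq (K *ᵥ ψ) ≤ Real.exp (-(c₀ * s)) ^ 2 * nsq ψ) :
    ∃ j < n, entropyOf (rect L x0 x1 y0 y1) Ω ≤
      6 * entropyOf (na_k_I L R x0 x1 y0 y1 j \ rect L x0 x1 y0 y1) Ω +
      3 * (5 * n + 12 + 3 * u + c₀ * s / 4) := by
  have hΩ : nsq Ω = 1 := hF.unit
  have hadm := na_k_adm hF
  have hgap := na_k_gapped hΔ hF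
  have hsc : 0 ≤ spread_const q R * (J / Δ) := by
    rw [spread_const]
    positivity
  have hK0 : 0 ≤ K := by
    rw [hK]
    positivity
  have htail : ∀ A : Finset (Site L), bdry A ≤ 16 * l → TailLe (rdm A Ω) K := by
    intro A hAb
    refine na_k_tail_mono ?_ (spread_law hJ hΔ hq hadm hgap A).2.1
    have h5 : (bdry A : ℝ) ≤ 16 * l := by exact_mod_cast hAb
    rw [hK]
    calc spread_const q R * (J / Δ) * (bdry A : ℝ) ≤
          spread_const q R * (J / Δ) * (16 * l) := mul_le_mul_of_nonneg_left h5 hsc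
      _ = _ := by ring
  have hbI : ∀ k, k ≤ n → bdry (na_k_I L R x0 x1 y0 y1 k) ≤ 12 * l := fun k hk =>
    na_k_I_bdry L R x0 x1 y0 y1 l n hx hy hnl hk
  have hI0 : na_k_I L R x0 x1 y0 y1 0 = rect L x0 x1 y0 y1 := na_k_I_zero _ _ _ _ _ _
  have hbI0 : bdry (rect L x0 x1 y0 y1) ≤ 4 * l := by
    refine (na_k_bdry_rect _ _ _ _ _).trans ?_
    omega
  have hmono : ∀ j k, j ≤ k → na_k_I L R x0 x1 y0 y1 j ⊆ na_k_I L R x0 x1 y0 y1 k :=
    fun j k hjk => na_k_I_mono _ _ _ _ _ _ hjk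
  obtain ⟨k, hk, hcut⟩ := na_k_cut hq hΩ (na_k_I L R x0 x1 y0 y1) hmono n hn hc₀ hs K u hK0 hu hu2
    (by
      rw [hI0]
      exact htail _ (hbI0.trans (by omega)))
    (fun k hk => by
      rw [hI0]
      exact htail _ ((na_k_bdry_sdiff _ _).trans (by
        have := hbI k hk.le
        omega)))
    (fun k hk => htail _ ((na_k_bdry_compl _).trans (by
      have := hbI k hk.le
      omega))) hKex
  rw [hI0] at hcut
  -- the maximal entropy of a layer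
  obtain ⟨j', hj', hmax⟩ := Finset.exists_max_image (Finset.range n)
    (fun k => entropyOf (na_k_I L R x0 x1 y0 y1 k \ rect L x0 x1 y0 y1) Ω)
    ⟨0, Finset.mem_range.mpr hn⟩
  refine ⟨j', Finset.mem_range.mp hj', ?_⟩
  have hM0 := entropy_nonneg (na_k_I L R x0 x1 y0 y1 j' \ rect L x0 x1 y0 y1) Ω hΩ
  have hn1 : (1 : ℝ) ≤ n := by exact_mod_cast hn
  have hn0 : (0 : ℝ) < n := by linarith only [hn1]
  have havg : (∑ k ∈ Finset.range n,
      (entropyOf (na_k_I L R x0 x1 y0 y1 k \ rect L x0 x1 y0 y1) Ω + u)) / (n : ℝ) ≤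
      entropyOf (na_k_I L R x0 x1 y0 y1 j' \ rect L x0 x1 y0 y1) Ω + u := by
    rw [div_le_iff₀ hn0]
    refine (Finset.sum_le_sum fun k hk => add_le_add_left (hmax k hk) u).trans (le_of_eq ?_)
    rw [Finset.sum_const, Finset.card_range, nsmul_eq_mul]
    ring
  have hent := na_k_ent hq (rect L x0 x1 y0 y1) (na_k_I L R x0 x1 y0 y1 k)
    (hI0 ▸ hmono 0 k (Nat.zero_le k)) Ω hΩ
  exact na_k_arith hcut havg hent (hmax k (Finset.mem_range.mpr hk))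
    (Real.log_le_sub_one_of_pos hn0) hM0 hu (mul_pos hc₀ hs) hn1

end main


section final

theorem na_k_err {a R Cu c₀ Q lr n u s : ℝ} (ha : 0 ≤ a) (hR : 0 ≤ R) (hCu : 0 ≤ Cu)
    (hc : 0 ≤ c₀) (hQ : 0 ≤ Q) (hlr : 1 ≤ lr) (hn : n ≤ 2 * a * lr) (hu : u ≤ Cu * lr)
    (hs : s ≤ 2 * lr) :
    3 * (5 * n + 12 + 3 * u + c₀ * s / 4) ≤
      6 * (12 + 10 * a * (R + 1) + 3 * Cu + c₀ + Q) * lr := by
  have hlr0 : 0 ≤ lr := by linarith only [hlr]
  have h5 : c₀ * s ≤ c₀ * (2 * lr) := mul_le_mul_of_nonneg_left hs hc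
  have h6 : 0 ≤ a * R * lr := by positivity
  have h7 : 0 ≤ a * lr := by positivity
  have h8 : 0 ≤ c₀ * lr := by positivity
  have h9 : 0 ≤ Cu * lr := by positivity
  have h4 : 0 ≤ Q * lr := by positivity
  linarith only [hn, h5, hu, h4, h6, h7, h8, h9, hlr]

theorem na_k_width {a R Cu c₀ Q lr n j : ℝ} (ha : 0 ≤ a) (hR : 0 ≤ R) (hCu : 0 ≤ Cu)
    (hc : 0 ≤ c₀) (hQ : 0 ≤ Q) (hlr : 1 ≤ lr) (hn : n ≤ 2 * a * lr) (hj : j ≤ n) :
    j * (R + 1) ≤ (12 + 10 * a * (R + 1) + 3 * Cu + c₀ + Q) * lr := by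
  have hlr0 : 0 ≤ lr := by linarith only [hlr]
  have h1 : j * (R + 1) ≤ 2 * a * lr * (R + 1) :=
    mul_le_mul_of_nonneg_right (hj.trans hn) (by linarith only [hR])
  have h2 : 0 ≤ (12 + 8 * a * (R + 1) + 3 * Cu + c₀ + Q) * lr := by positivity
  linarith only [h1, h2]

theorem na_k_small {S T lq l₁ CC lr κ : ℝ} (hS : S ≤ lq * κ) (hκ : κ ≤ l₁ ^ 2) (hlq : 0 ≤ lq)
    (hT : 0 ≤ T) (hCC : lq * l₁ ^ 2 ≤ CC) (hlr : 1 ≤ lr) : S ≤ 6 * T + 6 * CC * lr := by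
  have h4 := mul_le_mul_of_nonneg_left hκ hlq
  have hCC0 : 0 ≤ CC := le_trans (by positivity) hCC
  have h7 : CC ≤ 6 * CC * lr := by nlinarith only [hCC0, hlr]
  linarith only [hS, h4, hT, hCC, h7]

theorem na_k_s (l : ℕ) (hl : 1 ≤ l) : l ≤ (Nat.sqrt l + 1) ^ 2 ∧ (Nat.sqrt l + 1) ^ 2 ≤ 4 * l ∧
    ((Nat.sqrt l + 1 : ℕ) : ℝ) ≤ 2 * Real.sqrt l := by
  have h1 := Nat.lt_succ_sqrt l
  have h2 := Nat.sqrt_le' l
  have h3 : 1 ≤ Nat.sqrt l := Nat.sqrt_pos.mpr hl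
  have h4 : (Nat.sqrt l + 1) ^ 2 ≤ 4 * l := by nlinarith only [h2, h3]
  refine ⟨by nlinarith only [h1], h4, ?_⟩
  have h5 : (((Nat.sqrt l + 1 : ℕ) : ℝ)) ^ 2 ≤ (2 * Real.sqrt l) ^ 2 := by
    rw [mul_pow, Real.sq_sqrt (Nat.cast_nonneg l)]
    have : (((Nat.sqrt l + 1) ^ 2 : ℕ) : ℝ) ≤ ((4 * l : ℕ) : ℝ) := by exact_mod_cast h4
    push_cast at this ⊢
    linarith only [this]
  exact (sq_le_sq₀ (Nat.cast_nonneg _) (by positivity)).mp h5

theorem layer (q R : ℕ) (hq : 1 ≤ q) (J Δ : ℝ) (hJ : 0 < J) (hΔ : 0 < Δ) :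
    ∃ C : ℝ, 1 ≤ C ∧ ∀ (L : ℕ) (h : Finset (Site L) → Op (Site L) q)
      (Ω : Conf (Site L) q → ℂ), FFLG L q R J Δ h Ω →
      ∀ l : ℕ, 1 ≤ l → ∀ x0 x1 y0 y1 : ℕ, x1 ≤ x0 + l → y1 ≤ y0 + l →
      ∃ w : ℕ, (w : ℝ) ≤ C * (l : ℝ) ^ (9 / 10 : ℝ) ∧
        entropyOf (rect L x0 x1 y0 y1) Ω ≤
          6 * entropyOf (rect L (x0 - w) (x1 + w) (y0 - w) (y1 + w) \ rect L x0 x1 y0 y1) Ω +
          6 * C * (l : ℝ) ^ (9 / 10 : ℝ) := by
  obtain ⟨c₀, l₀, CK, hc₀, hK⟩ := exists_K q R hq J Δ hJ hΔ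
  obtain ⟨l₁, hl₁⟩ : ∃ l₁ : ℕ, l₁ = l₀ + (2 * (CK + 1) * (R + 1)) ^ 5 := ⟨_, rfl⟩
  obtain ⟨κ, hκ⟩ : ∃ κ : ℝ, κ = spread_const q R * (J / Δ) * 16 := ⟨_, rfl⟩
  have hκ0 : 0 ≤ κ := by
    rw [hκ, spread_const]
    positivity
  obtain ⟨Cu, hCu⟩ : ∃ Cu : ℝ,
    Cu = (4 + 2 * Real.sqrt κ) * (Real.log 1536 + 3 * Real.log 2 + 15 / 2) := ⟨_, rfl⟩
  have hCu0 : 0 ≤ Cu := by
    have h1 : 0 ≤ Real.log 1536 := Real.log_nonneg (by norm_num)
    have h2 : 0 ≤ Real.log 2 := Real.log_nonneg (by norm_num)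
    rw [hCu]
    positivity
  have hlogq : 0 ≤ Real.log q := Real.log_nonneg (by exact_mod_cast hq)
  have ha0 : (0 : ℝ) ≤ ((CK + 1 : ℕ) : ℝ) := Nat.cast_nonneg _
  have hR0 : (0 : ℝ) ≤ R := Nat.cast_nonneg R
  have hQ0 : 0 ≤ Real.log q * (l₁ : ℝ) ^ 2 := by positivity
  refine ⟨12 + 10 * ((CK + 1 : ℕ) : ℝ) * (R + 1) + 3 * Cu + c₀ + Real.log q * (l₁ : ℝ) ^ 2, ?_, ?_⟩
  · have h1 : 0 ≤ 10 * ((CK + 1 : ℕ) : ℝ) * (R + 1) := by positivity
    linarith only [h1, hCu0, hc₀, hQ0]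
  intro L h Ω hF l hl x0 x1 y0 y1 hx hy
  have hΩ : nsq Ω = 1 := hF.unit
  have hl1 : (1 : ℝ) ≤ l := by exact_mod_cast hl
  have hlr1 : 1 ≤ (l : ℝ) ^ (9 / 10 : ℝ) := na_k_one_le hl1 (by norm_num)
  rcases lt_or_ge l l₁ with hsmall | hbig
  · refine ⟨0, ?_, ?_⟩
    · rw [Nat.cast_zero]
      positivity
    · refine na_k_small (κ := ((rect L x0 x1 y0 y1).card : ℝ)) (l₁ := (l₁ : ℝ))
        (entropy_le_card hq _ Ω hΩ) ?_ hlogq (entropy_nonneg _ Ω hΩ) ?_ hlr1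
      · have h2 : ((rect L x0 x1 y0 y1).card : ℝ) ≤ (l : ℝ) ^ 2 := by
          exact_mod_cast na_k_card_rect L x0 x1 y0 y1 l hx hy
        exact h2.trans (pow_le_pow_left₀ (Nat.cast_nonneg l) (by exact_mod_cast hsmall.le) 2)
      · have h1 : 0 ≤ 10 * ((CK + 1 : ℕ) : ℝ) * (R + 1) := by positivity
        linarith only [h1, hCu0, hc₀]
  · have hbig0 : l₀ ≤ l := le_trans (by omega) hbig
    have hbig1 : (2 * (CK + 1) * (R + 1)) ^ 5 ≤ l := le_trans (by omega) hbig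
    obtain ⟨n, hn, hnC, hnR, hn2⟩ := na_k_params (CK + 1) (R + 1) l (by omega) (by omega) hbig1
    obtain ⟨hs1, hs2, hs3⟩ := na_k_s l hl
    have hnC' : CK * l ^ 4 ≤ n ^ 5 := by
      refine le_trans ?_ hnC
      exact Nat.mul_le_mul_right _ (by omega)
    obtain ⟨u, hu_def, hu, hu2⟩ := na_k_window (K := κ * l) n
    have hnl : n ≤ l := le_trans (Nat.le_mul_of_pos_right n (by omega)) hnR
    have hub : u ≤ Cu * (l : ℝ) ^ (9 / 10 : ℝ) := by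
      rw [hu_def, hCu]
      exact na_k_u_bound hκ0 hl hnl
    have hs0 : (0 : ℝ) < ((Nat.sqrt l + 1 : ℕ) : ℝ) := by positivity
    obtain ⟨j, hj, hmain⟩ := na_k_main hq hJ hΔ hF l n hl hn hnR x0 x1 y0 y1 hx hy hc₀ hs0
      (κ * l) u (by rw [hκ]) hu hu2
      (hK L h Ω hF l n (Nat.sqrt l + 1) hbig0 hs1 hs2 hnR hnC' x0 x1 y0 y1 hx hy)
    have hlr2 : (l : ℝ) ^ (4 / 5 : ℝ) ≤ (l : ℝ) ^ (9 / 10 : ℝ) :=
      Real.rpow_le_rpow_of_exponent_le hl1 (by norm_num)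
    have hlr3 : Real.sqrt l ≤ (l : ℝ) ^ (9 / 10 : ℝ) := by
      rw [Real.sqrt_eq_rpow]
      exact Real.rpow_le_rpow_of_exponent_le hl1 (by norm_num)
    have hn3 : (n : ℝ) ≤ 2 * ((CK + 1 : ℕ) : ℝ) * (l : ℝ) ^ (9 / 10 : ℝ) :=
      hn2.trans (mul_le_mul_of_nonneg_left hlr2 (by positivity))
    have hs4 : ((Nat.sqrt l + 1 : ℕ) : ℝ) ≤ 2 * (l : ℝ) ^ (9 / 10 : ℝ) :=
      hs3.trans (by linarith only [hlr3])
    refine ⟨j * (R + 1), ?_, ?_⟩
    · have hjn : (j : ℝ) ≤ n := by exact_mod_cast hj.le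
      have h1 := na_k_width ha0 hR0 hCu0 hc₀.le hQ0 hlr1 hn3 hjn
      refine le_trans (le_of_eq ?_) h1
      push_cast
      ring
    · exact hmain.trans (add_le_add (le_refl _) (na_k_err ha0 hR0 hCu0 hc₀.le hQ0 hlr1 hn3 hub hs4))

end final

end Vale.Agent.P356.NA
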