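import Vale.Agent.P356.NA.Defs
import Vale.Agent.P356.SV.Rect
import Vale.Agent.P356.SV.Region

/-!
Block M: from rectangles to all regions with one more logarithm (pure combinatorics), by a
recursion over boxes.
-/

set_option linter.all false

namespace Vale.Agent.P356.NA

open Matrix Finset Vale.Agent.P356 Vale.Agent.P356.SV Vale.Agent.P356.Path
open scoped BigOperators ComplexOrder Kronecker

section box
variable {L : ℕ} (S : Finset (Site L) → ℝ) (B : Finset (Site L))

/-- the majority -/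
def na_m_mj (Q : Finset (Site L)) : Bool := decide (Q.card < 2 * (B ∩ Q).card)

/-- the cost of the box with the given colour -/
noncomputable def na_m_val (m : Bool) (Q : Finset (Site L)) : ℝ :=
  if m = true then S (Q \ B) else S (B ∩ Q)

variable {S} {B}

theorem na_m_rel (hsub : ∀ A B, Disjoint A B → S (A ∪ B) ≤ S A + S B) (hc : ∀ A, S Aᶜ = S A)
    {Q D : Finset (Site L)} (hD : D ⊆ Q) : S (Q \ D) ≤ S Q + S D := by
  have e : (Q \ D)ᶜ = Qᶜ ∪ D := by
    ext p
    simp only [Finset.mem_compl, Finset.mem_sdiff, Finset.mem_union, not_and_or, not_not]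
  have hd : Disjoint Qᶜ D := by
    rw [Finset.disjoint_left]
    intro p hp hp'
    exact (Finset.mem_compl.1 hp) (hD hp')
  have h1 := hsub _ _ hd
  rw [← e, hc, hc] at h1
  exact h1

theorem na_m_switch (hsub : ∀ A B, Disjoint A B → S (A ∪ B) ≤ S A + S B) (hc : ∀ A, S Aᶜ = S A)
    (Q : Finset (Site L)) (m m' : Bool) (hm : m ≠ m') :
    na_m_val S B m Q ≤ na_m_val S B m' Q + S Q := by
  have e1 : Q \ (B ∩ Q) = Q \ B := by
    ext p; simp only [Finset.mem_sdiff, Finset.mem_inter]; tauto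
  have e2 : Q \ (Q \ B) = B ∩ Q := by
    ext p; simp only [Finset.mem_sdiff, Finset.mem_inter]; tauto
  have h1 := na_m_rel hsub hc (Finset.inter_subset_right : B ∩ Q ⊆ Q)
  have h2 := na_m_rel hsub hc (Finset.sdiff_subset : Q \ B ⊆ Q)
  rw [e1] at h1
  rw [e2] at h2
  unfold na_m_val
  cases m <;> cases m'
  · exact absurd rfl hm
  · simp only [Bool.false_eq_true, if_false, if_true]; linarith
  · simp only [Bool.false_eq_true, if_false, if_true]; linarith
  · exact absurd rfl hm

theorem na_m_union (hsub : ∀ A B, Disjoint A B → S (A ∪ B) ≤ S A + S B) (m : Bool)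
    {Q Q' : Finset (Site L)} (hd : Disjoint Q Q') :
    na_m_val S B m (Q ∪ Q') ≤ na_m_val S B m Q + na_m_val S B m Q' := by
  unfold na_m_val
  cases m
  · simp only [Bool.false_eq_true, if_false]
    rw [Finset.inter_union_distrib_left]
    exact hsub _ _ (hd.mono Finset.inter_subset_right Finset.inter_subset_right)
  · simp only [if_true]
    rw [Finset.union_sdiff_distrib]
    exact hsub _ _ (hd.mono Finset.sdiff_subset Finset.sdiff_subset)

theorem na_m_bin_union {Q Q' : Finset (Site L)} (hd : Disjoint Q Q') :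
    (b9_bin B Q).card + (b9_bin B Q').card ≤ (b9_bin B (Q ∪ Q')).card := by
  rw [← Finset.card_union_of_disjoint]
  · apply Finset.card_le_card
    intro p hp
    rw [Finset.mem_union] at hp
    unfold b9_bin at hp ⊢
    rw [Finset.mem_filter, Finset.mem_filter] at hp
    rw [Finset.mem_filter]
    simp only [Finset.mem_union]
    tauto
  · rw [Finset.disjoint_left]
    intro p hp hp'
    unfold b9_bin at hp hp'
    rw [Finset.mem_filter] at hp hp'
    exact (Finset.disjoint_left.1 hd) hp.2.2.2.2.1 hp'.2.2.2.2.1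

theorem na_m_bin_le (Q : Finset (Site L)) : (b9_bin B Q).card ≤ bdry B := by
  unfold bdry b9_bin
  apply Finset.card_le_card
  intro p hp
  rw [Finset.mem_filter] at hp ⊢
  exact ⟨hp.1, hp.2.1, hp.2.2.1, hp.2.2.2.1⟩

theorem na_m_card {x0 x1 y0 y1 : ℕ} (hx : x1 ≤ L) (hy : y1 ≤ L) :
    (rect L x0 x1 y0 y1).card = (x1 - x0) * (y1 - y0) := by
  rw [b9_rect_prod, Finset.card_product, b9_card_fin hx, b9_card_fin hy]

theorem na_m_iso {x0 x1 y0 y1 : ℕ} (hx : x1 ≤ L) (hy : y1 ≤ L) :
    4 * (B ∩ rect L x0 x1 y0 y1).card ≤ (b9_bin B (rect L x0 x1 y0 y1)).card ^ 2 ∨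
    4 * (rect L x0 x1 y0 y1 \ B).card ≤ (b9_bin B (rect L x0 x1 y0 y1)).card ^ 2 ∨
    x1 - x0 ≤ (b9_bin B (rect L x0 x1 y0 y1)).card ∨
    y1 - y0 ≤ (b9_bin B (rect L x0 x1 y0 y1)).card := by
  have h := b9_iso B ((Finset.univ : Finset (Fin L)).filter (fun t => x0 ≤ t.val ∧ t.val < x1))
    ((Finset.univ : Finset (Fin L)).filter (fun t => y0 ≤ t.val ∧ t.val < y1))
    b9_interval b9_interval
  rw [b9_card_fin hx, b9_card_fin hy, ← b9_rect_prod] at h
  exact h

/-- a majority change forces boundary -/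
theorem na_m_mismatch {k x0 x1 y0 y1 : ℕ} (hx : x1 ≤ L) (hy : y1 ≤ L)
    (hx1 : x0 + 2 ^ (k + 1) ≤ x1) (hy1 : y0 + 2 ^ (k + 1) ≤ y1) {Q : Finset (Site L)}
    (hQ : Q ⊆ rect L x0 x1 y0 y1) (hQc : 4 ^ k ≤ Q.card)
    (hne : na_m_mj B (rect L x0 x1 y0 y1) ≠ na_m_mj B Q) :
    2 ^ k ≤ (b9_bin B (rect L x0 x1 y0 y1)).card := by
  set P := rect L x0 x1 y0 y1 with hP
  set b := (b9_bin B P).card with hb
  have hPc : 4 ^ (k + 1) ≤ P.card := by
    rw [hP, na_m_card hx hy]
    calc 4 ^ (k + 1) = 2 ^ (k + 1) * 2 ^ (k + 1) := by rw [← mul_pow]; norm_num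
      _ ≤ (x1 - x0) * (y1 - y0) := Nat.mul_le_mul (by omega) (by omega)
  have e4 : 4 ^ k = 2 ^ k * 2 ^ k := by rw [← mul_pow]; norm_num
  have e4' : 4 ^ (k + 1) = 4 * 4 ^ k := by rw [pow_succ]; ring
  have hBQ : (B ∩ Q).card ≤ (B ∩ P).card := Finset.card_le_card (Finset.inter_subset_inter_left hQ)
  have hQB : (Q \ B).card ≤ (P \ B).card := Finset.card_le_card (Finset.sdiff_subset_sdiff hQ (le_refl _))
  have hsP : (P \ B).card + (B ∩ P).card = P.card := by
    have := Finset.card_sdiff_add_card_inter P B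
    rw [Finset.inter_comm P B] at this
    exact this
  have hsQ : (Q \ B).card + (B ∩ Q).card = Q.card := by
    have := Finset.card_sdiff_add_card_inter Q B
    rw [Finset.inter_comm Q B] at this
    exact this
  -- both classes of `P` are large
  have hboth : 4 ^ k ≤ 2 * (B ∩ P).card ∧ 4 ^ k ≤ 2 * (P \ B).card := by
    unfold na_m_mj at hne
    by_cases h1 : P.card < 2 * (B ∩ P).card
    · by_cases h2 : Q.card < 2 * (B ∩ Q).card
      · exact absurd (by rw [decide_eq_true h1, decide_eq_true h2]) hne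
      · constructor <;> omega
    · by_cases h2 : Q.card < 2 * (B ∩ Q).card
      · constructor <;> omega
      · exact absurd (by rw [decide_eq_false h1, decide_eq_false h2]) hne
  have hsq : ∀ n : ℕ, 4 ^ k ≤ 2 * n → 4 * n ≤ b ^ 2 → 2 ^ k ≤ b := by
    intro n h1 h2
    by_contra hcon
    rw [not_le] at hcon
    have h3 : b ^ 2 < 2 ^ k * 2 ^ k := by
      rw [sq]
      exact Nat.mul_lt_mul'' hcon hcon
    rw [← e4] at h3
    omega
  have h2k : 2 ^ (k + 1) = 2 * 2 ^ k := by rw [pow_succ]; ring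
  have h2k0 : 0 < 2 ^ k := pow_pos (by norm_num) k
  rcases na_m_iso (B := B) (x0 := x0) (y0 := y0) hx hy with h | h | h | h
  · exact hsq _ hboth.1 h
  · exact hsq _ hboth.2 h
  · have h' : x1 - x0 ≤ b := h
    omega
  · have h' : y1 - y0 ≤ b := h
    omega

/-- the number of dyadic levels below `k` which are at most `M` -/
def na_m_N (M : ℕ) (k : ℕ) : ℕ := ((Finset.range k).filter (fun j => 2 ^ j ≤ M)).card

theorem na_m_N_succ (M k : ℕ) : na_m_N M (k + 1) = na_m_N M k + (if 2 ^ k ≤ M then 1 else 0) := by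
  unfold na_m_N
  rw [Finset.range_add_one, Finset.filter_insert]
  split_ifs with h
  · rw [Finset.card_insert_of_notMem]
    simp
  · simp

theorem na_m_N_le {M : ℕ} (hM : 1 ≤ M) (k : ℕ) : na_m_N M k ≤ Nat.log 2 M + 1 := by
  unfold na_m_N
  calc ((Finset.range k).filter (fun j => 2 ^ j ≤ M)).card
      ≤ (Finset.range (Nat.log 2 M + 1)).card := by
        apply Finset.card_le_card
        intro j hj
        rw [Finset.mem_filter] at hj
        rw [Finset.mem_range]
        have := Nat.le_log_of_pow_le (by norm_num) hj.2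
        omega
    _ = _ := Finset.card_range _

theorem na_m_cost {A c : ℝ} (hA : 0 ≤ A) (hc0 : 0 ≤ c) {l : ℕ} (hl : 1 ≤ l) {M b s : ℝ}
    (hlb : (l : ℝ) ≤ 2 * b) (hbM : b ≤ M) (hs : s ≤ A * l * (1 + Real.log l) ^ c) :
    s ≤ b * (8 * A * (1 + Real.log (2 * M)) ^ c / 4) := by
  have hp1 : (1 : ℝ) ≤ l := by exact_mod_cast hl
  have hlog : Real.log l ≤ Real.log (2 * M) := Real.log_le_log (by linarith) (by linarith)
  have hlog0 : 0 ≤ Real.log l := Real.log_nonneg hp1
  have hrp : (1 + Real.log l) ^ c ≤ (1 + Real.log (2 * M)) ^ c :=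
    Real.rpow_le_rpow (by linarith) (by linarith) hc0
  have hb0 : 0 ≤ b := by linarith
  have h0 : 0 ≤ (1 + Real.log l) ^ c := Real.rpow_nonneg (by linarith) _
  calc s ≤ A * l * (1 + Real.log l) ^ c := hs
    _ ≤ A * (2 * b) * (1 + Real.log (2 * M)) ^ c :=
        mul_le_mul (mul_le_mul_of_nonneg_left hlb hA) hrp h0 (by positivity)
    _ = _ := by ring

/-- the recursion -/
theorem na_m_rec {A c κ : ℝ} (hA : 0 ≤ A) (hc0 : 0 ≤ c) (hκ : 0 ≤ κ)
    (hnn : ∀ B, 0 ≤ S B) (hsub : ∀ A B, Disjoint A B → S (A ∪ B) ≤ S A + S B)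
    (hc : ∀ A, S Aᶜ = S A) (hcard : ∀ B, S B ≤ κ * B.card)
    (hrect : ∀ l x0 x1 y0 y1 : ℕ, 1 ≤ l → x1 ≤ x0 + l → y1 ≤ y0 + l →
        S (rect L x0 x1 y0 y1) ≤ A * l * (1 + Real.log l) ^ c)
    {M : ℕ} (hM : 1 ≤ M) (hbM : bdry B ≤ M) (k : ℕ) :
    ∀ x0 x1 y0 y1 : ℕ, x1 ≤ L → y1 ≤ L → x0 + 2 ^ k ≤ x1 → x1 ≤ x0 + 2 ^ (k + 1) →
      y0 + 2 ^ k ≤ y1 → y1 ≤ y0 + 2 ^ (k + 1) →
      na_m_val S B (na_m_mj B (rect L x0 x1 y0 y1)) (rect L x0 x1 y0 y1) ≤
        (b9_bin B (rect L x0 x1 y0 y1)).card *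
          (4 * κ + 8 * A * (1 + Real.log (2 * M)) ^ c * na_m_N M k) := by
  have hS0 : S ∅ ≤ 0 := by
    have := hcard ∅
    simpa using this
  have hM1 : (1 : ℝ) ≤ M := by exact_mod_cast hM
  have hlM : 0 ≤ Real.log (2 * M) := Real.log_nonneg (by linarith)
  set T : ℝ := 8 * A * (1 + Real.log (2 * M)) ^ c with hT
  have hT0 : 0 ≤ T := by
    have : 0 ≤ (1 + Real.log (2 * M)) ^ c := Real.rpow_nonneg (by linarith) _
    positivity
  induction k with
  | zero =>
    intro x0 x1 y0 y1 hx hy h1 h2 h3 h4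
    rw [pow_zero] at h1 h3
    rw [zero_add, pow_one] at h2 h4
    set P := rect L x0 x1 y0 y1 with hP
    set b := (b9_bin B P).card with hb
    have hPc : P.card ≤ 4 := by
      rw [hP, na_m_card hx hy]
      calc (x1 - x0) * (y1 - y0) ≤ 2 * 2 := Nat.mul_le_mul (by omega) (by omega)
        _ = 4 := by norm_num
    have hPc1 : 1 ≤ P.card := by
      rw [hP, na_m_card hx hy]
      exact Nat.mul_pos (by omega) (by omega)
    have hsP : (P \ B).card + (B ∩ P).card = P.card := by
      have := Finset.card_sdiff_add_card_inter P B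
      rw [Finset.inter_comm P B] at this
      exact this
    have hN : 0 ≤ T * (na_m_N M 0 : ℝ) := mul_nonneg hT0 (Nat.cast_nonneg _)
    have hb0 : (0 : ℝ) ≤ b := Nat.cast_nonneg _
    have hkey : ∀ D : Finset (Site L), D.card ≤ 4 → (D.card ≠ 0 → 1 ≤ b) →
        S D ≤ b * (4 * κ + T * (na_m_N M 0 : ℝ)) := by
      intro D hD hDb
      by_cases hD0 : D.card = 0
      · rw [Finset.card_eq_zero] at hD0
        rw [hD0]
        have : 0 ≤ (b : ℝ) * (4 * κ + T * (na_m_N M 0 : ℝ)) := by positivity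
        linarith
      · have hb1 : (1 : ℝ) ≤ b := by exact_mod_cast hDb hD0
        have hD4 : (D.card : ℝ) ≤ 4 := by exact_mod_cast hD
        have h5 := hcard D
        have h6 : κ * D.card ≤ κ * 4 := mul_le_mul_of_nonneg_left hD4 hκ
        nlinarith [mul_nonneg hκ (sub_nonneg.2 hb1), mul_nonneg hb0 hN]
    have hiso := na_m_iso (B := B) (x0 := x0) (y0 := y0) hx hy
    rw [← hP, ← hb] at hiso
    unfold na_m_val na_m_mj
    by_cases hm : P.card < 2 * (B ∩ P).card
    · rw [decide_eq_true hm]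
      simp only [if_true]
      apply hkey
      · omega
      · intro h0
        by_contra hcon
        have hb00 : b = 0 := by omega
        rw [hb00] at hiso
        omega
    · rw [decide_eq_false hm]
      simp only [Bool.false_eq_true, if_false]
      apply hkey
      · omega
      · intro h0
        by_contra hcon
        have hb00 : b = 0 := by omega
        rw [hb00] at hiso
        omega
  | succ k ih =>
    intro x0 x1 y0 y1 hx hy h1 h2 h3 h4
    have e2 : 2 ^ (k + 1) = 2 * 2 ^ k := by rw [pow_succ]; ring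
    have e3 : 2 ^ (k + 1 + 1) = 4 * 2 ^ k := by rw [pow_succ, pow_succ]; ring
    set xm := x0 + (x1 - x0) / 2 with hxm
    set ym := y0 + (y1 - y0) / 2 with hym
    set P := rect L x0 x1 y0 y1 with hP
    set Q1 := rect L x0 xm y0 ym with hQ1
    set Q2 := rect L x0 xm ym y1 with hQ2
    set Q3 := rect L xm x1 y0 ym with hQ3
    set Q4 := rect L xm x1 ym y1 with hQ4
    set m := na_m_mj B P with hm
    have hxm1 : x0 + 2 ^ k ≤ xm := by omega
    have hxm2 : xm ≤ x0 + 2 ^ (k + 1) := by omega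
    have hxm3 : xm + 2 ^ k ≤ x1 := by omega
    have hxm4 : x1 ≤ xm + 2 ^ (k + 1) := by omega
    have hym1 : y0 + 2 ^ k ≤ ym := by omega
    have hym2 : ym ≤ y0 + 2 ^ (k + 1) := by omega
    have hym3 : ym + 2 ^ k ≤ y1 := by omega
    have hym4 : y1 ≤ ym + 2 ^ (k + 1) := by omega
    have d12 : Disjoint Q1 Q2 := by
      rw [Finset.disjoint_left]; intro p hp hq; rw [hQ1, b8_mem] at hp; rw [hQ2, b8_mem] at hq; omega
    have d34 : Disjoint Q3 Q4 := by
      rw [Finset.disjoint_left]; intro p hp hq; rw [hQ3, b8_mem] at hp; rw [hQ4, b8_mem] at hq; omega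
    have d1234 : Disjoint (Q1 ∪ Q2) (Q3 ∪ Q4) := by
      rw [Finset.disjoint_left]; intro p hp hq
      rw [Finset.mem_union, hQ1, hQ2, b8_mem, b8_mem] at hp
      rw [Finset.mem_union, hQ3, hQ4, b8_mem, b8_mem] at hq
      omega
    have eP : P = (Q1 ∪ Q2) ∪ (Q3 ∪ Q4) := by
      ext p
      rw [Finset.mem_union, Finset.mem_union, Finset.mem_union, hP, hQ1, hQ2, hQ3, hQ4, b8_mem,
        b8_mem, b8_mem, b8_mem, b8_mem]
      omega
    have s1 : Q1 ⊆ P := by rw [eP]; intro p hp; simp only [Finset.mem_union]; tauto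
    have s2 : Q2 ⊆ P := by rw [eP]; intro p hp; simp only [Finset.mem_union]; tauto
    have s3 : Q3 ⊆ P := by rw [eP]; intro p hp; simp only [Finset.mem_union]; tauto
    have s4 : Q4 ⊆ P := by rw [eP]; intro p hp; simp only [Finset.mem_union]; tauto
    have i1 := ih x0 xm y0 ym (by omega) (by omega) hxm1 hxm2 hym1 hym2
    have i2 := ih x0 xm ym y1 (by omega) hy hxm1 hxm2 hym3 hym4
    have i3 := ih xm x1 y0 ym hx (by omega) hxm3 hxm4 hym1 hym2
    have i4 := ih xm x1 ym y1 hx hy hxm3 hxm4 hym3 hym4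
    rw [← hQ1] at i1
    rw [← hQ2] at i2
    rw [← hQ3] at i3
    rw [← hQ4] at i4
    -- boundary
    have hbsum : (b9_bin B Q1).card + (b9_bin B Q2).card + (b9_bin B Q3).card +
        (b9_bin B Q4).card ≤ (b9_bin B P).card := by
      have a1 := na_m_bin_union (B := B) d12
      have a2 := na_m_bin_union (B := B) d34
      have a3 := na_m_bin_union (B := B) d1234
      rw [← eP] at a3
      omega
    have hbsumR : ((b9_bin B Q1).card : ℝ) + (b9_bin B Q2).card + (b9_bin B Q3).card +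
        (b9_bin B Q4).card ≤ (b9_bin B P).card := by exact_mod_cast hbsum
    have hbPM : (b9_bin B P).card ≤ M := (na_m_bin_le P).trans hbM
    have hbPMR : ((b9_bin B P).card : ℝ) ≤ M := by exact_mod_cast hbPM
    -- values
    have v0 : na_m_val S B m P ≤ na_m_val S B m Q1 + na_m_val S B m Q2 + na_m_val S B m Q3 +
        na_m_val S B m Q4 := by
      have a1 := na_m_union (B := B) hsub m d12
      have a2 := na_m_union (B := B) hsub m d34
      have a3 := na_m_union (B := B) hsub m d1234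
      rw [← eP] at a3
      linarith
    -- the cost of one child
    set Z : ℝ := (if 2 ^ k ≤ M then (1 : ℝ) else 0) with hZ
    have hZ0 : 0 ≤ Z := by rw [hZ]; split_ifs <;> norm_num
    have hchild : ∀ u0 u1 v0 v1 : ℕ, u1 ≤ L → v1 ≤ L → u0 + 2 ^ k ≤ u1 → u1 ≤ u0 + 2 ^ (k + 1) →
        v0 + 2 ^ k ≤ v1 → v1 ≤ v0 + 2 ^ (k + 1) → rect L u0 u1 v0 v1 ⊆ P →
        na_m_val S B m (rect L u0 u1 v0 v1) ≤
          na_m_val S B (na_m_mj B (rect L u0 u1 v0 v1)) (rect L u0 u1 v0 v1) +
            (b9_bin B P).card * (T / 4) * Z := by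
      intro u0 u1 v0 v1 g1 g2 g3 g4 g5 g6 g7
      set Q := rect L u0 u1 v0 v1 with hQ
      by_cases hmm : m = na_m_mj B Q
      · rw [← hmm]
        have : 0 ≤ ((b9_bin B P).card : ℝ) * (T / 4) * Z := by positivity
        linarith
      · have hsw := na_m_switch (B := B) hsub hc Q m (na_m_mj B Q) hmm
        have hQc : 4 ^ k ≤ Q.card := by
          rw [hQ, na_m_card g1 g2]
          calc 4 ^ k = 2 ^ k * 2 ^ k := by rw [← mul_pow]; norm_num
            _ ≤ (u1 - u0) * (v1 - v0) := Nat.mul_le_mul (by omega) (by omega)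
        have hmis := na_m_mismatch (B := B) hx hy h1 h3 g7 hQc hmm
        rw [← hP] at hmis
        have hkM : 2 ^ k ≤ M := hmis.trans hbPM
        have hZ1 : Z = 1 := by rw [hZ, if_pos hkM]
        have hQS := hrect (2 ^ (k + 1)) u0 u1 v0 v1 (Nat.one_le_two_pow) g4 g6
        rw [← hQ] at hQS
        have hpk : ((2 ^ (k + 1) : ℕ) : ℝ) ≤ 2 * (b9_bin B P).card := by
          have h9 : 2 ^ (k + 1) ≤ 2 * (b9_bin B P).card := by omega
          exact_mod_cast h9
        have hfin := na_m_cost hA hc0 (Nat.one_le_two_pow) hpk hbPMR hQS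
        rw [← hT] at hfin
        rw [hZ1, mul_one]
        linarith
    have c1 := hchild x0 xm y0 ym (by omega) (by omega) hxm1 hxm2 hym1 hym2 s1
    have c2 := hchild x0 xm ym y1 (by omega) hy hxm1 hxm2 hym3 hym4 s2
    have c3 := hchild xm x1 y0 ym hx (by omega) hxm3 hxm4 hym1 hym2 s3
    have c4 := hchild xm x1 ym y1 hx hy hxm3 hxm4 hym3 hym4 s4
    rw [← hQ1] at c1
    rw [← hQ2] at c2
    rw [← hQ3] at c3
    rw [← hQ4] at c4
    have hNs : (na_m_N M (k + 1) : ℝ) = na_m_N M k + Z := by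
      rw [na_m_N_succ, hZ]
      push_cast
      rfl
    rw [hNs]
    have hW : 0 ≤ 4 * κ + T * (na_m_N M k : ℝ) := by
      have : (0 : ℝ) ≤ na_m_N M k := Nat.cast_nonneg _
      positivity
    have hsumW : ((b9_bin B Q1).card : ℝ) * (4 * κ + T * (na_m_N M k : ℝ)) +
        (b9_bin B Q2).card * (4 * κ + T * (na_m_N M k : ℝ)) +
        (b9_bin B Q3).card * (4 * κ + T * (na_m_N M k : ℝ)) +
        (b9_bin B Q4).card * (4 * κ + T * (na_m_N M k : ℝ)) ≤
        (b9_bin B P).card * (4 * κ + T * (na_m_N M k : ℝ)) := by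
      have := mul_le_mul_of_nonneg_right hbsumR hW
      linarith
    have e5 : ((b9_bin B P).card : ℝ) * (4 * κ + T * (na_m_N M k + Z)) =
        (b9_bin B P).card * (4 * κ + T * (na_m_N M k : ℝ)) +
          4 * ((b9_bin B P).card * (T / 4) * Z) := by ring
    rw [e5]
    linarith

end box

theorem region_polylog (A c κ : ℝ) (hA : 0 ≤ A) (hc : 0 ≤ c) (hκ : 0 ≤ κ) :
    ∃ C : ℝ, 0 ≤ C ∧ ∀ (L : ℕ) (S : Finset (Site L) → ℝ),
      (∀ B, 0 ≤ S B) → (∀ B B', Disjoint B B' → S (B ∪ B') ≤ S B + S B') → (∀ B, S Bᶜ = S B) →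
      (∀ B, S B ≤ κ * B.card) →
      (∀ l x0 x1 y0 y1 : ℕ, 1 ≤ l → x1 ≤ x0 + l → y1 ≤ y0 + l →
        S (rect L x0 x1 y0 y1) ≤ A * l * (1 + Real.log l) ^ c) →
      ∀ B, S B ≤ C * (bdry B : ℝ) * (1 + Real.log (bdry B)) ^ (c + 1) := by
  refine ⟨4 * κ + 16 * A * 2 ^ c, by positivity, ?_⟩
  intro L S hnn hsub hcm hcard hrect B
  have hS0 : S ∅ ≤ 0 := by
    have := hcard ∅
    simpa using this
  rcases Nat.eq_zero_or_pos L with hL0 | hL
  · -- the empty lattice
    have hB : B = ∅ := by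
      rw [Finset.eq_empty_iff_forall_notMem]
      intro p _
      have := p.1.isLt
      omega
    have hb : bdry B = 0 := by
      rw [hB]
      unfold bdry
      simp
    rw [hb, hB]
    simpa using hS0
  · set k := Nat.log 2 L with hk
    have hk1 : 2 ^ k ≤ L := Nat.pow_log_le_self 2 (by omega)
    have hk2 : L < 2 ^ (k + 1) := Nat.lt_pow_succ_log_self (by norm_num) L
    set M := max 1 (bdry B) with hM
    have hM1 : 1 ≤ M := le_max_left _ _
    have hbM : bdry B ≤ M := le_max_right _ _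
    have hrec := na_m_rec (S := S) (B := B) hA hc hκ hnn hsub hcm hcard hrect hM1 hbM k 0 L 0 L
      le_rfl le_rfl (by omega) (by omega) (by omega) (by omega)
    have euniv : rect L 0 L 0 L = Finset.univ := by
      ext p
      rw [b8_mem]
      have h1 := p.1.isLt
      have h2 := p.2.isLt
      simp only [Finset.mem_univ, iff_true]
      omega
    rw [euniv] at hrec
    have hval : ∀ m, na_m_val S B m Finset.univ = S B := by
      intro m
      unfold na_m_val
      split_ifs
      · rw [← Finset.compl_eq_univ_sdiff]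
        exact hcm B
      · rw [Finset.inter_univ]
    rw [hval] at hrec
    have hbu : (b9_bin B Finset.univ).card = bdry B := by
      unfold b9_bin bdry
      congr 1
      ext p
      simp
    rw [hbu] at hrec
    rcases Nat.eq_zero_or_pos (bdry B) with hb0 | hb0
    · rw [hb0] at hrec ⊢
      simpa using hrec
    · have hMb : M = bdry B := max_eq_right hb0
      rw [hMb] at hrec
      set b : ℝ := (bdry B : ℝ) with hb
      have hb1 : (1 : ℝ) ≤ b := by rw [hb]; exact_mod_cast hb0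
      have hbpos : 0 < b := by linarith
      have hlb : 0 ≤ Real.log b := Real.log_nonneg hb1
      have hN : (na_m_N (bdry B) k : ℝ) ≤ 2 * (1 + Real.log b) := by
        have h1 : (na_m_N (bdry B) k : ℝ) ≤ Nat.log 2 (bdry B) + 1 := by
          exact_mod_cast na_m_N_le hb0 k
        have h2 : (Nat.log 2 (bdry B) : ℝ) * Real.log 2 ≤ Real.log b := by
          have h3 : ((2 : ℝ)) ^ (Nat.log 2 (bdry B)) ≤ b := by
            rw [hb]
            exact_mod_cast Nat.pow_log_le_self 2 (by omega)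
          have h4 := Real.log_le_log (by positivity) h3
          rw [Real.log_pow] at h4
          exact h4
        have h5 : (0.6931471803 : ℝ) < Real.log 2 := Real.log_two_gt_d9
        have h6 : (0 : ℝ) ≤ Nat.log 2 (bdry B) := Nat.cast_nonneg _
        nlinarith
      have hlog2 : Real.log (2 * b) ≤ 1 + Real.log b := by
        rw [Real.log_mul (by norm_num) hbpos.ne']
        have : Real.log 2 < 0.6931471808 := Real.log_two_lt_d9
        linarith
      have hlog20 : 0 ≤ Real.log (2 * b) := Real.log_nonneg (by linarith)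
      have hpow : (1 + Real.log (2 * b)) ^ c ≤ 2 ^ c * (1 + Real.log b) ^ c := by
        rw [← Real.mul_rpow (by norm_num) (by linarith)]
        apply Real.rpow_le_rpow (by linarith) _ hc
        linarith
      have hp0 : 0 < (1 + Real.log b) ^ c := Real.rpow_pos_of_pos (by linarith) _
      have hp1 : (1 : ℝ) ≤ (1 + Real.log b) ^ (c + 1) := Real.one_le_rpow (by linarith) (by linarith)
      have hsucc : (1 + Real.log b) ^ (c + 1) = (1 + Real.log b) ^ c * (1 + Real.log b) := by
        rw [Real.rpow_add (by linarith), Real.rpow_one]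
      have hq : 0 ≤ (1 + Real.log (2 * b)) ^ c := Real.rpow_nonneg (by linarith) _
      refine hrec.trans ?_
      have hmain : 8 * A * (1 + Real.log (2 * b)) ^ c * (na_m_N (bdry B) k : ℝ) ≤
          16 * A * 2 ^ c * (1 + Real.log b) ^ (c + 1) := by
        calc 8 * A * (1 + Real.log (2 * b)) ^ c * (na_m_N (bdry B) k : ℝ)
            ≤ 8 * A * (1 + Real.log (2 * b)) ^ c * (2 * (1 + Real.log b)) :=
              mul_le_mul_of_nonneg_left hN (by positivity)
          _ ≤ 8 * A * (2 ^ c * (1 + Real.log b) ^ c) * (2 * (1 + Real.log b)) := by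
              apply mul_le_mul_of_nonneg_right _ (by positivity)
              exact mul_le_mul_of_nonneg_left hpow (by positivity)
          _ = 16 * A * 2 ^ c * (1 + Real.log b) ^ (c + 1) := by rw [hsucc]; ring
      have hk4 : 4 * κ ≤ 4 * κ * (1 + Real.log b) ^ (c + 1) := by
        have := mul_le_mul_of_nonneg_left hp1 (show 0 ≤ 4 * κ by positivity)
        linarith
      have e6 : (4 * κ + 16 * A * 2 ^ c) * b * (1 + Real.log b) ^ (c + 1) =
          b * (4 * κ * (1 + Real.log b) ^ (c + 1) + 16 * A * 2 ^ c * (1 + Real.log b) ^ (c + 1)) := by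
        ring
      rw [e6]
      apply mul_le_mul_of_nonneg_left _ hbpos.le
      linarith

end Vale.Agent.P356.NA
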