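import Vale.Agent.P356.NA.Defs
import Mathlib.Analysis.Matrix.Order
import Mathlib.Algebra.Order.Chebyshev

/-!
The detectability lemma for ordered products of `1 - h / J`.
-/

set_option linter.all false

namespace Vale.Agent.P356.NA

open Matrix Finset Vale.Agent.P356 Vale.Agent.P356.SV Vale.Agent.P356.Path
open scoped BigOperators ComplexOrder Kronecker MatrixOrder

section D
variable {N : Type*} [Fintype N] [DecidableEq N]

theorem na_d_psd {H : Matrix N N ℂ} (hH : H.IsHermitian) (hpos : ∀ ψ, 0 ≤ en H ψ) :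
    H.PosSemidef := by
  refine Matrix.PosSemidef.of_dotProduct_mulVec_nonneg hH (fun ψ => ?_)
  have h1 : star (star ψ ⬝ᵥ (H *ᵥ ψ)) = star ψ ⬝ᵥ (H *ᵥ ψ) := by
    rw [← star_dotProduct, ip_mulVec, hH.eq]
  have h2 : (star ψ ⬝ᵥ (H *ᵥ ψ)).im = 0 := by
    have := congrArg Complex.im h1
    simp only [RCLike.star_def, Complex.conj_im] at this
    linarith
  rw [Complex.nonneg_iff]
  exact ⟨hpos ψ, h2.symm⟩

theorem na_d_en_nonneg {H : Matrix N N ℂ} (hH : H.PosSemidef) (ψ : N → ℂ) : 0 ≤ en H ψ :=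
  (Complex.nonneg_iff.mp (hH.dotProduct_mulVec_nonneg ψ)).1

theorem na_d_en_add (A B : Matrix N N ℂ) (ψ : N → ℂ) : en (A + B) ψ = en A ψ + en B ψ := by
  simp only [en, add_mulVec, dotProduct_add, Complex.add_re]

theorem na_d_en_sub (A B : Matrix N N ℂ) (ψ : N → ℂ) : en (A - B) ψ = en A ψ - en B ψ := by
  simp only [en, sub_mulVec, dotProduct_sub, Complex.sub_re]

theorem na_d_en_one (ψ : N → ℂ) : en (1 : Matrix N N ℂ) ψ = nsq ψ := by
  rw [en, one_mulVec, ip_self_re]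

theorem na_d_en_rsmul (c : ℝ) (A : Matrix N N ℂ) (ψ : N → ℂ) :
    en (((c : ℝ) : ℂ) • A) ψ = c * en A ψ := by
  simp only [en, smul_mulVec, dotProduct_smul, smul_eq_mul, Complex.re_ofReal_mul]

theorem na_d_en_mul (A Y : Matrix N N ℂ) (ψ : N → ℂ) :
    en A (Y *ᵥ ψ) = en (Yᴴ * A * Y) ψ := by
  rw [en, en, ip_mulVec, mulVec_mulVec, mulVec_mulVec, Matrix.mul_assoc]

theorem na_d_nsq_mul (Y : Matrix N N ℂ) (ψ : N → ℂ) : nsq (Y *ᵥ ψ) = en (Yᴴ * Y) ψ := by
  rw [← na_d_en_one (Y *ᵥ ψ), na_d_en_mul, Matrix.mul_one]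

/-- a nonnegative contraction -/
structure NaUnit (A : Matrix N N ℂ) : Prop where
  psd : A.PosSemidef
  psd' : (1 - A).PosSemidef

theorem na_d_comm_psd {A B : Matrix N N ℂ} (hA : A.PosSemidef) (hB : B.PosSemidef)
    (h : A * B = B * A) : (A * B).PosSemidef :=
  (Commute.mul_nonneg hA.nonneg hB.nonneg h).posSemidef

theorem na_d_unit {H : Matrix N N ℂ} {J : ℝ} (hJ : 0 < J) (hH : H.IsHermitian)
    (hpos : ∀ ψ, 0 ≤ en H ψ) (hn : OpNormLe H J) : NaUnit (((J⁻¹ : ℝ) : ℂ) • H) := by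
  have hs : (((J⁻¹ : ℝ) : ℂ) • H).IsHermitian := by
    rw [Matrix.IsHermitian, conjTranspose_smul, hH.eq]
    simp only [RCLike.star_def, Complex.conj_ofReal]
  have hJi : 0 < J⁻¹ := inv_pos.mpr hJ
  refine ⟨na_d_psd hs (fun ψ => ?_), na_d_psd ((isHermitian_one).sub hs) (fun ψ => ?_)⟩
  · rw [na_d_en_rsmul]
    exact mul_nonneg hJi.le (hpos ψ)
  · rw [na_d_en_sub, na_d_en_one, na_d_en_rsmul]
    have h1 : en H ψ ≤ nrm ψ * nrm (H *ᵥ ψ) := (Complex.re_le_norm _).trans (nrm_ip_le _ _)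
    have h2 : nrm (H *ᵥ ψ) ≤ J * nrm ψ := by
      have h3 := hn ψ
      have h4 : nrm (H *ᵥ ψ) ^ 2 ≤ (J * nrm ψ) ^ 2 := by
        rw [nrm_sq, mul_pow, nrm_sq]
        exact h3
      exact (sq_le_sq₀ (nrm_nonneg _) (mul_nonneg hJ.le (nrm_nonneg _))).mp h4
    have h5 : en H ψ ≤ J * nsq ψ := by
      rw [← nrm_sq]
      nlinarith [nrm_nonneg ψ]
    have h6 : J⁻¹ * en H ψ ≤ J⁻¹ * (J * nsq ψ) := mul_le_mul_of_nonneg_left h5 hJi.le
    rw [← mul_assoc, inv_mul_cancel₀ hJ.ne', one_mul] at h6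
    linarith

/-- `A ^ 2 ≤ A` -/
theorem na_d_sq_le {A : Matrix N N ℂ} (hA : NaUnit A) (ψ : N → ℂ) :
    nsq (A *ᵥ ψ) ≤ en A ψ := by
  have h1 : (A * (1 - A)).PosSemidef := na_d_comm_psd hA.psd hA.psd' (by noncomm_ring)
  have h2 := na_d_en_nonneg h1 ψ
  have h3 : A * (1 - A) = A - A * A := by noncomm_ring
  rw [h3, na_d_en_sub] at h2
  rw [na_d_nsq_mul, hA.psd.isHermitian.eq]
  linarith

/-- the decrease of the norm -/
theorem na_d_drop {A : Matrix N N ℂ} (hA : NaUnit A) (ψ : N → ℂ) :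
    en A ψ ≤ nsq ψ - nsq ((1 - A) *ᵥ ψ) := by
  have h1 := na_d_sq_le hA ψ
  have h2 : nsq ((1 - A) *ᵥ ψ) = nsq ψ - 2 * en A ψ + nsq (A *ᵥ ψ) := by
    rw [na_d_nsq_mul, na_d_nsq_mul, hA.psd'.isHermitian.eq, hA.psd.isHermitian.eq]
    have h3 : (1 - A) * (1 - A) = 1 - A - A + A * A := by noncomm_ring
    rw [h3, na_d_en_add, na_d_en_sub, na_d_en_sub, na_d_en_one]
    ring
  rw [h2]
  linarith

theorem na_d_le_nsq {A : Matrix N N ℂ} (hA : NaUnit A) (ψ : N → ℂ) : en A ψ ≤ nsq ψ := by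
  have h2 := na_d_en_nonneg hA.psd' ψ
  rw [na_d_en_sub, na_d_en_one] at h2
  linarith

/-- commuting factors do not increase the energy -/
theorem na_d_comm {A B : Matrix N N ℂ} (hA : NaUnit A) (hB : NaUnit B)
    (h : A * B = B * A) (ψ : N → ℂ) : en A ((1 - B) *ᵥ ψ) ≤ en A ψ := by
  have h1 : (B + B * (1 - B)).PosSemidef :=
    hB.psd.add (na_d_comm_psd hB.psd hB.psd' (by noncomm_ring))
  have h2 : (A * (B + B * (1 - B))).PosSemidef := by
    refine na_d_comm_psd hA.psd h1 ?_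
    have e1 : A * (B + B * (1 - B)) = A * B + A * B - A * B * B := by noncomm_ring
    have e2 : (B + B * (1 - B)) * A = B * A + B * A - B * (B * A) := by noncomm_ring
    rw [e1, e2, ← h, ← Matrix.mul_assoc, ← h]
  have h3 := na_d_en_nonneg h2 ψ
  have h4 : A * (B + B * (1 - B)) = A - (1 - B)ᴴ * A * (1 - B) := by
    rw [hB.psd'.isHermitian.eq]
    have e1 : A * (B + B * (1 - B)) = A * B + A * B - A * B * B := by noncomm_ring
    have e2 : A - (1 - B) * A * (1 - B) = B * A + A * B - B * A * B := by noncomm_ring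
    rw [e1, e2, ← h]
  rw [h4, na_d_en_sub, ← na_d_en_mul] at h3
  linarith

/-- triangle inequality for the energy seminorm -/
theorem na_d_tri {A : Matrix N N ℂ} (hA : A.PosSemidef) (φ χ : N → ℂ) :
    Real.sqrt (en A (φ - χ)) ≤ Real.sqrt (en A φ) + Real.sqrt (en A χ) := by
  obtain ⟨B, rfl⟩ := CStarAlgebra.nonneg_iff_eq_star_mul_self.mp hA.nonneg
  have h1 : ∀ ψ : N → ℂ, Real.sqrt (en (star B * B) ψ) = nrm (B *ᵥ ψ) := by
    intro ψ
    rw [nrm, na_d_nsq_mul, star_eq_conjTranspose]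
  rw [h1, h1, h1, mulVec_sub]
  exact nrm_sub_le _ _

/-- the vectors obtained by applying the last factors -/
noncomputable def na_psi (Y : ℕ → Matrix N N ℂ) (r : ℕ) (ψ : N → ℂ) (i : ℕ) : N → ℂ :=
  prS Y i (r - i) *ᵥ ψ

theorem na_d_prS_head (Y : ℕ → Matrix N N ℂ) (k j : ℕ) :
    prS Y k (j + 1) = Y k * prS Y (k + 1) j := by
  induction j with
  | zero => rw [prS, prS, prS, Matrix.one_mul, Matrix.mul_one, Nat.add_zero]
  | succ j ih =>
    rw [prS, ih, prS, Matrix.mul_assoc]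
    congr 3
    omega

theorem na_psi_self (Y : ℕ → Matrix N N ℂ) (r : ℕ) (ψ : N → ℂ) : na_psi Y r ψ r = ψ := by
  rw [na_psi, Nat.sub_self, prS, one_mulVec]

theorem na_psi_zero (Y : ℕ → Matrix N N ℂ) (r : ℕ) (ψ : N → ℂ) :
    na_psi Y r ψ 0 = prR Y r *ᵥ ψ := by
  have h := prR_split Y 0 r
  rw [Nat.zero_add, prR, Matrix.one_mul] at h
  rw [na_psi, Nat.sub_zero, h]

theorem na_psi_step (Y : ℕ → Matrix N N ℂ) {r : ℕ} (ψ : N → ℂ) {i : ℕ} (hi : i < r) :
    na_psi Y r ψ i = Y i *ᵥ na_psi Y r ψ (i + 1) := by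
  have h : r - i = (r - (i + 1)) + 1 := by omega
  rw [na_psi, na_psi, h, na_d_prS_head, mulVec_mulVec]

/-- the core estimate for contractions `0 ≤ A z ≤ 1` -/
theorem na_d_core (r : ℕ) (A : ℕ → Matrix N N ℂ) (hA : ∀ z < r, NaUnit (A z)) (g : ℕ)
    (S : ℕ → Finset ℕ) (hSr : ∀ z < r, ∀ j, j ∈ S z ↔ j < r ∧ (j = z ∨ A z * A j ≠ A j * A z))
    (hg : ∀ z < r, (S z).card ≤ g) (ψ : N → ℂ) :
    ∑ z ∈ range r, en (A z) (prR (fun z => 1 - A z) r *ᵥ ψ) ≤
      (g : ℝ) ^ 2 * (nsq ψ - nsq (prR (fun z => 1 - A z) r *ᵥ ψ)) := by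
  set Y : ℕ → Matrix N N ℂ := fun z => 1 - A z with hY
  set P : ℕ → (N → ℂ) := na_psi Y r ψ with hP
  set δ : ℕ → ℝ := fun i => nsq (P (i + 1)) - nsq (P i) with hδ
  have hstep : ∀ i, i < r → P i = (1 - A i) *ᵥ P (i + 1) := fun i hi => na_psi_step Y ψ hi
  have hdrop : ∀ i, i < r → en (A i) (P (i + 1)) ≤ δ i := by
    intro i hi
    have := na_d_drop (hA i hi) (P (i + 1))
    rw [← hstep i hi] at this
    exact this
  have hδ0 : ∀ i, i < r → 0 ≤ δ i := fun i hi =>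
    (na_d_en_nonneg (hA i hi).psd _).trans (hdrop i hi)
  have hδA : ∀ i, i < r → nsq (A i *ᵥ P (i + 1)) ≤ δ i := fun i hi =>
    (na_d_sq_le (hA i hi) _).trans (hdrop i hi)
  -- the chain for a fixed `z`
  have hchain : ∀ z < r, ∀ d ≤ z, Real.sqrt (en (A z) (P (z - d))) ≤
      ∑ j ∈ (S z).filter (fun j => z - d ≤ j), Real.sqrt (δ j) := by
    intro z hz d
    induction d with
    | zero =>
      intro _
      have h1 : Real.sqrt (en (A z) (P (z - 0))) ≤ Real.sqrt (δ z) := by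
        rw [Nat.sub_zero]
        refine Real.sqrt_le_sqrt ?_
        rw [hstep z hz]
        exact (na_d_comm (hA z hz) (hA z hz) rfl _).trans (hdrop z hz)
      refine h1.trans ?_
      refine Finset.single_le_sum (f := fun j => Real.sqrt (δ j))
        (fun j _ => Real.sqrt_nonneg _) ?_
      rw [Finset.mem_filter, hSr z hz]
      exact ⟨⟨hz, Or.inl rfl⟩, by omega⟩
    | succ d ih =>
      intro hd
      have ih' := ih (by omega)
      have hi : z - (d + 1) < r := by omega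
      have hi1 : z - (d + 1) + 1 = z - d := by omega
      have hst := hstep _ hi
      rw [hi1] at hst
      by_cases hc : A z * A (z - (d + 1)) = A (z - (d + 1)) * A z
      · have h1 : Real.sqrt (en (A z) (P (z - (d + 1)))) ≤ Real.sqrt (en (A z) (P (z - d))) := by
          refine Real.sqrt_le_sqrt ?_
          rw [hst]
          exact na_d_comm (hA z hz) (hA _ hi) hc _
        refine (h1.trans ih').trans ?_
        refine Finset.sum_le_sum_of_subset_of_nonneg ?_ (fun j _ _ => Real.sqrt_nonneg _)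
        intro j hj
        rw [Finset.mem_filter] at hj ⊢
        exact ⟨hj.1, by omega⟩
      · have h1 : Real.sqrt (en (A z) (P (z - (d + 1)))) ≤
            Real.sqrt (en (A z) (P (z - d))) + Real.sqrt (δ (z - (d + 1))) := by
          rw [hst, sub_mulVec, one_mulVec]
          refine (na_d_tri (hA z hz).psd _ _).trans ?_
          refine add_le_add le_rfl (Real.sqrt_le_sqrt ?_)
          refine (na_d_le_nsq (hA z hz) _).trans ?_
          have := hδA _ hi
          rw [hi1] at this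
          exact this
        have h2 : (S z).filter (fun j => z - (d + 1) ≤ j) =
            insert (z - (d + 1)) ((S z).filter (fun j => z - d ≤ j)) := by
          ext j
          rw [Finset.mem_insert, Finset.mem_filter, Finset.mem_filter]
          constructor
          · rintro ⟨h3, h4⟩
            by_cases h5 : j = z - (d + 1)
            · exact Or.inl h5
            · exact Or.inr ⟨h3, by omega⟩
          · rintro (h3 | ⟨h3, h4⟩)
            · refine ⟨?_, by omega⟩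
              rw [hSr z hz, h3]
              exact ⟨hi, Or.inr hc⟩
            · exact ⟨h3, by omega⟩
        rw [h2, Finset.sum_insert (by
          rw [Finset.mem_filter]
          rintro ⟨_, h⟩
          omega)]
        linarith
  have hz : ∀ z < r, en (A z) (P 0) ≤ g * ∑ j ∈ S z, δ j := by
    intro z hz
    have h1 := hchain z hz z le_rfl
    rw [Nat.sub_self] at h1
    have h2 : (S z).filter (fun j => 0 ≤ j) = S z := by
      ext j
      simp
    rw [h2] at h1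
    have h3 : en (A z) (P 0) = Real.sqrt (en (A z) (P 0)) ^ 2 :=
      (Real.sq_sqrt (na_d_en_nonneg (hA z hz).psd _)).symm
    have h4 : Real.sqrt (en (A z) (P 0)) ^ 2 ≤ (∑ j ∈ S z, Real.sqrt (δ j)) ^ 2 :=
      pow_le_pow_left₀ (Real.sqrt_nonneg _) h1 2
    have h5 := sq_sum_le_card_mul_sum_sq (s := S z) (f := fun j => Real.sqrt (δ j))
    have h6 : ∑ j ∈ S z, Real.sqrt (δ j) ^ 2 = ∑ j ∈ S z, δ j := by
      refine Finset.sum_congr rfl (fun j hj => Real.sq_sqrt (hδ0 j ?_))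
      exact ((hSr z hz j).mp hj).1
    rw [h6] at h5
    have h7 : ((S z).card : ℝ) * ∑ j ∈ S z, δ j ≤ g * ∑ j ∈ S z, δ j := by
      refine mul_le_mul_of_nonneg_right (by exact_mod_cast hg z hz) (Finset.sum_nonneg ?_)
      intro j hj
      exact hδ0 j ((hSr z hz j).mp hj).1
    linarith
  have hsum : ∑ z ∈ range r, ∑ j ∈ S z, δ j ≤ g * ∑ j ∈ range r, δ j := by
    have h1 : ∑ z ∈ range r, ∑ j ∈ S z, δ j =
        ∑ z ∈ range r, ∑ j ∈ range r, if j ∈ S z then δ j else 0 := by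
      refine Finset.sum_congr rfl (fun z hz => ?_)
      rw [← Finset.sum_filter]
      refine Finset.sum_congr ?_ (fun _ _ => rfl)
      ext j
      rw [Finset.mem_filter, Finset.mem_range]
      exact ⟨fun h => ⟨((hSr z (Finset.mem_range.mp hz) j).mp h).1, h⟩, fun h => h.2⟩
    rw [h1, Finset.sum_comm, Finset.mul_sum]
    refine Finset.sum_le_sum (fun j hj => ?_)
    have hj' := Finset.mem_range.mp hj
    have h2 : ∑ z ∈ range r, (if j ∈ S z then δ j else 0) = ((S j).card : ℝ) * δ j := by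
      rw [← Finset.sum_filter, Finset.sum_const, nsmul_eq_mul]
      congr 2
      apply congrArg
      ext z
      rw [Finset.mem_filter, Finset.mem_range]
      constructor
      · rintro ⟨h3, h4⟩
        rw [hSr j hj']
        refine ⟨h3, ?_⟩
        rcases ((hSr z h3 j).mp h4).2 with h5 | h5
        · exact Or.inl h5.symm
        · exact Or.inr (fun h6 => h5 h6.symm)
      · intro h3
        have h4 := (hSr j hj' z).mp h3
        refine ⟨h4.1, ?_⟩
        rw [hSr z h4.1]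
        refine ⟨hj', ?_⟩
        rcases h4.2 with h5 | h5
        · exact Or.inl h5.symm
        · exact Or.inr (fun h6 => h5 h6.symm)
    rw [h2]
    exact mul_le_mul_of_nonneg_right (by exact_mod_cast hg j hj') (hδ0 j hj')
  have htel : ∑ j ∈ range r, δ j = nsq ψ - nsq (P 0) := by
    rw [hδ, Finset.sum_range_sub (fun i => nsq (P i)) r, hP, na_psi_self]
  have hP0 : P 0 = prR Y r *ᵥ ψ := na_psi_zero Y r ψ
  rw [← hP0]
  calc ∑ z ∈ range r, en (A z) (P 0) ≤ ∑ z ∈ range r, g * ∑ j ∈ S z, δ j :=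
        Finset.sum_le_sum (fun z h => hz z (Finset.mem_range.mp h))
    _ = g * ∑ z ∈ range r, ∑ j ∈ S z, δ j := by rw [Finset.mul_sum]
    _ ≤ g * (g * ∑ j ∈ range r, δ j) := mul_le_mul_of_nonneg_left hsum (Nat.cast_nonneg g)
    _ = (g : ℝ) ^ 2 * (nsq ψ - nsq (P 0)) := by rw [htel]; ring

theorem detect (r : ℕ) (h : ℕ → Matrix N N ℂ) {J : ℝ} (hJ : 0 < J)
    (hh : ∀ z < r, (h z).IsHermitian ∧ (∀ ψ, 0 ≤ en (h z) ψ) ∧ OpNormLe (h z) J) (g : ℕ)
    (hg : ∀ z < r, ((range r).filter (fun j => j = z ∨ h z * h j ≠ h j * h z)).card ≤ g)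
    (ψ : N → ℂ) :
    ∑ z ∈ range r, en (h z) (prR (fun z => 1 - ((J⁻¹ : ℝ) : ℂ) • h z) r *ᵥ ψ) ≤
      J * (g : ℝ) ^ 2 * (nsq ψ - nsq (prR (fun z => 1 - ((J⁻¹ : ℝ) : ℂ) • h z) r *ᵥ ψ)) := by
  have hJc : ((J⁻¹ : ℝ) : ℂ) ≠ 0 := by
    exact_mod_cast (inv_ne_zero hJ.ne')
  have hcomm : ∀ z j, ((((J⁻¹ : ℝ) : ℂ) • h z) * (((J⁻¹ : ℝ) : ℂ) • h j) =
      (((J⁻¹ : ℝ) : ℂ) • h j) * (((J⁻¹ : ℝ) : ℂ) • h z)) ↔ h z * h j = h j * h z := by
    intro z j
    rw [smul_mul_smul_comm, smul_mul_smul_comm]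
    constructor
    · intro hc
      exact smul_right_injective _ (mul_ne_zero hJc hJc) hc
    · intro hc
      rw [hc]
  have h1 := na_d_core r (fun z => ((J⁻¹ : ℝ) : ℂ) • h z)
    (fun z hz => na_d_unit hJ (hh z hz).1 (hh z hz).2.1 (hh z hz).2.2) g
    (fun z => (range r).filter (fun j => j = z ∨ h z * h j ≠ h j * h z))
    (fun z _ j => by
      rw [Finset.mem_filter, Finset.mem_range, ne_eq, ne_eq, hcomm z j]) hg ψ
  have h2 : ∀ z (φ : N → ℂ), en (h z) φ = J * en (((J⁻¹ : ℝ) : ℂ) • h z) φ := by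
    intro z φ
    rw [na_d_en_rsmul, ← mul_assoc, mul_inv_cancel₀ hJ.ne', one_mul]
  calc ∑ z ∈ range r, en (h z) (prR (fun z => 1 - ((J⁻¹ : ℝ) : ℂ) • h z) r *ᵥ ψ)
      = J * ∑ z ∈ range r, en (((J⁻¹ : ℝ) : ℂ) • h z)
          (prR (fun z => 1 - ((J⁻¹ : ℝ) : ℂ) • h z) r *ᵥ ψ) := by
        rw [Finset.mul_sum]
        exact Finset.sum_congr rfl (fun z _ => h2 z _)
    _ ≤ J * ((g : ℝ) ^ 2 * (nsq ψ - nsq (prR (fun z => 1 - ((J⁻¹ : ℝ) : ℂ) • h z) r *ᵥ ψ))) :=
        mul_le_mul_of_nonneg_left h1 hJ.le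
    _ = _ := by ring

end D

end Vale.Agent.P356.NA
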