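import Vale.Agent.P356.NA.Detect
import Vale.Agent.P356.NA.Spec
import Vale.Agent.P356.NA.SpecPow

/-!
Contraction of the powers of the detectability operator off the kernel.
-/

set_option linter.all false

namespace Vale.Agent.P356.NA

open Matrix Finset Vale.Agent.P356 Vale.Agent.P356.SV Vale.Agent.P356.Path
open scoped BigOperators ComplexOrder Kronecker

section D
variable {N : Type*} [Fintype N] [DecidableEq N]

/-- energies of sums -/
theorem na_d_en_sum (r : ℕ) (h : ℕ → Matrix N N ℂ) (φ : N → ℂ) :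
    en (∑ z ∈ range r, h z) φ = ∑ z ∈ range r, en (h z) φ := by
  induction r with
  | zero => simp [en]
  | succ r ih => rw [Finset.sum_range_succ, Finset.sum_range_succ, na_d_en_add, ih]

theorem na_d_herm_sum (r : ℕ) (h : ℕ → Matrix N N ℂ) (hh : ∀ z < r, (h z).IsHermitian) :
    (∑ z ∈ range r, h z).IsHermitian := by
  rw [Matrix.IsHermitian, Matrix.conjTranspose_sum]
  exact Finset.sum_congr rfl (fun z hz => (hh z (Finset.mem_range.mp hz)).eq)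

/-- the kernel of the sum is killed by every term -/
theorem na_d_kpr_term (r : ℕ) (h : ℕ → Matrix N N ℂ)
    (hh : ∀ z < r, (h z).IsHermitian ∧ (∀ ψ, 0 ≤ en (h z) ψ)) {z : ℕ} (hz : z < r) :
    kpr (∑ z ∈ range r, h z) * h z = 0 := by
  have hH := na_d_herm_sum r h (fun z hz => (hh z hz).1)
  have h1 : ∀ φ : N → ℂ, (∑ z ∈ range r, h z) *ᵥ φ = 0 → h z *ᵥ φ = 0 := by
    intro φ hφ
    refine en_zero (hh z hz).1 (hh z hz).2 ?_
    have h2 : en (∑ z ∈ range r, h z) φ = 0 := by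
      rw [en, hφ, dotProduct_zero, Complex.zero_re]
    rw [na_d_en_sum] at h2
    exact (Finset.sum_eq_zero_iff_of_nonneg
      (fun j hj => (hh j (Finset.mem_range.mp hj)).2 φ)).mp h2 z (Finset.mem_range.mpr hz)
  have h3 : h z * kpr (∑ z ∈ range r, h z) = 0 := by
    ext i j
    have h4 : (∑ z ∈ range r, h z) *ᵥ (fun i => kpr (∑ z ∈ range r, h z) i j) = 0 := by
      ext k
      have := congrFun (congrFun (mul_kpr hH) k) j
      exact this
    exact congrFun (h1 _ h4) i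
  have h5 := congrArg conjTranspose h3
  rw [conjTranspose_mul, (kpr_isPr hH).2, (hh z hz).1.eq, conjTranspose_zero] at h5
  exact h5

theorem na_d_kpr_prR (P : Matrix N N ℂ) (Y : ℕ → Matrix N N ℂ) (r : ℕ)
    (h : ∀ z < r, P * Y z = P) : P * prR Y r = P := by
  induction r with
  | zero => rw [prR, Matrix.mul_one]
  | succ r ih =>
    rw [prR, ← Matrix.mul_assoc, ih (fun z hz => h z (Nat.lt_succ_of_lt hz)),
      h r (Nat.lt_succ_self r)]

/-- contraction of the powers off the kernel -/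
theorem detect_pow (r : ℕ) (h : ℕ → Matrix N N ℂ) {J Δ : ℝ} (hJ : 0 < J) (hΔ : 0 < Δ)
    (hh : ∀ z < r, (h z).IsHermitian ∧ (∀ ψ, 0 ≤ en (h z) ψ) ∧ OpNormLe (h z) J) (g : ℕ)
    (hg0 : 1 ≤ g)
    (hg : ∀ z < r, ((range r).filter (fun j => j = z ∨ h z * h j ≠ h j * h z)).card ≤ g)
    (hgap : ∀ ψ, Δ * en (∑ z ∈ range r, h z) ψ ≤ nsq ((∑ z ∈ range r, h z) *ᵥ ψ))
    (M : ℕ) (ψ : N → ℂ) (hψ : kpr (∑ z ∈ range r, h z) *ᵥ ψ = 0) :
    nsq ((prR (fun z => 1 - ((J⁻¹ : ℝ) : ℂ) • h z) r) ^ M *ᵥ ψ) ≤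
      (1 + Δ / (J * (g : ℝ) ^ 2))⁻¹ ^ M * nsq ψ := by
  have hH := na_d_herm_sum r h (fun z hz => (hh z hz).1)
  have hpos : ∀ φ : N → ℂ, 0 ≤ en (∑ z ∈ range r, h z) φ := by
    intro φ
    rw [na_d_en_sum]
    exact Finset.sum_nonneg (fun z hz => (hh z (Finset.mem_range.mp hz)).2.1 φ)
  set T := prR (fun z => 1 - ((J⁻¹ : ℝ) : ℂ) • h z) r with hT
  have hPT : kpr (∑ z ∈ range r, h z) * T = kpr (∑ z ∈ range r, h z) := by
    refine na_d_kpr_prR _ _ r (fun z hz => ?_)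
    rw [Matrix.mul_sub, Matrix.mul_one, Matrix.mul_smul,
      na_d_kpr_term r h (fun z hz => ⟨(hh z hz).1, (hh z hz).2.1⟩) hz, smul_zero, sub_zero]
  have hg1 : (0 : ℝ) < g := by exact_mod_cast hg0
  have hJg : 0 < J * (g : ℝ) ^ 2 := by positivity
  have hx : 0 < 1 + Δ / (J * (g : ℝ) ^ 2) := by positivity
  -- one step
  have hone : ∀ φ : N → ℂ, kpr (∑ z ∈ range r, h z) *ᵥ φ = 0 →
      nsq (T *ᵥ φ) ≤ (1 + Δ / (J * (g : ℝ) ^ 2))⁻¹ * nsq φ := by
    intro φ hφ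
    have h1 := detect r h hJ hh g hg φ
    rw [← hT, ← na_d_en_sum] at h1
    have h2 := kpr_gap hH hpos hΔ hgap (T *ᵥ φ)
    have h3 : kpr (∑ z ∈ range r, h z) *ᵥ (T *ᵥ φ) = 0 := by
      rw [mulVec_mulVec, hPT, hφ]
    have h4 : nsq (0 : N → ℂ) = 0 := by simp [nsq]
    rw [h3, h4, sub_zero] at h2
    have h5 : Δ * nsq (T *ᵥ φ) ≤ J * (g : ℝ) ^ 2 * (nsq φ - nsq (T *ᵥ φ)) := h2.trans h1
    rw [inv_mul_eq_div, le_div_iff₀ hx]
    have h6 : Δ / (J * (g : ℝ) ^ 2) * nsq (T *ᵥ φ) ≤ nsq φ - nsq (T *ᵥ φ) := by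
      rw [div_mul_eq_mul_div, div_le_iff₀ hJg]
      linarith
    nlinarith
  -- iteration
  have hiter : ∀ M : ℕ, kpr (∑ z ∈ range r, h z) *ᵥ (T ^ M *ᵥ ψ) = 0 ∧
      nsq (T ^ M *ᵥ ψ) ≤ (1 + Δ / (J * (g : ℝ) ^ 2))⁻¹ ^ M * nsq ψ := by
    intro M
    induction M with
    | zero =>
      rw [pow_zero, one_mulVec, pow_zero, one_mul]
      exact ⟨hψ, le_rfl⟩
    | succ M ih =>
      have h1 : T ^ (M + 1) *ᵥ ψ = T *ᵥ (T ^ M *ᵥ ψ) := by
        rw [mulVec_mulVec, pow_succ']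
      refine ⟨?_, ?_⟩
      · rw [h1, mulVec_mulVec, hPT, ih.1]
      · rw [h1, pow_succ', mul_assoc]
        refine (hone _ ih.1).trans ?_
        exact mul_le_mul_of_nonneg_left ih.2 (inv_nonneg.mpr hx.le)
  exact (hiter M).2

end D

end Vale.Agent.P356.NA
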