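import Vale.Agent.P356.NA.Defs

set_option linter.all false

/-!
Operator norm calculus for ordered products.
-/

namespace Vale.Agent.P356.NA

open Matrix Finset Vale.Agent.P356 Vale.Agent.P356.SV Vale.Agent.P356.Path
open scoped BigOperators ComplexOrder Kronecker

section norms
variable {N : Type*} [Fintype N]

theorem j_op_iff {A : Matrix N N ℂ} {a : ℝ} (ha : 0 ≤ a) :
    OpNormLe A a ↔ ∀ ψ, nrm (A *ᵥ ψ) ≤ a * nrm ψ := by
  constructor
  · intro h ψ
    have h1 := h ψ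
    have h2 : nrm (A *ᵥ ψ) ^ 2 ≤ (a * nrm ψ) ^ 2 := by
      rw [nrm_sq, mul_pow, nrm_sq]; exact h1
    exact (sq_le_sq₀ (nrm_nonneg _) (mul_nonneg ha (nrm_nonneg _))).mp h2
  · intro h ψ
    have h1 := h ψ
    have h2 : nrm (A *ᵥ ψ) ^ 2 ≤ (a * nrm ψ) ^ 2 :=
      (sq_le_sq₀ (nrm_nonneg _) (mul_nonneg ha (nrm_nonneg _))).mpr h1
    rw [nrm_sq, mul_pow, nrm_sq] at h2
    exact h2

theorem j_op_mono {A : Matrix N N ℂ} {a b : ℝ} (ha : 0 ≤ a) (hab : a ≤ b) (h : OpNormLe A a) :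
    OpNormLe A b := by
  intro ψ
  refine (h ψ).trans ?_
  have := nsq_nonneg' ψ
  have h2 : a ^ 2 ≤ b ^ 2 := pow_le_pow_left₀ ha hab 2
  exact mul_le_mul_of_nonneg_right h2 this

theorem j_op_add {A B : Matrix N N ℂ} {a b : ℝ} (ha : 0 ≤ a) (hb : 0 ≤ b) (hA : OpNormLe A a)
    (hB : OpNormLe B b) : OpNormLe (A + B) (a + b) := by
  rw [j_op_iff (add_nonneg ha hb)]
  intro ψ
  rw [add_mulVec]
  refine (nrm_add_le _ _).trans ?_
  have h1 := (j_op_iff ha).mp hA ψ
  have h2 := (j_op_iff hb).mp hB ψ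
  rw [add_mul]
  exact add_le_add h1 h2

theorem j_op_mul {A B : Matrix N N ℂ} {a b : ℝ} (ha : 0 ≤ a) (hb : 0 ≤ b) (hA : OpNormLe A a)
    (hB : OpNormLe B b) : OpNormLe (A * B) (a * b) := by
  rw [j_op_iff (mul_nonneg ha hb)]
  intro ψ
  rw [← mulVec_mulVec]
  have h1 := (j_op_iff ha).mp hA (B *ᵥ ψ)
  have h2 := (j_op_iff hb).mp hB ψ
  refine h1.trans ?_
  rw [mul_assoc]
  exact mul_le_mul_of_nonneg_left h2 ha

theorem j_op_neg {A : Matrix N N ℂ} {a : ℝ} (hA : OpNormLe A a) : OpNormLe (-A) a := by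
  intro ψ
  have h : nsq (-A *ᵥ ψ) = nsq (A *ᵥ ψ) := by
    rw [neg_mulVec]; simp only [nsq, Pi.neg_apply, norm_neg]
  rw [h]; exact hA ψ

theorem j_op_sub_comm {A B : Matrix N N ℂ} {a : ℝ} (h : OpNormLe (A - B) a) :
    OpNormLe (B - A) a := by
  have := j_op_neg h
  rwa [neg_sub] at this

theorem j_op_zero {a : ℝ} : OpNormLe (0 : Matrix N N ℂ) a := by
  intro ψ
  rw [zero_mulVec]
  have : nsq (0 : N → ℂ) = 0 := by simp [nsq]
  rw [this]
  exact mul_nonneg (sq_nonneg _) (nsq_nonneg' ψ)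

variable [DecidableEq N]

theorem j_op_one : OpNormLe (1 : Matrix N N ℂ) 1 := by
  intro ψ
  rw [one_mulVec, one_pow, one_mul]

theorem j_op_isPr {P : Matrix N N ℂ} (hP : IsPr P) : OpNormLe P 1 := by
  intro ψ
  rw [one_pow, one_mul]
  exact contr_of_isPr hP ψ

theorem j_prR_contr {X : ℕ → Matrix N N ℂ} {M : ℕ} (h : ∀ i < M, OpNormLe (X i) 1) :
    OpNormLe (prR X M) 1 := by
  induction M with
  | zero => exact j_op_one
  | succ M ih =>
    rw [prR]
    have := j_op_mul zero_le_one zero_le_one (ih fun i hi => h i (Nat.lt_succ_of_lt hi))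
      (h M (Nat.lt_succ_self M))
    rwa [mul_one] at this

theorem j_prR_diff {X Y : ℕ → Matrix N N ℂ} {M : ℕ} {ε : ℝ} (hε : 0 ≤ ε)
    (hX : ∀ i < M, OpNormLe (X i) 1) (hY : ∀ i < M, OpNormLe (Y i) 1)
    (h : ∀ i < M, OpNormLe (X i - Y i) ε) : OpNormLe (prR X M - prR Y M) (M * ε) := by
  induction M with
  | zero =>
    rw [prR, prR, sub_self]
    exact j_op_zero
  | succ M ih =>
    have h1 := ih (fun i hi => hX i (Nat.lt_succ_of_lt hi)) (fun i hi => hY i (Nat.lt_succ_of_lt hi))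
      (fun i hi => h i (Nat.lt_succ_of_lt hi))
    have e : prR X (M + 1) - prR Y (M + 1) =
        (prR X M - prR Y M) * X M + prR Y M * (X M - Y M) := by
      rw [prR, prR]
      noncomm_ring
    rw [e]
    have h2 := j_op_mul (by positivity) zero_le_one h1 (hX M (Nat.lt_succ_self M))
    have h3 := j_op_mul zero_le_one hε
      (j_prR_contr (fun i hi => hY i (Nat.lt_succ_of_lt hi))) (h M (Nat.lt_succ_self M))
    have h4 := j_op_add (by positivity) (by positivity) h2 h3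
    refine j_op_mono (by positivity) (le_of_eq ?_) h4
    push_cast
    ring

end norms

end Vale.Agent.P356.NA
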