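import Vale.Agent.P356.NA.ExKa
import Vale.Agent.P356.NA.SpecPow

set_option linter.all false

/-!
Facts on the restricted Hamiltonians.
-/

namespace Vale.Agent.P356.NA

open Matrix Finset Vale.Agent.P356 Vale.Agent.P356.SV Vale.Agent.P356.Path
open scoped BigOperators ComplexOrder Kronecker

section gro
variable {N : Type} [Fintype N] [DecidableEq N] {α β : ℕ → Type}
  [∀ k, Fintype (α k)] [∀ k, DecidableEq (α k)] [∀ k, Fintype (β k)] [∀ k, DecidableEq (β k)]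

theorem j_good_mono {e : ∀ k, N ≃ α k × β k} {θ : ℕ → ℝ} {n : ℕ} {m : ℝ} {χ : N → ℂ} {c c' : ℝ}
    (h : Good e θ n m χ c) (hc : c ≤ c') : Good e θ n m χ c' := by
  obtain ⟨π, hπ, h1⟩ := h
  exact ⟨π, hπ, h1.trans (Real.exp_le_exp.mpr hc)⟩

theorem j_gro_mono {e : ∀ k, N ≃ α k × β k} {θ : ℕ → ℝ} {n : ℕ} {m : ℝ} {M : Matrix N N ℂ}
    {g g' : ℝ} (h : Gro e θ n m M g) (hg : g ≤ g') : Gro e θ n m M g' := by
  intro χ c hχ
  exact j_good_mono (h χ c hχ) (by linarith)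

theorem j_gro_pow {e : ∀ k, N ≃ α k × β k} {θ : ℕ → ℝ} {n : ℕ} {m : ℝ} {M : Matrix N N ℂ}
    {g : ℝ} (h : Gro e θ n m M g) (a : ℕ) : Gro e θ n m (M ^ a) (a * g) := by
  induction a with
  | zero =>
    intro χ c hχ
    rw [pow_zero, one_mulVec]
    exact j_good_mono hχ (by simp)
  | succ a ih =>
    intro χ c hχ
    rw [pow_succ', ← mulVec_mulVec]
    exact j_good_mono (h _ _ (ih χ c hχ)) (by push_cast; linarith)

theorem j_rep_one {e : ∀ k, N ≃ α k × β k} {θ : ℕ → ℝ} {n : ℕ} {m : ℝ} {M : Matrix N N ℂ}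
    {g : ℝ} (h : Gro e θ n m M g) : Rep e θ n m M 1 g := by
  refine ⟨1, fun _ => M, fun _ => 1, by norm_num, fun i => ⟨by norm_num, h⟩, ?_⟩
  simp

theorem j_rep_sub {e : ∀ k, N ≃ α k × β k} {θ : ℕ → ℝ} {n : ℕ} {m : ℝ} {M M' : Matrix N N ℂ}
    {g : ℝ} (h : Gro e θ n m M g) (h' : Gro e θ n m M' g) : Rep e θ n m (M - M') 2 g := by
  refine ⟨2, ![M, M'], ![1, -1], by norm_num, ?_, ?_⟩
  · intro i
    fin_cases i
    · exact ⟨by simp, h⟩
    · exact ⟨by simp, h'⟩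
  · rw [Fin.sum_univ_two]
    simp [sub_eq_add_neg]

end gro

section HB
variable {L q R : ℕ} {J Δ : ℝ} {h : Finset (Site L) → Op (Site L) q} {Ω : Conf (Site L) q → ℂ}

theorem j_HB_herm (hF : FFLG L q R J Δ h Ω) (B : Finset (Site L)) : (HB h B).IsHermitian := by
  unfold HB
  have : (∑ X ∈ Finset.univ.filter (fun X : Finset (Site L) => X ⊆ B), h X)ᴴ =
      ∑ X ∈ Finset.univ.filter (fun X : Finset (Site L) => X ⊆ B), h X := by
    rw [conjTranspose_sum]
    exact Finset.sum_congr rfl fun X _ => hF.herm X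
  exact this

theorem j_en_sum {N ι : Type*} [Fintype N] (s : Finset ι) (A : ι → Matrix N N ℂ) (ψ : N → ℂ) :
    en (∑ i ∈ s, A i) ψ = ∑ i ∈ s, en (A i) ψ := by
  unfold en
  rw [Matrix.sum_mulVec, dotProduct_sum, Complex.re_sum]

theorem j_HB_pos (hF : FFLG L q R J Δ h Ω) (B : Finset (Site L)) (ψ : Conf (Site L) q → ℂ) :
    0 ≤ en (HB h B) ψ := by
  unfold HB
  rw [j_en_sum]
  exact Finset.sum_nonneg fun X _ => hF.pos X ψ

theorem j_HB_free (hF : FFLG L q R J Δ h Ω) (B : Finset (Site L)) : HB h B *ᵥ Ω = 0 := by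
  unfold HB
  rw [Matrix.sum_mulVec]
  exact Finset.sum_eq_zero fun X _ => hF.free X

theorem j_op_sum {N ι : Type*} [Fintype N] (s : Finset ι) (A : ι → Matrix N N ℂ) {a : ℝ}
    (ha : 0 ≤ a) (h : ∀ i ∈ s, OpNormLe (A i) a) : OpNormLe (∑ i ∈ s, A i) (s.card * a) := by
  classical
  induction s using Finset.induction_on with
  | empty => rw [Finset.sum_empty]; exact j_op_zero
  | insert i s hi ih =>
    rw [Finset.sum_insert hi, Finset.card_insert_of_notMem hi]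
    have h1 := j_op_add ha (by positivity) (h i (Finset.mem_insert_self i s))
      (ih fun j hj => h j (Finset.mem_insert_of_mem hj))
    refine j_op_mono (by positivity) (le_of_eq ?_) h1
    push_cast
    ring

theorem j_HB_norm (hJ : 0 ≤ J) (hF : FFLG L q R J Δ h Ω) (B : Finset (Site L)) :
    OpNormLe (HB h B) (Fintype.card (Finset (Site L)) * J) := by
  unfold HB
  have h1 := j_op_sum (Finset.univ.filter (fun X : Finset (Site L) => X ⊆ B)) h hJ
    (fun X _ => hF.norm X)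
  refine j_op_mono (by positivity) ?_ h1
  refine mul_le_mul_of_nonneg_right ?_ hJ
  exact_mod_cast Finset.card_le_univ _

/-- the kernel of the whole Hamiltonian is spanned by the ground state -/
theorem j_kpr_univ (hF : FFLG L q R J Δ h Ω) {ψ : Conf (Site L) q → ℂ}
    (hψ : star Ω ⬝ᵥ ψ = 0) : kpr (HB h Finset.univ) *ᵥ ψ = 0 := by
  have hH := j_HB_herm hF Finset.univ
  have hP := kpr_isPr hH
  set P := kpr (HB h Finset.univ) with hPdef
  have hPΩ : P *ᵥ Ω = Ω := kpr_of_ker hH (j_HB_free hF _)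
  have hker : HB h Finset.univ *ᵥ (P *ᵥ ψ) = 0 := by
    rw [mulVec_mulVec, hPdef, mul_kpr hH, zero_mulVec]
  have hX : ∀ X, h X *ᵥ (P *ᵥ ψ) = 0 := by
    intro X
    apply en_zero (hF.herm X) (hF.pos X)
    have h1 : en (HB h Finset.univ) (P *ᵥ ψ) = 0 := by
      unfold en
      rw [hker, dotProduct_zero, Complex.zero_re]
    unfold HB at h1
    rw [j_en_sum] at h1
    exact (Finset.sum_eq_zero_iff_of_nonneg (fun X _ => hF.pos X _)).mp h1 X
      (Finset.mem_filter.mpr ⟨Finset.mem_univ _, Finset.subset_univ _⟩)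
  obtain ⟨c, hc⟩ := hF.uniq _ hX
  have h1 : star Ω ⬝ᵥ (P *ᵥ ψ) = 0 := by
    have h2 : star (P *ᵥ Ω) ⬝ᵥ ψ = star Ω ⬝ᵥ (Pᴴ *ᵥ ψ) := ip_mulVec P Ω ψ
    rw [hP.2, hPΩ, hψ] at h2
    exact h2.symm
  rw [hc, dotProduct_smul, ip_self, hF.unit] at h1
  have : c = 0 := by simpa using h1
  rw [hc, this, zero_smul]

end HB

end Vale.Agent.P356.NA
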