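import Vale.Agent.P356.NA.Defs

/-!
Frustration free Hamiltonians with a local gap are admissible and gapped in the sense of the
problem file, with ground energy zero.
-/

set_option linter.all false

namespace Vale.Agent.P356.NA

open Matrix Finset Vale.Agent.P356 Vale.Agent.P356.SV Vale.Agent.P356.Path
open scoped BigOperators ComplexOrder Kronecker

theorem rect_univ679 (L : ℕ) : rect L 0 L 0 L = (Finset.univ : Finset (Site L)) := by
  ext p
  simp [rect]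

theorem HB_univ679 {L q : ℕ} (h : Finset (Site L) → Op (Site L) q) :
    HB h Finset.univ = ∑ X, h X := by
  unfold HB
  congr 1
  ext X
  simp

section spec
variable {N : Type*} [Fintype N] [DecidableEq N]

/-- a Hermitian matrix with nonnegative form and `Δ H ≤ H²` is at least `Δ` on the complement of
its kernel -/
theorem gap_spec679 {H : Matrix N N ℂ} (hH : H.IsHermitian) {Δ : ℝ} (hΔ : 0 < Δ)
    (hpos : ∀ ψ : N → ℂ, 0 ≤ (star ψ ⬝ᵥ (H *ᵥ ψ)).re)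
    (hgap : ∀ ψ : N → ℂ, Δ * (star ψ ⬝ᵥ (H *ᵥ ψ)).re ≤ nsq (H *ᵥ ψ))
    (φ : N → ℂ) (hφ : ∀ ψ : N → ℂ, H *ᵥ ψ = 0 → star ψ ⬝ᵥ φ = 0) :
    Δ * nsq φ ≤ (star φ ⬝ᵥ (H *ᵥ φ)).re := by
  classical
  set U : Matrix N N ℂ := (hH.eigenvectorUnitary : Matrix N N ℂ) with hU
  have hU1 : U * Uᴴ = 1 := by
    have := hH.eigenvectorUnitary.2
    rw [Matrix.mem_unitaryGroup_iff] at this
    exact this
  have hU2 : Uᴴ * U = 1 := mul_eq_one_comm.mp hU1
  have hd : Uᴴ * H * U = diagonal (fun i => (hH.eigenvalues i : ℂ)) := by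
    have := hH.conjStarAlgAut_star_eigenvectorUnitary
    rw [Unitary.conjStarAlgAut_star_apply] at this
    exact this
  -- the eigenvectors
  have hcol : ∀ i, H *ᵥ (U *ᵥ Pi.single i 1) =
      (hH.eigenvalues i : ℂ) • (U *ᵥ Pi.single i 1) := by
    intro i
    have h1 : H * U = U * diagonal (fun i => (hH.eigenvalues i : ℂ)) := by
      rw [← hd, ← Matrix.mul_assoc, ← Matrix.mul_assoc, hU1, Matrix.one_mul]
    rw [mulVec_mulVec, h1, ← mulVec_mulVec, ← mulVec_smul]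
    congr 1
    funext j
    rw [mulVec_diagonal]
    by_cases hj : j = i
    · subst hj
      simp
    · simp [Pi.single_eq_of_ne hj]
  have hunit : ∀ i, star (U *ᵥ Pi.single i (1 : ℂ)) ⬝ᵥ (U *ᵥ Pi.single i 1) = 1 := by
    intro i
    rw [star_mulVec, ← dotProduct_mulVec, mulVec_mulVec, hU2, one_mulVec]
    simp
  have hnu : ∀ i, nsq (U *ᵥ Pi.single i (1 : ℂ)) = 1 := by
    intro i
    have h1 := ip_self_re (U *ᵥ Pi.single i (1 : ℂ))
    rw [hunit i] at h1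
    simpa using h1.symm
  have hen : ∀ i, (star (U *ᵥ Pi.single i (1 : ℂ)) ⬝ᵥ (H *ᵥ (U *ᵥ Pi.single i 1))).re =
      hH.eigenvalues i := by
    intro i
    rw [hcol i, dotProduct_smul, hunit i]
    simp
  have hl0 : ∀ i, 0 ≤ hH.eigenvalues i := fun i => (hpos _).trans (le_of_eq (hen i))
  have hl1 : ∀ i, hH.eigenvalues i ≠ 0 → Δ ≤ hH.eigenvalues i := by
    intro i hi
    have h1 := hgap (U *ᵥ Pi.single i (1 : ℂ))
    rw [hen i, hcol i, nsq_smul, hnu i, mul_one, Complex.norm_real, Real.norm_eq_abs, sq_abs,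
      sq] at h1
    exact le_of_mul_le_mul_right h1 (lt_of_le_of_ne (hl0 i) (Ne.symm hi))
  -- coordinates
  have hH2 : H = U * diagonal (fun i => (hH.eigenvalues i : ℂ)) * Uᴴ := by
    rw [← hd]
    calc H = (U * Uᴴ) * H * (U * Uᴴ) := by rw [hU1, Matrix.one_mul, Matrix.mul_one]
      _ = _ := by simp only [Matrix.mul_assoc]
  have hv0 : ∀ i, hH.eigenvalues i = 0 → (Uᴴ *ᵥ φ) i = 0 := by
    intro i hi
    have h1 := hφ (U *ᵥ Pi.single i 1) (by rw [hcol i, hi]; simp)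
    rw [star_mulVec, ← dotProduct_mulVec] at h1
    simpa using h1
  have he : (star φ ⬝ᵥ (H *ᵥ φ)).re = ∑ i, hH.eigenvalues i * ‖(Uᴴ *ᵥ φ) i‖ ^ 2 := by
    have h1 : star φ ⬝ᵥ (H *ᵥ φ) =
        star (Uᴴ *ᵥ φ) ⬝ᵥ (diagonal (fun i => (hH.eigenvalues i : ℂ)) *ᵥ (Uᴴ *ᵥ φ)) := by
      conv_lhs => rw [hH2]
      rw [← mulVec_mulVec, ← mulVec_mulVec, star_mulVec, conjTranspose_conjTranspose,
        ← dotProduct_mulVec]
    rw [h1, dotProduct, Complex.re_sum]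
    refine Finset.sum_congr rfl fun i _ => ?_
    rw [mulVec_diagonal, Pi.star_apply, mul_left_comm, Complex.star_def,
      Complex.conj_mul', ← Complex.ofReal_pow, ← Complex.ofReal_mul, Complex.ofReal_re]
  have hn : nsq φ = ∑ i, ‖(Uᴴ *ᵥ φ) i‖ ^ 2 := by
    have h1 : star (Uᴴ *ᵥ φ) ⬝ᵥ (Uᴴ *ᵥ φ) = star φ ⬝ᵥ φ := by
      rw [star_mulVec, conjTranspose_conjTranspose, ← dotProduct_mulVec, mulVec_mulVec, hU1,
        one_mulVec]
    have h2 := ip_self_re (Uᴴ *ᵥ φ)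
    rw [h1, ip_self_re] at h2
    exact h2
  rw [he, hn, Finset.mul_sum]
  refine Finset.sum_le_sum fun i _ => ?_
  by_cases hi : hH.eigenvalues i = 0
  · rw [hv0 i hi]
    simp
  · exact mul_le_mul_of_nonneg_right (hl1 i hi) (sq_nonneg _)

end spec

section lattice
variable {L q R : ℕ} {J Δ : ℝ} {h : Finset (Site L) → Op (Site L) q} {Ω : Conf (Site L) q → ℂ}

theorem FFLG.admissible679 (hF : FFLG L q R J Δ h Ω) : Admissible L q R J (∑ X, h X) :=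
  ⟨h, fun X => ⟨hF.herm X, hF.loc X, hF.norm X, hF.range X⟩, rfl⟩

theorem FFLG.sum_ker679 (hF : FFLG L q R J Δ h Ω) : (∑ X, h X) *ᵥ Ω = 0 := by
  rw [sum_mulVec]
  exact Finset.sum_eq_zero fun X _ => hF.free X

theorem FFLG.sum_pos679 (hF : FFLG L q R J Δ h Ω) (ψ : Conf (Site L) q → ℂ) :
    0 ≤ (star ψ ⬝ᵥ ((∑ X, h X) *ᵥ ψ)).re := by
  rw [sum_mulVec, dotProduct_sum, Complex.re_sum]
  exact Finset.sum_nonneg fun X _ => hF.pos X ψ

/-- the kernel of a term: zero expectation means zero -/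
theorem psd_zero679 {N : Type*} [Fintype N] [DecidableEq N] {H : Matrix N N ℂ}
    (hH : H.IsHermitian) (hpos : ∀ ψ : N → ℂ, 0 ≤ (star ψ ⬝ᵥ (H *ᵥ ψ)).re) {ψ : N → ℂ}
    (h0 : (star ψ ⬝ᵥ (H *ᵥ ψ)).re = 0) : H *ᵥ ψ = 0 := by
  set χ := H *ᵥ ψ with hχ
  have hsym : star χ ⬝ᵥ χ = star ψ ⬝ᵥ (H *ᵥ χ) := by
    rw [hχ, star_mulVec, hH.eq, ← dotProduct_mulVec]
  have hexp : ∀ t : ℝ, (star (ψ + (t : ℂ) • χ) ⬝ᵥ (H *ᵥ (ψ + (t : ℂ) • χ))).re =
      2 * t * nsq χ + t ^ 2 * (star χ ⬝ᵥ (H *ᵥ χ)).re := by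
    intro t
    have e1 : star (ψ + (t : ℂ) • χ) ⬝ᵥ (H *ᵥ (ψ + (t : ℂ) • χ)) =
        star ψ ⬝ᵥ χ + (t : ℂ) * (star χ ⬝ᵥ χ) + (t : ℂ) * (star χ ⬝ᵥ χ) +
          (t : ℂ) ^ 2 * (star χ ⬝ᵥ (H *ᵥ χ)) := by
      rw [mulVec_add, mulVec_smul, ← hχ, star_add, star_smul, add_dotProduct, dotProduct_add,
        dotProduct_add, smul_dotProduct, smul_dotProduct, dotProduct_smul, dotProduct_smul,
        ← hsym]
      simp only [Complex.star_def, Complex.conj_ofReal, smul_eq_mul]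
      ring
    rw [e1, ip_self]
    simp only [Complex.add_re, ← Complex.ofReal_mul, Complex.ofReal_re, ← Complex.ofReal_pow,
      Complex.re_ofReal_mul]
    rw [h0]
    ring
  have hq := fun t : ℝ => (hpos (ψ + (t : ℂ) • χ)).trans (le_of_eq (hexp t))
  set a := nsq χ with ha
  set b := (star χ ⬝ᵥ (H *ᵥ χ)).re with hb
  have ha0 : 0 ≤ a := nsq_nonneg' χ
  have hb0 : 0 ≤ b := hpos χ
  have ha1 : a = 0 := by
    by_contra hne
    have hap : 0 < a := lt_of_le_of_ne ha0 (Ne.symm hne)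
    have h1 := hq (-(a / (b + 1)))
    have h2 : 2 * -(a / (b + 1)) * a + (-(a / (b + 1))) ^ 2 * b =
        (a ^ 2 / (b + 1)) * (b / (b + 1) - 2) := by
      field_simp
      ring
    rw [h2] at h1
    have h3 : b / (b + 1) ≤ 1 := by
      rw [div_le_one (by linarith)]
      linarith
    have h4 : 0 < a ^ 2 / (b + 1) := by positivity
    nlinarith
  have h5 : ∀ i, χ i = 0 := by
    intro i
    have h6 := (Finset.sum_eq_zero_iff_of_nonneg (fun i _ => sq_nonneg ‖χ i‖)).mp ha1 i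
      (Finset.mem_univ i)
    simpa using h6
  exact funext h5

theorem FFLG.ker679 (hF : FFLG L q R J Δ h Ω) {ψ : Conf (Site L) q → ℂ}
    (hψ : (∑ X, h X) *ᵥ ψ = 0) : ∃ c : ℂ, ψ = c • Ω := by
  refine hF.uniq ψ fun X => psd_zero679 (hF.herm X) (hF.pos X) ?_
  have h1 : ∑ X, (star ψ ⬝ᵥ (h X *ᵥ ψ)).re = 0 := by
    rw [← Complex.re_sum, ← dotProduct_sum, ← sum_mulVec, hψ]
    simp
  exact (Finset.sum_eq_zero_iff_of_nonneg fun X _ => hF.pos X ψ).mp h1 X (Finset.mem_univ X)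

theorem FFLG.gapped679 (hΔ : 0 < Δ) (hF : FFLG L q R J Δ h Ω) :
    GappedGround (∑ X, h X) Δ 0 Ω := by
  have hHH : (∑ X, h X).IsHermitian := by
    rw [Matrix.IsHermitian, conjTranspose_sum]
    exact Finset.sum_congr rfl fun X _ => hF.herm X
  refine ⟨hF.unit, ?_, fun ψ => ?_⟩
  · rw [hF.sum_ker679]
    simp
  · set c : ℂ := star Ω ⬝ᵥ ψ with hc
    have hort : star Ω ⬝ᵥ (ψ - c • Ω) = 0 := by
      rw [dotProduct_sub, ← hc, dotProduct_smul, ip_self, hF.unit]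
      simp
    have hgap : ∀ φ : Conf (Site L) q → ℂ,
        Δ * (star φ ⬝ᵥ ((∑ X, h X) *ᵥ φ)).re ≤ nsq ((∑ X, h X) *ᵥ φ) := by
      intro φ
      have h1 := hF.gap 0 L 0 L φ
      rwa [rect_univ679, HB_univ679] at h1
    have h1 := gap_spec679 hHH hΔ hF.sum_pos679 hgap (ψ - c • Ω) (fun φ hφ => by
      obtain ⟨d, rfl⟩ := hF.ker679 hφ
      rw [star_smul, smul_dotProduct, hort, smul_zero])
    have h2 : nsq (ψ - c • Ω) = nsq ψ - ‖c‖ ^ 2 := by
      have h3 := nsq_add (c • Ω) (ψ - c • Ω)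
      have h4 : c • Ω + (ψ - c • Ω) = ψ := by abel
      rw [h4, star_smul, smul_dotProduct, hort, smul_zero, nsq_smul, hF.unit] at h3
      simp at h3
      linarith
    have h5 : (∑ X, h X) *ᵥ (ψ - c • Ω) = (∑ X, h X) *ᵥ ψ := by
      rw [mulVec_sub, mulVec_smul, hF.sum_ker679, smul_zero, sub_zero]
    have h6 : star Ω ⬝ᵥ ((∑ X, h X) *ᵥ ψ) = 0 := by
      have h7 : star Ω ⬝ᵥ ((∑ X, h X) *ᵥ ψ) = star ((∑ X, h X) *ᵥ Ω) ⬝ᵥ ψ := by
        rw [star_mulVec, hHH.eq, ← dotProduct_mulVec]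
      rw [h7, hF.sum_ker679]
      simp
    have h8 : star (ψ - c • Ω) ⬝ᵥ ((∑ X, h X) *ᵥ (ψ - c • Ω)) =
        star ψ ⬝ᵥ ((∑ X, h X) *ᵥ ψ) := by
      rw [h5, star_sub, sub_dotProduct, star_smul, smul_dotProduct, h6, smul_zero, sub_zero]
    rw [h8, h2] at h1
    linarith

end lattice

end Vale.Agent.P356.NA
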