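import Vale.Agent.P356.NA.Low

set_option linter.all false

/-!
Existence of a good cut: commuting enlargements of projections.
-/

namespace Vale.Agent.P356.NA

open Matrix Finset Vale.Agent.P356 Vale.Agent.P356.SV Vale.Agent.P356.Path
open scoped BigOperators ComplexOrder Kronecker

section pr
variable {a : Type*} [Fintype a] [DecidableEq a]

/-- support projection of a Hermitian matrix, with a one sided inverse -/
theorem na_c_supp {Z : Matrix a a ℂ} (hH : Z.IsHermitian) :
    ∃ F W : Matrix a a ℂ, IsPr F ∧ F * Z = Z ∧ F = Z * W ∧ F.trace.re = Z.rank := by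
  classical
  set U : Matrix a a ℂ := (hH.eigenvectorUnitary : Matrix a a ℂ) with hU
  have hU1 : U * Uᴴ = 1 := by
    have := hH.eigenvectorUnitary.2
    rw [Matrix.mem_unitaryGroup_iff] at this
    exact this
  have hU2 : Uᴴ * U = 1 := mul_eq_one_comm.mp hU1
  have hd : Uᴴ * Z * U = diagonal (fun i => (hH.eigenvalues i : ℂ)) := by
    have := hH.conjStarAlgAut_star_eigenvectorUnitary
    rw [Unitary.conjStarAlgAut_star_apply] at this
    exact this
  have hQs : Z = dOp U hH.eigenvalues := by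
    rw [dOp, ← hd]
    calc Z = (U * Uᴴ) * Z * (U * Uᴴ) := by rw [hU1, Matrix.one_mul, Matrix.mul_one]
      _ = _ := by simp only [Matrix.mul_assoc]
  set b : a → ℝ := fun i => if hH.eigenvalues i = 0 then 0 else 1 with hb
  have hbb : ∀ i, b i * b i = b i := by
    intro i
    simp only [hb]
    split_ifs <;> norm_num
  have hE : IsPr (dOp U b) := by
    refine ⟨?_, dOp_herm U b⟩
    rw [dOp_mul hU1]
    congr 1
    funext i
    exact hbb i
  have hEZ : dOp U b * Z = Z := by
    conv_rhs => rw [hQs]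
    conv_lhs => rw [hQs]
    rw [dOp_mul hU1]
    congr 1
    funext i
    simp only [hb]
    split_ifs with h
    · rw [h, mul_zero]
    · rw [one_mul]
  have hW : dOp U b = Z * dOp U (fun i => (hH.eigenvalues i)⁻¹) := by
    have e1 : Z * dOp U (fun i => (hH.eigenvalues i)⁻¹) =
        dOp U hH.eigenvalues * dOp U (fun i => (hH.eigenvalues i)⁻¹) :=
      congrArg (fun M => M * dOp U (fun i => (hH.eigenvalues i)⁻¹)) hQs
    rw [e1, dOp_mul hU1]
    congr 1
    funext i
    simp only [hb]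
    split_ifs with h
    · rw [h, zero_mul]
    · rw [mul_inv_cancel₀ h]
  refine ⟨dOp U b, _, hE, hEZ, hW, ?_⟩
  have h2 := hH.rank_eq_card_non_zero_eigs
  rw [h2]
  have h3 : (dOp U b).trace.re = ∑ i, b i := by
    rw [dOp, Matrix.trace_mul_comm, ← Matrix.mul_assoc, hU2, Matrix.one_mul,
      Matrix.trace_diagonal, Complex.re_sum]
    simp only [Complex.ofReal_re]
  rw [h3, Fintype.card_subtype, Finset.card_filter]
  push_cast
  refine Finset.sum_congr rfl fun i _ => ?_
  simp only [hb]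
  by_cases h : hH.eigenvalues i = 0
  · simp [h]
  · simp [h]

/-- Hermitian matrices which commute with `Z` commute with its support -/
theorem na_c_comm {Z F W : Matrix a a ℂ} (hF : IsPr F) (hFZ : F * Z = Z) (hW : F = Z * W)
    {A : Matrix a a ℂ} (hA : Aᴴ = A) (hAZ : A * Z = Z * A) : A * F = F * A := by
  have h1 : A * F = F * A * F := by
    calc A * F = A * (Z * W) := by rw [← hW]
      _ = Z * A * W := by rw [← Matrix.mul_assoc, hAZ]
      _ = F * Z * A * W := by rw [hFZ]
      _ = F * (Z * A) * W := by simp only [Matrix.mul_assoc]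
      _ = F * A * (Z * W) := by rw [← hAZ]; simp only [Matrix.mul_assoc]
      _ = F * A * F := by rw [← hW]
  have h2 := congrArg conjTranspose h1
  rw [conjTranspose_mul, conjTranspose_mul, conjTranspose_mul, hF.2, hA] at h2
  rw [h1, Matrix.mul_assoc]
  exact h2.symm

/-- one step of the enlargement -/
theorem na_c_step {E G : Matrix a a ℂ} (hE : IsPr E) (hG : IsPr G) :
    ∃ F : Matrix a a ℂ, IsPr F ∧ F * E = E ∧ F.trace.re ≤ 2 * E.trace.re ∧ F * G = G * F ∧
      ∀ A : Matrix a a ℂ, Aᴴ = A → A * E = E * A → A * G = G * A → A * F = F * A := by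
  set G' := 1 - G with hG'
  have hGc := na_g_pr_compl hG
  rw [← hG'] at hGc
  have hGG' : G * G' = 0 := by rw [hG', Matrix.mul_sub, Matrix.mul_one, hG.1, sub_self]
  have hG'G : G' * G = 0 := by rw [hG', Matrix.sub_mul, Matrix.one_mul, hG.1, sub_self]
  set Z := G * E * G + G' * E * G' with hZ
  have hZH : Z.IsHermitian := by
    show Zᴴ = Z
    rw [hZ, conjTranspose_add, conjTranspose_mul, conjTranspose_mul, conjTranspose_mul,
      conjTranspose_mul, hE.2, hG.2, hGc.2]
    simp only [Matrix.mul_assoc]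
  obtain ⟨F, W, hF, hFZ, hW, hFt⟩ := na_c_supp hZH
  have h0 : ((1 - F) * (G * E)) * ((1 - F) * (G * E))ᴴ +
      ((1 - F) * (G' * E)) * ((1 - F) * (G' * E))ᴴ = 0 := by
    rw [conjTranspose_mul, conjTranspose_mul, conjTranspose_mul, conjTranspose_mul, hE.2, hG.2,
      hGc.2]
    calc (1 - F) * (G * E) * (E * G * (1 - F)ᴴ) + (1 - F) * (G' * E) * (E * G' * (1 - F)ᴴ) =
        (1 - F) * (G * (E * E) * G) * (1 - F)ᴴ + (1 - F) * (G' * (E * E) * G') * (1 - F)ᴴ := by
          simp only [Matrix.mul_assoc]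
      _ = ((1 - F) * Z) * (1 - F)ᴴ := by
          rw [hE.1, hZ, Matrix.mul_add, Matrix.add_mul]
      _ = 0 := by rw [Matrix.sub_mul, Matrix.one_mul, hFZ, sub_self, Matrix.zero_mul]
  obtain ⟨h1, h2⟩ := na_g_two_zero h0
  have h3 : (1 - F) * E = 0 := by
    have : (1 - F) * E = (1 - F) * (G * E) + (1 - F) * (G' * E) := by
      rw [← Matrix.mul_add, ← Matrix.add_mul, hG']
      simp
    rw [this, h1, h2, add_zero]
  rw [Matrix.sub_mul, Matrix.one_mul, sub_eq_zero] at h3
  have hcomm : ∀ A : Matrix a a ℂ, Aᴴ = A → A * E = E * A → A * G = G * A → A * F = F * A := by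
    intro A hA hAE hAG
    refine na_c_comm hF hFZ hW hA ?_
    have hAG' : A * G' = G' * A := by
      rw [hG', Matrix.mul_sub, Matrix.sub_mul, Matrix.mul_one, Matrix.one_mul, hAG]
    rw [hZ, Matrix.mul_add, Matrix.add_mul]
    congr 1
    · calc A * (G * E * G) = (A * G) * E * G := by simp only [Matrix.mul_assoc]
        _ = G * (A * E) * G := by rw [hAG]; simp only [Matrix.mul_assoc]
        _ = G * E * (A * G) := by rw [hAE]; simp only [Matrix.mul_assoc]
        _ = G * E * G * A := by rw [hAG]; simp only [Matrix.mul_assoc]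
    · calc A * (G' * E * G') = (A * G') * E * G' := by simp only [Matrix.mul_assoc]
        _ = G' * (A * E) * G' := by rw [hAG']; simp only [Matrix.mul_assoc]
        _ = G' * E * (A * G') := by rw [hAE]; simp only [Matrix.mul_assoc]
        _ = G' * E * G' * A := by rw [hAG']; simp only [Matrix.mul_assoc]
  refine ⟨F, hF, h3.symm, ?_, ?_, hcomm⟩
  · rw [hFt, na_g_trace_rank hE]
    have h4 := na_g_rank_add (G * E * G) (G' * E * G')
    have h5 : (G * E * G).rank ≤ E.rank :=
      (Matrix.rank_mul_le_left _ _).trans (Matrix.rank_mul_le_right _ _)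
    have h6 : (G' * E * G').rank ≤ E.rank :=
      (Matrix.rank_mul_le_left _ _).trans (Matrix.rank_mul_le_right _ _)
    rw [← hZ] at h4
    have h7 : Z.rank ≤ 2 * E.rank := by omega
    exact_mod_cast h7
  · refine (na_c_comm hF hFZ hW hG.2 ?_).symm
    rw [hZ, Matrix.mul_add, Matrix.add_mul]
    have e1 : G * (G * E * G) = G * E * G := by
      rw [← Matrix.mul_assoc, ← Matrix.mul_assoc, hG.1]
    have e2 : G * (G' * E * G') = 0 := by
      rw [← Matrix.mul_assoc, ← Matrix.mul_assoc, hGG', Matrix.zero_mul, Matrix.zero_mul]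
    have e3 : (G * E * G) * G = G * E * G := by rw [Matrix.mul_assoc, hG.1]
    have e4 : (G' * E * G') * G = 0 := by rw [Matrix.mul_assoc, hG'G, Matrix.mul_zero]
    rw [e1, e2, e3, e4]

/-- enlargement commuting with `r` commuting projections -/
theorem na_c_enl {E : Matrix a a ℂ} (hE : IsPr E) (G : ℕ → Matrix a a ℂ) (r : ℕ)
    (hG : ∀ i < r, IsPr (G i)) (hGG : ∀ i < r, ∀ j < r, G i * G j = G j * G i) :
    ∃ F : Matrix a a ℂ, IsPr F ∧ F * E = E ∧ F.trace.re ≤ 2 ^ r * E.trace.re ∧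
      ∀ i < r, G i * F = F * G i := by
  induction r with
  | zero =>
    exact ⟨E, hE, hE.1, by simp, fun i hi => absurd hi (Nat.not_lt_zero i)⟩
  | succ r ih =>
    obtain ⟨F, hF, hFE, hFt, hFG⟩ := ih (fun i hi => hG i (hi.trans (Nat.lt_succ_self r)))
      (fun i hi j hj => hGG i (hi.trans (Nat.lt_succ_self r)) j (hj.trans (Nat.lt_succ_self r)))
    obtain ⟨F', hF', hFF, hFt', hFG', hA⟩ := na_c_step hF (hG r (Nat.lt_succ_self r))
    refine ⟨F', hF', ?_, ?_, ?_⟩
    · calc F' * E = F' * (F * E) := by rw [hFE]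
        _ = (F' * F) * E := by rw [Matrix.mul_assoc]
        _ = E := by rw [hFF, hFE]
    · rw [pow_succ]
      linarith
    · intro i hi
      rcases Nat.lt_succ_iff_lt_or_eq.mp hi with h | h
      · exact hA (G i) (hG i hi).2 (hFG i h) (hGG i hi r (Nat.lt_succ_self r))
      · subst h
        exact hFG'.symm

end pr

section inj
variable {N α β : Type*} [Fintype N] [DecidableEq N] [Fintype α] [DecidableEq α]
    [Fintype β] [DecidableEq β]

/-- `opL` is injective when the second factor is nonempty -/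
theorem na_c_inj [Nonempty N] (e : N ≃ α × β) {A B : Matrix α α ℂ} (h : opL e A = opL e B) :
    A = B := by
  obtain ⟨x⟩ := ‹Nonempty N›
  set b := (e x).2 with hb
  ext i j
  have h1 := congrFun (congrFun h (e.symm (i, b))) (e.symm (j, b))
  rw [opL_apply, opL_apply] at h1
  simpa using h1

theorem na_c_isPr [Nonempty N] (e : N ≃ α × β) {A : Matrix α α ℂ} (h : IsPr (opL e A)) :
    IsPr A := by
  refine ⟨na_c_inj e ?_, na_c_inj e ?_⟩
  · rw [opL_mul, h.1]
  · rw [← opL_conjTranspose, h.2]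

end inj

section prod
variable {N : Type*} [Fintype N] [DecidableEq N]

theorem na_c_prR_comm (Y : ℕ → Matrix N N ℂ) (A : Matrix N N ℂ) (n : ℕ)
    (h : ∀ i < n, A * Y i = Y i * A) : A * prR Y n = prR Y n * A := by
  induction n with
  | zero => rw [prR, Matrix.mul_one, Matrix.one_mul]
  | succ n ih =>
    rw [prR, ← Matrix.mul_assoc, ih (fun i hi => h i (hi.trans (Nat.lt_succ_self n))),
      Matrix.mul_assoc, h n (Nat.lt_succ_self n), Matrix.mul_assoc]

/-- a product of commuting matrices kills what one of them kills -/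
theorem na_c_prR_kill (Y : ℕ → Matrix N N ℂ) (n : ℕ)
    (h : ∀ i < n, ∀ j < n, Y i * Y j = Y j * Y i) (k : ℕ) (hk : k < n) (v : N → ℂ)
    (hv : Y k *ᵥ v = 0) : prR Y n *ᵥ v = 0 := by
  induction n with
  | zero => exact absurd hk (Nat.not_lt_zero k)
  | succ n ih =>
    rcases Nat.lt_succ_iff_lt_or_eq.mp hk with hk' | hk'
    · have h1 := ih (fun i hi j hj => h i (hi.trans (Nat.lt_succ_self n)) j
        (hj.trans (Nat.lt_succ_self n))) hk'
      rw [prR, ← na_c_prR_comm Y (Y n) n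
        (fun i hi => h n (Nat.lt_succ_self n) i (hi.trans (Nat.lt_succ_self n))),
        ← mulVec_mulVec, h1, mulVec_zero]
    · subst hk'
      rw [prR, ← mulVec_mulVec, hv, mulVec_zero]

theorem na_c_nrm_pr {P : Matrix N N ℂ} (hP : IsPr P) (v : N → ℂ) : nrm (P *ᵥ v) ≤ nrm v :=
  contr_nrm (contr_of_isPr hP) v

theorem na_c_nrm_prR (P : ℕ → Matrix N N ℂ) (n : ℕ) (hP : ∀ i < n, IsPr (P i)) (v : N → ℂ) :
    nrm (prR P n *ᵥ v) ≤ nrm v := by
  induction n generalizing v with
  | zero => rw [prR, one_mulVec]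
  | succ n ih =>
    rw [prR, ← mulVec_mulVec]
    exact (ih (fun i hi => hP i (hi.trans (Nat.lt_succ_self n))) _).trans
      (na_c_nrm_pr (hP n (Nat.lt_succ_self n)) v)

/-- union bound -/
theorem na_c_union (P : ℕ → Matrix N N ℂ) (n : ℕ) (hP : ∀ i < n, IsPr (P i)) (v : N → ℂ) :
    nrm v ≤ nrm (prR (fun i => 1 - P i) n *ᵥ v) + ∑ i ∈ range n, nrm (P i *ᵥ v) := by
  induction n with
  | zero => rw [prR, one_mulVec, Finset.range_zero, Finset.sum_empty, add_zero]
  | succ n ih =>
    have h1 := ih (fun i hi => hP i (hi.trans (Nat.lt_succ_self n)))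
    have h2 : prR (fun i => 1 - P i) n *ᵥ v = prR (fun i => 1 - P i) (n + 1) *ᵥ v +
        prR (fun i => 1 - P i) n *ᵥ (P n *ᵥ v) := by
      rw [prR, ← mulVec_mulVec, ← mulVec_add, sub_mulVec, one_mulVec]
      congr 1
      abel
    have h3 : nrm (prR (fun i => 1 - P i) n *ᵥ v) ≤ nrm (prR (fun i => 1 - P i) (n + 1) *ᵥ v) +
        nrm (P n *ᵥ v) := by
      rw [h2]
      refine (nrm_add_le _ _).trans ?_
      have := na_c_nrm_prR (fun i => 1 - P i) n
        (fun i hi => na_g_pr_compl (hP i (hi.trans (Nat.lt_succ_self n)))) (P n *ᵥ v)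
      linarith
    rw [Finset.sum_range_succ]
    linarith

end prod

section G
variable {N : Type} [Fintype N] [DecidableEq N] {α β : ℕ → Type}
  [∀ k, Fintype (α k)] [∀ k, DecidableEq (α k)] [∀ k, Fintype (β k)] [∀ k, DecidableEq (β k)]

/-- commuting enlargements along nested cuts, from the outermost cut inwards -/
theorem na_c_family [Nonempty N] (e : ∀ k, N ≃ α k × β k) (n : ℕ)
    (hnest : ∀ j k, j ≤ k → ∀ Y : Matrix (α k) (α k) ℂ, ∃ Y' : Matrix (α j) (α j) ℂ,
      opL (e k) Y = opL (e j) Y')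
    (E : ∀ k, Matrix (α k) (α k) ℂ) {D : ℝ} (hD : 0 ≤ D)
    (hE : ∀ k < n, IsPr (E k) ∧ (E k).trace.re ≤ D) (s : ℕ) (hs : s ≤ n) :
    ∃ F : ∀ k, Matrix (α k) (α k) ℂ,
      (∀ k, n - s ≤ k → k < n → IsPr (F k) ∧ F k * E k = E k ∧ (F k).trace.re ≤ 2 ^ n * D) ∧
      (∀ i j, n - s ≤ i → i < n → n - s ≤ j → j < n →
        opL (e i) (F i) * opL (e j) (F j) = opL (e j) (F j) * opL (e i) (F i)) := by
  induction s with
  | zero =>
    exact ⟨fun _ => 0, fun k h1 h2 => absurd h2 (by omega), fun i j h1 h2 => absurd h2 (by omega)⟩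
  | succ s ih =>
    obtain ⟨F, hF1, hF2⟩ := ih (by omega)
    set k := n - (s + 1) with hk
    have hkn : k < n := by omega
    have hks : n - s = k + 1 := by omega
    clear_value k
    rw [hks] at hF1 hF2
    have hex : ∀ i, ∃ G : Matrix (α k) (α k) ℂ,
        opL (e (k + 1 + i)) (F (k + 1 + i)) = opL (e k) G := fun i =>
      hnest k (k + 1 + i) (by omega) _
    choose G hG using hex
    have hGpr : ∀ i < s, IsPr (G i) := by
      intro i hi
      refine na_c_isPr (e k) ?_
      rw [← hG]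
      exact isPr_opL _ (hF1 _ (by omega) (by omega)).1
    have hGG : ∀ i < s, ∀ j < s, G i * G j = G j * G i := by
      intro i hi j hj
      refine na_c_inj (e k) ?_
      rw [opL_mul, opL_mul, ← hG, ← hG]
      exact hF2 _ _ (by omega) (by omega) (by omega) (by omega)
    obtain ⟨P, hP, hPE, hPt, hPG⟩ := na_c_enl (hE k hkn).1 G s hGpr hGG
    have hPc : ∀ i, k < i → i < n → opL (e i) (F i) * opL (e k) P =
        opL (e k) P * opL (e i) (F i) := by
      intro i h1 h2
      obtain ⟨t, rfl⟩ : ∃ t, i = k + 1 + t := ⟨i - (k + 1), by omega⟩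
      rw [hG, ← opL_mul, ← opL_mul, hPG t (by omega)]
    refine ⟨Function.update F k P, ?_, ?_⟩
    · intro i h1 h2
      by_cases hik : i = k
      · subst hik
        rw [Function.update_self]
        refine ⟨hP, hPE, hPt.trans ?_⟩
        have h3 : (0 : ℝ) ≤ (E i).trace.re := by
          rw [na_g_trace_rank (hE i hkn).1]
          positivity
        have h4 : (2 : ℝ) ^ s ≤ 2 ^ n := pow_le_pow_right₀ (by norm_num) (by omega)
        calc (2 : ℝ) ^ s * (E i).trace.re ≤ 2 ^ n * (E i).trace.re :=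
              mul_le_mul_of_nonneg_right h4 h3
          _ ≤ 2 ^ n * D := mul_le_mul_of_nonneg_left (hE i hkn).2 (by positivity)
      · rw [Function.update_of_ne hik]
        exact hF1 i (by omega) h2
    · intro i j hi1 hi2 hj1 hj2
      by_cases hik : i = k
      · subst hik
        by_cases hjk : j = i
        · subst hjk
          rfl
        · rw [Function.update_self, Function.update_of_ne hjk]
          exact (hPc j (by omega) hj2).symm
      · rw [Function.update_of_ne hik]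
        by_cases hjk : j = k
        · subst hjk
          rw [Function.update_self]
          exact hPc i (by omega) hi2
        · rw [Function.update_of_ne hjk]
          exact hF2 i j (by omega) hi2 (by omega) hj2

/-- existence of a good cut -/
theorem good_cut (e : ∀ k, N ≃ α k × β k) (n : ℕ) (hn : 1 ≤ n)
    (hnest : ∀ j k, j ≤ k → ∀ Y : Matrix (α k) (α k) ℂ, ∃ Y' : Matrix (α j) (α j) ℂ,
      opL (e k) Y = opL (e j) Y')
    {Ω : N → ℂ} (hΩ : nsq Ω = 1) (Γ : ℕ → N → ℂ) {D : ℝ} (hD : 0 ≤ D)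
    (hΓ : ∀ k < n, LR (e k) (Γ k) D)
    (hclose : nsq (Ω - ∑ k ∈ range n, Γ k) ≤ 1 / 16) :
    ∃ k < n, ∃ F : Matrix (α k) (α k) ℂ, IsPr F ∧ F.trace.re ≤ 2 ^ n * D ∧
      1 / (4 * (n : ℝ) ^ 2) ≤ nsq (opL (e k) F *ᵥ Ω) := by
  classical
  haveI : Nonempty N := by
    by_contra hN
    rw [not_nonempty_iff] at hN
    rw [nsq, Finset.univ_eq_empty, Finset.sum_empty] at hΩ
    exact zero_ne_one hΩ
  have hex : ∀ k, ∃ E : Matrix (α k) (α k) ℂ, k < n →
      IsPr E ∧ E.trace.re ≤ D ∧ opL (e k) E *ᵥ Γ k = Γ k := by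
    intro k
    by_cases hk : k < n
    · obtain ⟨E, hE⟩ := hΓ k hk
      exact ⟨E, fun _ => hE⟩
    · exact ⟨0, fun h => absurd h hk⟩
  choose E hE using hex
  obtain ⟨F, hF1, hF2⟩ := na_c_family e n hnest E hD (fun k hk => ⟨(hE k hk).1, (hE k hk).2.1⟩)
    n le_rfl
  rw [Nat.sub_self] at hF1 hF2
  set P : ℕ → Matrix N N ℂ := fun k => opL (e k) (F k) with hP
  have hPpr : ∀ k < n, IsPr (P k) := fun k hk => isPr_opL _ (hF1 k (Nat.zero_le k) hk).1
  have hPP : ∀ i < n, ∀ j < n, (1 - P i) * (1 - P j) = (1 - P j) * (1 - P i) := by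
    intro i hi j hj
    have := hF2 i j (Nat.zero_le i) hi (Nat.zero_le j) hj
    rw [Matrix.sub_mul, Matrix.mul_sub, Matrix.mul_sub, Matrix.sub_mul, Matrix.mul_sub,
      Matrix.mul_sub]
    simp only [Matrix.one_mul, Matrix.mul_one, hP]
    rw [this]
    abel
  have hkill : ∀ k < n, prR (fun i => 1 - P i) n *ᵥ Γ k = 0 := by
    intro k hk
    refine na_c_prR_kill (fun i => 1 - P i) n hPP k hk (Γ k) ?_
    show (1 - P k) *ᵥ Γ k = 0
    rw [sub_mulVec, one_mulVec, sub_eq_zero]
    have h1 := (hE k hk).2.2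
    conv_rhs => rw [← h1]
    rw [hP, mulVec_mulVec, ← opL_mul, (hF1 k (Nat.zero_le k) hk).2.1, h1]
  have h1 : prR (fun i => 1 - P i) n *ᵥ Ω = prR (fun i => 1 - P i) n *ᵥ
      (Ω - ∑ k ∈ range n, Γ k) := by
    rw [mulVec_sub, mulVec_sum, Finset.sum_eq_zero (fun k hk => hkill k (Finset.mem_range.mp hk)),
      sub_zero]
  have h2 : nrm (prR (fun i => 1 - P i) n *ᵥ Ω) ≤ 1 / 4 := by
    rw [h1]
    refine (na_c_nrm_prR _ n (fun i hi => na_g_pr_compl (hPpr i hi)) _).trans ?_
    rw [nrm]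
    refine Real.sqrt_le_iff.mpr ⟨by norm_num, ?_⟩
    refine hclose.trans ?_
    norm_num
  have h3 := na_c_union P n hPpr Ω
  have h4 : nrm Ω = 1 := by rw [nrm, hΩ, Real.sqrt_one]
  have h5 : 3 / 4 ≤ ∑ i ∈ range n, nrm (P i *ᵥ Ω) := by linarith
  have hn0 : (0 : ℝ) < n := by exact_mod_cast hn
  by_contra hcon
  push Not at hcon
  have h6 : ∀ i ∈ range n, nrm (P i *ᵥ Ω) < 3 / 4 / n := by
    intro i hi
    have hi' := Finset.mem_range.mp hi
    have h7 := hcon i hi' (F i) (hF1 i (Nat.zero_le i) hi').1 (hF1 i (Nat.zero_le i) hi').2.2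
    have h8 : nrm (P i *ᵥ Ω) ^ 2 < (3 / 4 / n) ^ 2 := by
      rw [nrm_sq]
      refine h7.trans_le ?_
      rw [div_pow, div_le_div_iff₀ (by positivity) (by positivity)]
      nlinarith [sq_nonneg (n : ℝ)]
    exact (sq_lt_sq₀ (nrm_nonneg _) (by positivity)).mp h8
  have h7 : ∑ i ∈ range n, nrm (P i *ᵥ Ω) < ∑ _i ∈ range n, (3 / 4 / (n : ℝ)) :=
    Finset.sum_lt_sum_of_nonempty ⟨0, Finset.mem_range.mpr hn⟩ h6
  rw [Finset.sum_const, Finset.card_range, nsmul_eq_mul, mul_div_cancel₀ _ hn0.ne'] at h7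
  linarith

end G

end Vale.Agent.P356.NA
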