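import Vale.Agent.P356.NA.Defs
import Mathlib.Analysis.Convex.SpecificFunctions.Basic

/-!
Optimality for the reversed tilt: a minimiser is a clipped minus logarithm of the reduced state.
-/

set_option linter.all false

namespace Vale.Agent.P356.NA

open Matrix Finset Vale.Agent.P356 Vale.Agent.P356.SV Vale.Agent.P356.Path
open scoped BigOperators ComplexOrder Kronecker

/-! ## BLOCK A (file NA/OptMin.lean): optimality for the reversed tilt -/
section A
variable {α β : Type*} [Fintype α] [Fintype β] [DecidableEq α] [DecidableEq β]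

theorem na_a_dOp (U : Matrix α α ℂ) (d : α → ℝ) : dOp U d = b1_D U d := rfl

/-- tangent line inequality -/
theorem na_a_tangent {θ : ℝ} (hθ : 0 < θ) (u v : ℝ) :
    Real.exp (-v) * (1 - (Real.exp (θ * u) * Real.exp (-(θ * v)) - 1) / θ) ≤ Real.exp (-u) := by
  have e1 : Real.exp (-u) = Real.exp (-v) * Real.exp (-(u - v)) := by
    rw [← Real.exp_add]; congr 1; ring
  have e2 : Real.exp (θ * u) * Real.exp (-(θ * v)) = Real.exp (θ * (u - v)) := by
    rw [← Real.exp_add]; congr 1; ring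
  rw [e1, e2]
  refine mul_le_mul_of_nonneg_left ?_ (Real.exp_pos _).le
  have h1 := Real.add_one_le_exp (θ * (u - v))
  have h2 := Real.add_one_le_exp (-(u - v))
  have h3 : u - v ≤ (Real.exp (θ * (u - v)) - 1) / θ := by
    rw [le_div_iff₀ hθ]; linarith
  linarith

/-- Peierls for `z ^ (-1/θ)` -/
theorem na_a_peierls {V U P : Matrix α α ℂ} (hV : V * Vᴴ = 1) (hU : U * Uᴴ = 1)
    (hP : P * Pᴴ = 1) {θ : ℝ} (hθ : 0 < θ) (g f g' : α → ℝ) {ε : ℝ} (hε0 : 0 ≤ ε) (hε1 : ε ≤ 1)
    (hY : b1_D P (fun i => Real.exp (θ * g' i)) =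
        ((1 - ε : ℝ) : ℂ) • b1_D U (fun i => Real.exp (θ * g i)) +
          (ε : ℂ) • b1_D V (fun i => Real.exp (θ * f i))) :
    ∑ i, Real.exp (-(g' i)) ≤
      (1 - ε) * ∑ i, Real.exp (-(g i)) + ε * ∑ i, Real.exp (-(f i)) := by
  have hP' : Pᴴ * P = 1 := b1_mul_left hP
  have hTU := b1_unit hU hP
  have hTV := b1_unit hV hP
  have hz : ∀ c, Real.exp (θ * g' c) =
      (1 - ε) * (∑ a, Real.exp (θ * g a) * ‖(Uᴴ * P) a c‖ ^ 2) +
        ε * (∑ a, Real.exp (θ * f a) * ‖(Vᴴ * P) a c‖ ^ 2) := by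
    intro c
    have h1 : (Pᴴ * b1_D P (fun i => Real.exp (θ * g' i)) * P) c c =
        ((Real.exp (θ * g' c) : ℝ) : ℂ) := by
      rw [b1_entry, hP']
      congr 1
      rw [Finset.sum_eq_single c]
      · simp
      · intro b _ hb
        rw [one_apply_ne hb]; simp
      · simp
    have h2 : (Pᴴ * b1_D P (fun i => Real.exp (θ * g' i)) * P) c c =
        (((1 - ε) * (∑ a, Real.exp (θ * g a) * ‖(Uᴴ * P) a c‖ ^ 2) +
        ε * (∑ a, Real.exp (θ * f a) * ‖(Vᴴ * P) a c‖ ^ 2) : ℝ) : ℂ) := by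
      rw [hY, Matrix.mul_add, Matrix.add_mul, Matrix.mul_smul, Matrix.mul_smul,
        Matrix.smul_mul, Matrix.smul_mul, Matrix.add_apply, Matrix.smul_apply, Matrix.smul_apply,
        b1_entry U P _ c, b1_entry V P _ c, smul_eq_mul, smul_eq_mul, ← Complex.ofReal_mul,
        ← Complex.ofReal_mul, ← Complex.ofReal_add]
    rw [h1] at h2
    exact_mod_cast h2
  have hT : ∀ (W : Matrix α α ℂ) (k : α → ℝ), W * Wᴴ = 1 → ∀ c,
      Real.exp (-(g' c)) * (1 - ((∑ a, Real.exp (θ * k a) * ‖W a c‖ ^ 2) *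
        Real.exp (-(θ * g' c)) - 1) / θ) ≤ ∑ a, Real.exp (-(k a)) * ‖W a c‖ ^ 2 := by
    intro W k hW c
    have h1 : ∀ a, Real.exp (-(g' c)) * (1 - (Real.exp (θ * k a) *
        Real.exp (-(θ * g' c)) - 1) / θ) * ‖W a c‖ ^ 2 ≤ Real.exp (-(k a)) * ‖W a c‖ ^ 2 :=
      fun a => mul_le_mul_of_nonneg_right (na_a_tangent hθ _ _) (sq_nonneg _)
    refine le_trans (le_of_eq ?_) (Finset.sum_le_sum fun a _ => h1 a)
    have e1 : ∀ a, Real.exp (-(g' c)) * (1 - (Real.exp (θ * k a) *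
        Real.exp (-(θ * g' c)) - 1) / θ) * ‖W a c‖ ^ 2 =
        Real.exp (-(g' c)) * (1 + 1 / θ) * ‖W a c‖ ^ 2 - Real.exp (-(g' c)) *
          Real.exp (-(θ * g' c)) / θ * (Real.exp (θ * k a) * ‖W a c‖ ^ 2) := fun a => by
      field_simp
      ring
    rw [Finset.sum_congr rfl fun a _ => e1 a, Finset.sum_sub_distrib, ← Finset.mul_sum,
      ← Finset.mul_sum, b1_col hW c]
    field_simp
    ring
  have hc : ∀ c, Real.exp (-(g' c)) ≤ (1 - ε) * (∑ a, Real.exp (-(g a)) * ‖(Uᴴ * P) a c‖ ^ 2) +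
      ε * (∑ a, Real.exp (-(f a)) * ‖(Vᴴ * P) a c‖ ^ 2) := by
    intro c
    have h1 := mul_le_mul_of_nonneg_left (hT _ g hTU c) (sub_nonneg.mpr hε1)
    have h2 := mul_le_mul_of_nonneg_left (hT _ f hTV c) hε0
    refine le_trans (le_of_eq ?_) (add_le_add h1 h2)
    have h3 := hz c
    have h4 : Real.exp (θ * g' c) * Real.exp (-(θ * g' c)) = 1 := by
      rw [← Real.exp_add, add_neg_cancel, Real.exp_zero]
    rw [h3] at h4
    set A := ∑ a, Real.exp (θ * g a) * ‖(Uᴴ * P) a c‖ ^ 2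
    set B := ∑ a, Real.exp (θ * f a) * ‖(Vᴴ * P) a c‖ ^ 2
    set E := Real.exp (-(θ * g' c))
    have e : (1 - ε) * (Real.exp (-(g' c)) * (1 - (A * E - 1) / θ)) +
        ε * (Real.exp (-(g' c)) * (1 - (B * E - 1) / θ)) =
        Real.exp (-(g' c)) * (1 - (((1 - ε) * A + ε * B) * E - 1) / θ) := by
      field_simp
      ring
    rw [e, h4]; simp
  have hS : ∀ (W : Matrix α α ℂ) (k : α → ℝ), W * Wᴴ = 1 →
      ∑ c, ∑ i, Real.exp (-(k i)) * ‖W i c‖ ^ 2 = ∑ i, Real.exp (-(k i)) := by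
    intro W k hW
    rw [Finset.sum_comm]
    refine Finset.sum_congr rfl fun i _ => ?_
    rw [← Finset.mul_sum, b1_row hW, mul_one]
  calc ∑ i, Real.exp (-(g' i)) ≤
      ∑ c, ((1 - ε) * (∑ a, Real.exp (-(g a)) * ‖(Uᴴ * P) a c‖ ^ 2) +
        ε * (∑ i, Real.exp (-(f i)) * ‖(Vᴴ * P) i c‖ ^ 2)) := Finset.sum_le_sum fun c _ => hc c
    _ = _ := by rw [Finset.sum_add_distrib, ← Finset.mul_sum, ← Finset.mul_sum,
                  hS _ g hTU, hS _ f hTV]

theorem na_a_range {m : ℝ} (hm : 0 ≤ m) (s : ℝ) : 0 ≤ rcl m s ∧ rcl m s ≤ m := by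
  unfold rcl
  split_ifs with h
  · exact ⟨hm, le_refl _⟩
  · push Not at h
    refine ⟨le_max_left _ _, max_le hm ?_⟩
    have := Real.log_lt_log (Real.exp_pos _) h
    rw [Real.log_exp] at this
    linarith

/-- the bracket -/
theorem na_a_bracket {m θ : ℝ} (hθ : 0 < θ) (hm : 0 ≤ m) (s g : ℝ) (hg : 0 ≤ g ∧ g ≤ m) :
    s * (Real.exp (θ * rcl m s) * Real.exp (-(θ * g)) - 1) +
      θ * (Real.exp (-(rcl m s)) - Real.exp (-g)) ≤
    Real.exp (-(rcl m s)) * (Real.exp (θ * (rcl m s - g)) - 1 -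
      θ * (Real.exp (rcl m s - g) - 1)) := by
  have e1 : Real.exp (θ * rcl m s) * Real.exp (-(θ * g)) = Real.exp (θ * (rcl m s - g)) := by
    rw [← Real.exp_add]; congr 1; ring
  have e2 : Real.exp (-g) = Real.exp (-(rcl m s)) * Real.exp (rcl m s - g) := by
    rw [← Real.exp_add]; congr 1; ring
  rw [e1]
  have h1 : s * (Real.exp (θ * (rcl m s - g)) - 1) ≤
      Real.exp (-(rcl m s)) * (Real.exp (θ * (rcl m s - g)) - 1) := by
    by_cases h : s ≤ Real.exp (-m)
    · have hr : rcl m s = m := by unfold rcl; rw [if_pos h]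
      rw [hr]
      refine mul_le_mul_of_nonneg_right h ?_
      have := Real.one_le_exp (mul_nonneg hθ.le (sub_nonneg.mpr hg.2))
      linarith
    · have hr : rcl m s = max 0 (-Real.log s) := by unfold rcl; rw [if_neg h]
      push Not at h
      have hs : 0 < s := (Real.exp_pos _).trans h
      rcases le_total s 1 with h1 | h1
      · have h2 : 0 ≤ -Real.log s := by
          have := Real.log_nonpos hs.le h1
          linarith
        rw [hr, max_eq_right h2, neg_neg, Real.exp_log hs]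
      · have h2 : -Real.log s ≤ 0 := by
          have := Real.log_nonneg h1
          linarith
        rw [hr, max_eq_left h2, neg_zero, Real.exp_zero, zero_sub]
        have h3 : Real.exp (θ * -g) - 1 ≤ 0 := by
          have := Real.exp_le_one_iff.mpr (mul_nonpos_of_nonneg_of_nonpos hθ.le
            (neg_nonpos.mpr hg.1))
          linarith
        nlinarith
  rw [e2]
  nlinarith [h1]

theorem na_a_phi_nonpos {θ : ℝ} (hθ : 0 < θ) (hθ1 : θ < 1) (d : ℝ) :
    Real.exp (θ * d) - 1 - θ * (Real.exp d - 1) ≤ 0 := by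
  have h := rpow_one_add_le_one_add_mul_self (s := Real.exp d - 1) (p := θ)
    (by have := Real.exp_pos d; linarith) hθ.le hθ1.le
  have e : (1 + (Real.exp d - 1)) ^ θ = Real.exp (θ * d) := by
    rw [add_sub_cancel, ← Real.exp_mul, mul_comm]
  rw [e] at h
  linarith

theorem na_a_phi_neg {θ : ℝ} (hθ : 0 < θ) (hθ1 : θ < 1) {d : ℝ} (hd : d ≠ 0) :
    Real.exp (θ * d) - 1 - θ * (Real.exp d - 1) < 0 := by
  have h := rpow_one_add_lt_one_add_mul_self (s := Real.exp d - 1) (p := θ)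
    (by have := Real.exp_pos d; linarith)
    (by
      intro h0
      apply hd
      have : Real.exp d = 1 := by linarith
      exact (Real.exp_eq_one_iff d).mp this) hθ hθ1
  have e : (1 + (Real.exp d - 1)) ^ θ = Real.exp (θ * d) := by
    rw [add_sub_cancel, ← Real.exp_mul, mul_comm]
  rw [e] at h
  linarith

/-- passing to the first order -/
theorem na_a_first {l C : ℝ} (h : ∀ ε : ℝ, 0 < ε → ε ≤ 1 → 0 ≤ ε * l + C * ε ^ 2) : 0 ≤ l := by
  by_contra hl
  push Not at hl
  have hC : 0 < |C| + 1 := by positivity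
  set ε : ℝ := min 1 (-l / (2 * (|C| + 1))) with hε
  have hε0 : 0 < ε := lt_min one_pos (div_pos (by linarith) (by positivity))
  have h1 := h ε hε0 (min_le_left _ _)
  have h2 : ε ≤ -l / (2 * (|C| + 1)) := min_le_right _ _
  rw [le_div_iff₀ (by positivity)] at h2
  have h3 : C * ε ^ 2 ≤ (|C| + 1) * ε * ε := by
    have := le_abs_self C
    nlinarith [sq_nonneg ε]
  have h4 : (|C| + 1) * ε ≤ -l / 2 := by linarith
  have h5 : (|C| + 1) * ε * ε ≤ -l / 2 * ε := mul_le_mul_of_nonneg_right h4 hε0.le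
  nlinarith

theorem opt_min (x : α × β → ℂ) (hx : ∑ z, ‖x z‖ ^ 2 = 1)
    {θ m : ℝ} (hθ : 0 < θ) (hθ1 : θ < 1) (hm : 0 ≤ m) (C : ℝ)
    (U : Matrix α α ℂ) (hU : U * Uᴴ = 1) (g : α → ℝ) (hg : ∀ i, 0 ≤ g i ∧ g i ≤ m)
    (hopt : ∀ (U' : Matrix α α ℂ) (g' : α → ℝ), U' * U'ᴴ = 1 → (∀ i, 0 ≤ g' i ∧ g' i ≤ m) →
      0 ≤ 2 * (redA x * ((dOp U' (fun i => Real.exp (θ * g' i)) -
          dOp U (fun i => Real.exp (θ * g i))) * dOp U (fun i => Real.exp (-(θ * g i))))).trace.re +
        C * (∑ i, ∑ j, ‖((dOp U' (fun i => Real.exp (θ * g' i)) -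
          dOp U (fun i => Real.exp (θ * g i))) * dOp U (fun i => Real.exp (-(θ * g i)))) i j‖ ^ 2) +
        2 * θ * ∑ i, (Real.exp (-(g' i)) - Real.exp (-(g i)))) :
    ∀ F : ℝ → ℝ, dOp U (fun i => F (g i)) = fOp x (fun i => F (rcl m (eigp x i))) := by
  set V := eigU x with hVdef
  have hV : V * Vᴴ = 1 := eigU_mul x
  set s := eigp x with hs
  set f : α → ℝ := fun i => rcl m (s i) with hf
  have hfr : ∀ i, 0 ≤ f i ∧ f i ≤ m := fun i => na_a_range hm (s i)
  set W : α → α → ℝ := fun i a => ‖(Vᴴ * U) i a‖ ^ 2 with hW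
  have hW0 : ∀ i a, 0 ≤ W i a := fun i a => sq_nonneg _
  have hVU := b1_unit hV hU
  have hrow : ∀ i, ∑ a, W i a = 1 := fun i => b1_row hVU i
  have hcol : ∀ a, ∑ i, W i a = 1 := fun a => b1_col hVU a
  have hρ : redA x = b1_D V s := redA_spec x
  set l : ℝ := 2 * ∑ i, ∑ a, W i a * (s i * (Real.exp (θ * f i) * Real.exp (-(θ * g a)) - 1))
    with hl
  set r : ℝ := 2 * θ * (∑ i, Real.exp (-(f i)) - ∑ i, Real.exp (-(g i))) with hr
  set M : Matrix α α ℂ := (b1_D V (fun i => Real.exp (θ * f i)) -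
    b1_D U (fun i => Real.exp (θ * g i))) * b1_D U (fun i => Real.exp (-(θ * g i))) with hM
  have hone : b1_D U (fun i => Real.exp (θ * g i)) * b1_D U (fun i => Real.exp (-(θ * g i))) =
      1 := by
    rw [b1_D_mul hU]
    exact b1_D_one hU _ (fun i => by rw [← Real.exp_add, add_neg_cancel, Real.exp_zero])
  have htrM : (redA x * M).trace.re = l / 2 := by
    rw [hM, Matrix.sub_mul, hone, Matrix.mul_sub, Matrix.trace_sub,
      Matrix.mul_one, ← Matrix.mul_assoc, hρ, b1_D_mul hV, b1_trace]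
    have e3 : (b1_D V s).trace = ((∑ i, s i : ℝ) : ℂ) := by
      have : b1_D V s = b1_D V s * b1_D V (fun _ => 1) := by
        rw [b1_D_one hV _ (fun _ => rfl), Matrix.mul_one]
      rw [this, b1_trace]
      congr 1
      have h0 : Vᴴ * V = 1 := b1_mul_left hV
      rw [h0]
      refine Finset.sum_congr rfl fun i _ => ?_
      rw [Finset.sum_eq_single i]
      · simp
      · intro b _ hb
        rw [one_apply_ne hb.symm]
        simp
      · simp
    rw [e3, Complex.sub_re, Complex.ofReal_re, Complex.ofReal_re, hl]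
    have e4 : ∑ i, s i = ∑ i, ∑ a, W i a * s i := by
      refine Finset.sum_congr rfl fun i _ => ?_
      rw [← Finset.sum_mul, hrow, one_mul]
    rw [e4, mul_div_cancel_left₀ _ (two_ne_zero), ← Finset.sum_sub_distrib]
    refine Finset.sum_congr rfl fun i _ => ?_
    rw [← Finset.sum_sub_distrib]
    refine Finset.sum_congr rfl fun a _ => ?_
    simp only [hW]
    ring
  have hkey : 0 ≤ l + r := by
    refine na_a_first (C := C * ∑ i, ∑ j, ‖M i j‖ ^ 2) fun ε hε0 hε1 => ?_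
    obtain ⟨P, g', hP, hg', hY, -⟩ := b1_path hV hU hθ hθ1.le g f hg hfr hε0.le hε1
    have hsum := na_a_peierls hV hU hP hθ g f g' hε0.le hε1 hY
    have hdiff : (b1_D P (fun i => Real.exp (θ * g' i)) - b1_D U (fun i => Real.exp (θ * g i))) *
        b1_D U (fun i => Real.exp (-(θ * g i))) = (ε : ℂ) • M := by
      rw [hM, ← Matrix.smul_mul]
      congr 1
      rw [hY]
      push_cast
      rw [sub_smul, one_smul, smul_sub]
      abel
    have h1 := hopt P g' hP hg'
    simp only [na_a_dOp] at h1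
    rw [hdiff, Matrix.mul_smul, Matrix.trace_smul, smul_eq_mul, Complex.re_ofReal_mul, htrM] at h1
    have e5 : ∑ i, ∑ j, ‖((ε : ℂ) • M) i j‖ ^ 2 = ε ^ 2 * ∑ i, ∑ j, ‖M i j‖ ^ 2 := by
      rw [Finset.mul_sum]
      refine Finset.sum_congr rfl fun i _ => ?_
      rw [Finset.mul_sum]
      refine Finset.sum_congr rfl fun j _ => ?_
      rw [Matrix.smul_apply, smul_eq_mul, norm_mul, Complex.norm_real, Real.norm_eq_abs, mul_pow,
        sq_abs]
    rw [e5, Finset.sum_sub_distrib] at h1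
    have h2 : ∑ i, Real.exp (-(g' i)) - ∑ i, Real.exp (-(g i)) ≤
        ε * (∑ i, Real.exp (-(f i)) - ∑ i, Real.exp (-(g i))) := by linarith
    have h3 := mul_le_mul_of_nonneg_left h2 (show 0 ≤ 2 * θ by positivity)
    rw [hr]
    nlinarith
  -- all brackets vanish
  have hbr : ∀ i a, s i * (Real.exp (θ * f i) * Real.exp (-(θ * g a)) - 1) +
      θ * (Real.exp (-(f i)) - Real.exp (-(g a))) ≤ 0 := by
    intro i a
    have h := na_a_bracket hθ hm (s i) (g a) (hg a)
    have h2 := mul_nonpos_of_nonneg_of_nonpos (Real.exp_pos (-(rcl m (s i)))).le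
      (na_a_phi_nonpos hθ hθ1 (rcl m (s i) - g a))
    exact h.trans h2
  have hsum0 : 0 ≤ ∑ i, ∑ a, W i a * (s i * (Real.exp (θ * f i) * Real.exp (-(θ * g a)) - 1) +
      θ * (Real.exp (-(f i)) - Real.exp (-(g a)))) := by
    have e : ∑ i, ∑ a, W i a * (s i * (Real.exp (θ * f i) * Real.exp (-(θ * g a)) - 1) +
      θ * (Real.exp (-(f i)) - Real.exp (-(g a)))) = l / 2 + r / 2 := by
      have e1 : ∑ i, ∑ a, W i a * (θ * (Real.exp (-(f i)) - Real.exp (-(g a)))) = r / 2 := by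
        have e2 : ∑ i, ∑ a, W i a * Real.exp (-(f i)) = ∑ i, Real.exp (-(f i)) := by
          refine Finset.sum_congr rfl fun i _ => ?_
          rw [← Finset.sum_mul, hrow, one_mul]
        have e3 : ∑ i, ∑ a, W i a * Real.exp (-(g a)) = ∑ a, Real.exp (-(g a)) := by
          rw [Finset.sum_comm]
          refine Finset.sum_congr rfl fun i _ => ?_
          rw [← Finset.sum_mul, hcol, one_mul]
        rw [hr, ← e2, ← e3, ← Finset.sum_sub_distrib]
        have : 2 * θ * (∑ x : α, (∑ a, W x a * Real.exp (-(f x)) -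
            ∑ a, W x a * Real.exp (-(g a)))) / 2 =
            θ * (∑ x : α, (∑ a, W x a * Real.exp (-(f x)) - ∑ a, W x a * Real.exp (-(g a)))) := by
          ring
        rw [this, Finset.mul_sum]
        refine Finset.sum_congr rfl fun i _ => ?_
        rw [← Finset.sum_sub_distrib, Finset.mul_sum]
        refine Finset.sum_congr rfl fun a _ => ?_
        ring
      rw [← e1, hl, mul_div_cancel_left₀ _ (two_ne_zero), ← Finset.sum_add_distrib]
      refine Finset.sum_congr rfl fun i _ => ?_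
      rw [← Finset.sum_add_distrib]
      refine Finset.sum_congr rfl fun a _ => ?_
      ring
    rw [e]
    linarith
  have hterm : ∀ i a, W i a * (s i * (Real.exp (θ * f i) * Real.exp (-(θ * g a)) - 1) +
      θ * (Real.exp (-(f i)) - Real.exp (-(g a)))) = 0 := by
    have hnn : ∀ i, ∑ a, W i a * (s i * (Real.exp (θ * f i) * Real.exp (-(θ * g a)) - 1) +
      θ * (Real.exp (-(f i)) - Real.exp (-(g a)))) ≤ 0 :=
      fun i => Finset.sum_nonpos fun a _ => mul_nonpos_of_nonneg_of_nonpos (hW0 i a) (hbr i a)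
    have hz : ∑ i, ∑ a, W i a * (s i * (Real.exp (θ * f i) * Real.exp (-(θ * g a)) - 1) +
      θ * (Real.exp (-(f i)) - Real.exp (-(g a)))) = 0 :=
      le_antisymm (Finset.sum_nonpos fun i _ => hnn i) hsum0
    intro i a
    have h1 := (Finset.sum_eq_zero_iff_of_nonpos (fun i _ => hnn i)).mp hz i (Finset.mem_univ i)
    exact (Finset.sum_eq_zero_iff_of_nonpos
      (fun a _ => mul_nonpos_of_nonneg_of_nonpos (hW0 i a) (hbr i a))).mp h1 a (Finset.mem_univ a)
  have heq : ∀ i a, (Vᴴ * U) i a ≠ 0 → f i = g a := by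
    intro i a hne
    have hWne : W i a ≠ 0 := by
      simp only [hW]
      exact pow_ne_zero 2 (norm_ne_zero_iff.mpr hne)
    have h0 := (mul_eq_zero.mp (hterm i a)).resolve_left hWne
    have h := na_a_bracket hθ hm (s i) (g a) (hg a)
    by_contra hfg
    have hd : rcl m (s i) - g a ≠ 0 := sub_ne_zero.mpr hfg
    have h2 := mul_neg_of_pos_of_neg (Real.exp_pos (-(rcl m (s i)))) (na_a_phi_neg hθ hθ1 hd)
    have h3 : s i * (Real.exp (θ * rcl m (s i)) * Real.exp (-(θ * g a)) - 1) +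
      θ * (Real.exp (-(rcl m (s i))) - Real.exp (-(g a))) = 0 := h0
    linarith
  -- conclusion
  intro F
  have hmid : (Vᴴ * U) * diagonal (fun i => (F (g i) : ℂ)) =
      diagonal (fun i => (F (f i) : ℂ)) * (Vᴴ * U) := by
    ext i a
    rw [mul_diagonal, diagonal_mul]
    by_cases h : (Vᴴ * U) i a = 0
    · rw [h]; ring
    · rw [heq i a h]; ring
  show U * diagonal (fun i => (F (g i) : ℂ)) * Uᴴ =
    V * diagonal (fun i => (F (f i) : ℂ)) * Vᴴ
  calc U * diagonal (fun i => (F (g i) : ℂ)) * Uᴴ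
      = V * ((Vᴴ * U) * diagonal (fun i => (F (g i) : ℂ))) * Uᴴ := by
        have : V * ((Vᴴ * U) * diagonal (fun i => (F (g i) : ℂ))) * Uᴴ =
          (V * Vᴴ) * U * diagonal (fun i => (F (g i) : ℂ)) * Uᴴ := by
          simp only [Matrix.mul_assoc]
        rw [this, hV, Matrix.one_mul]
    _ = V * diagonal (fun i => (F (f i) : ℂ)) * Vᴴ * (U * Uᴴ) := by
        rw [hmid]; simp only [Matrix.mul_assoc]
    _ = _ := by rw [hU, Matrix.mul_one]
end A

end Vale.Agent.P356.NA
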