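import Vale.Agent.P356.NA.Defs
import Vale.Agent.P356.SV.Rect

/-!
Block L: recursion over scales, polylogarithmic correction for rectangles (pure combinatorics).
-/

set_option linter.all false

namespace Vale.Agent.P356.NA

open Matrix Finset Vale.Agent.P356 Vale.Agent.P356.SV Vale.Agent.P356.Path
open scoped BigOperators ComplexOrder Kronecker

theorem na_l_unit {L : ℕ} {κ : ℝ} (hκ : 0 ≤ κ) (S : Finset (Site L) → ℝ)
    (hcard : ∀ B, S B ≤ κ * B.card) (x0 x1 y0 y1 : ℕ) (hx : x1 ≤ x0 + 1) (hy : y1 ≤ y0 + 1) :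
    S (rect L x0 x1 y0 y1) ≤ κ := by
  have h1 : (rect L x0 x1 y0 y1).card ≤ 1 := by
    rw [Finset.card_le_one]
    intro p hp q hq
    rw [b8_mem] at hp hq
    ext
    · omega
    · omega
  have h2 : ((rect L x0 x1 y0 y1).card : ℝ) ≤ 1 := by exact_mod_cast h1
  have h3 := hcard (rect L x0 x1 y0 y1)
  have h4 : κ * ((rect L x0 x1 y0 y1).card : ℝ) ≤ κ * 1 := mul_le_mul_of_nonneg_left h2 hκ
  linarith

/-- the frame is covered by four strips -/
theorem na_l_frame {L : ℕ} (S : Finset (Site L) → ℝ) (hS0 : S ∅ ≤ 0)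
    (hsub : ∀ A B, Disjoint A B → S (A ∪ B) ≤ S A + S B) {w : ℕ} (hw : 0 < w) {F : ℝ}
    (hF : ∀ x0 x1 y0 y1 : ℕ, x1 ≤ x0 + w → y1 ≤ y0 + w → S (rect L x0 x1 y0 y1) ≤ F)
    (hF0 : 0 ≤ F) (l : ℕ)
    (x0 x1 y0 y1 : ℕ) (hx : x1 ≤ x0 + l) (hy : y1 ≤ y0 + l) (hx0 : x0 ≤ x1) (hy0 : y0 ≤ y1) :
    S (rect L (x0 - w) (x1 + w) (y0 - w) (y1 + w) \ rect L x0 x1 y0 y1) ≤
      4 * ((l / w + 3 : ℕ) : ℝ) * F := by
  set b := l / w + 3 with hb
  have hbw : l + 2 * w ≤ b * w := by
    have h1 := Nat.div_add_mod l w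
    have h2 := Nat.mod_lt l hw
    rw [hb, add_mul]
    have h3 : l / w * w = w * (l / w) := mul_comm _ _
    rw [h3]
    omega
  have e : rect L (x0 - w) (x1 + w) (y0 - w) (y1 + w) \ rect L x0 x1 y0 y1 =
      (rect L (x0 - w) x0 (y0 - w) (y1 + w) ∪ rect L x1 (x1 + w) (y0 - w) (y1 + w)) ∪
        (rect L x0 x1 (y0 - w) y0 ∪ rect L x0 x1 y1 (y1 + w)) := by
    ext p
    rw [Finset.mem_sdiff, Finset.mem_union, Finset.mem_union, Finset.mem_union, b8_mem, b8_mem,
      b8_mem, b8_mem, b8_mem, b8_mem]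
    omega
  have d1 : Disjoint (rect L (x0 - w) x0 (y0 - w) (y1 + w))
      (rect L x1 (x1 + w) (y0 - w) (y1 + w)) := by
    rw [Finset.disjoint_left]
    intro p hp hq
    rw [b8_mem] at hp hq
    omega
  have d2 : Disjoint (rect L x0 x1 (y0 - w) y0) (rect L x0 x1 y1 (y1 + w)) := by
    rw [Finset.disjoint_left]
    intro p hp hq
    rw [b8_mem] at hp hq
    omega
  have d3 : Disjoint (rect L (x0 - w) x0 (y0 - w) (y1 + w) ∪
      rect L x1 (x1 + w) (y0 - w) (y1 + w))
      (rect L x0 x1 (y0 - w) y0 ∪ rect L x0 x1 y1 (y1 + w)) := by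
    rw [Finset.disjoint_left]
    intro p hp hq
    rw [Finset.mem_union, b8_mem, b8_mem] at hp hq
    omega
  rw [e]
  have s1 := hsub _ _ d3
  have s2 := hsub _ _ d1
  have s3 := hsub _ _ d2
  have t1 := b8_tile S hS0 hsub hw hF 1 b (x0 - w) x0 (y0 - w) (y1 + w) (by omega) (by omega)
  have t2 := b8_tile S hS0 hsub hw hF 1 b x1 (x1 + w) (y0 - w) (y1 + w) (by omega) (by omega)
  have t3 := b8_tile S hS0 hsub hw hF b 1 x0 x1 (y0 - w) y0 (by omega) (by omega)
  have t4 := b8_tile S hS0 hsub hw hF b 1 x0 x1 y1 (y1 + w) (by omega) (by omega)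
  rw [Nat.cast_one, one_mul] at t1 t2
  rw [Nat.cast_one, mul_one] at t3 t4
  linarith

theorem rect_polylog (C κ : ℝ) (hC : 1 ≤ C) (hκ : 0 ≤ κ) :
    ∃ A c : ℝ, 0 ≤ A ∧ 0 ≤ c ∧ ∀ (L : ℕ) (S : Finset (Site L) → ℝ),
      (∀ B, 0 ≤ S B) → (∀ B B', Disjoint B B' → S (B ∪ B') ≤ S B + S B') →
      (∀ B, S B ≤ κ * B.card) →
      (∀ l x0 x1 y0 y1 : ℕ, 1 ≤ l → x1 ≤ x0 + l → y1 ≤ y0 + l →
        ∃ w : ℕ, (w : ℝ) ≤ C * (l : ℝ) ^ (9 / 10 : ℝ) ∧
        S (rect L x0 x1 y0 y1) ≤
          C * S (rect L (x0 - w) (x1 + w) (y0 - w) (y1 + w) \ rect L x0 x1 y0 y1) +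
            C * (l : ℝ) ^ (9 / 10 : ℝ)) →
      ∀ l x0 x1 y0 y1 : ℕ, 1 ≤ l → x1 ≤ x0 + l → y1 ≤ y0 + l →
        S (rect L x0 x1 y0 y1) ≤ A * l * (1 + Real.log l) ^ c := by
  have hC0 : 0 < C := by linarith
  have hlogC : 0 ≤ Real.log C := Real.log_nonneg hC
  obtain ⟨n₀, hn₀⟩ := exists_pow_lt_of_lt_one (show (0 : ℝ) < 1 / (32 * C) by positivity)
    (show (19 / 20 : ℝ) < 1 by norm_num)
  obtain ⟨l₁, hl₁⟩ := exists_nat_ge (Real.exp (1 + 20 * Real.log C))
  set A : ℝ := 2 * C + κ * l₁ with hA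
  have hA0 : 0 ≤ A := by positivity
  have hA2C : 2 * C ≤ A := by rw [hA]; have : 0 ≤ κ * l₁ := by positivity
                              linarith
  refine ⟨A, n₀, hA0, Nat.cast_nonneg _, ?_⟩
  intro L S hnn hsub hcard hcon
  have hS0 : S ∅ ≤ 0 := by
    have := hcard ∅
    simpa using this
  intro l
  induction l using Nat.strong_induction_on with
  | _ l ih =>
    intro x0 x1 y0 y1 hl hx hy
    rw [Real.rpow_natCast]
    have hl1 : (1 : ℝ) ≤ l := by exact_mod_cast hl
    have hl0 : (0 : ℝ) < l := by linarith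
    have hlogl : 0 ≤ Real.log l := Real.log_nonneg hl1
    have hp1 : (1 : ℝ) ≤ (1 + Real.log l) ^ n₀ := one_le_pow₀ (by linarith)
    have hp0 : (0 : ℝ) < (1 + Real.log l) ^ n₀ := by linarith
    by_cases hsmall : l ≤ l₁
    · -- small sides
      have h1 := b8_tile S hS0 hsub (l := 1) one_pos (F := κ)
        (fun a b c d hab hcd => na_l_unit hκ S hcard a b c d hab hcd) l l x0 x1 y0 y1
        (by omega) (by omega)
      have h2 : (l : ℝ) ≤ l₁ := by exact_mod_cast hsmall
      calc S (rect L x0 x1 y0 y1) ≤ l * l * κ := h1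
        _ = (κ * l) * l := by ring
        _ ≤ (κ * l₁) * l := mul_le_mul_of_nonneg_right (mul_le_mul_of_nonneg_left h2 hκ) hl0.le
        _ ≤ A * l := mul_le_mul_of_nonneg_right (by rw [hA]; linarith) hl0.le
        _ = A * l * 1 := by ring
        _ ≤ A * l * (1 + Real.log l) ^ n₀ := mul_le_mul_of_nonneg_left hp1 (by positivity)
    · -- large sides
      rw [not_le] at hsmall
      have hbig : Real.exp (1 + 20 * Real.log C) ≤ l :=
        hl₁.trans (by exact_mod_cast hsmall.le)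
      have hlog : 1 + 20 * Real.log C ≤ Real.log l := by
        rw [Real.le_log_iff_exp_le hl0]
        exact hbig
      have hpl : (l : ℝ) ^ (9 / 10 : ℝ) ≤ l := by
        calc (l : ℝ) ^ (9 / 10 : ℝ) ≤ (l : ℝ) ^ (1 : ℝ) :=
              Real.rpow_le_rpow_of_exponent_le hl1 (by norm_num)
          _ = l := Real.rpow_one _
      have hend : C * (l : ℝ) ^ (9 / 10 : ℝ) ≤ A / 2 * l * (1 + Real.log l) ^ n₀ := by
        calc C * (l : ℝ) ^ (9 / 10 : ℝ) ≤ C * l := mul_le_mul_of_nonneg_left hpl hC0.le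
          _ ≤ A / 2 * l := mul_le_mul_of_nonneg_right (by linarith) hl0.le
          _ = A / 2 * l * 1 := by ring
          _ ≤ _ := mul_le_mul_of_nonneg_left hp1 (by positivity)
      have hhalf : 0 ≤ A / 2 * l * (1 + Real.log l) ^ n₀ := by positivity
      have hsum : A / 2 * l * (1 + Real.log l) ^ n₀ + A / 2 * l * (1 + Real.log l) ^ n₀ =
          A * l * (1 + Real.log l) ^ n₀ := by ring
      by_cases hne : x0 ≤ x1 ∧ y0 ≤ y1
      · obtain ⟨w, hw, hS⟩ := hcon l x0 x1 y0 y1 hl hx hy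
        rcases Nat.eq_zero_or_pos w with hw0 | hw0
        · have e : rect L (x0 - w) (x1 + w) (y0 - w) (y1 + w) \ rect L x0 x1 y0 y1 = ∅ := by
            rw [hw0, Nat.sub_zero, Nat.sub_zero, Nat.add_zero, Nat.add_zero]
            exact Finset.sdiff_self _
          rw [e] at hS
          have h1 : C * S ∅ ≤ 0 := mul_nonpos_of_nonneg_of_nonpos hC0.le hS0
          linarith
        · have hw1 : (1 : ℝ) ≤ w := by exact_mod_cast hw0
          have hwr0 : (0 : ℝ) < w := by linarith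
          have hlogw : Real.log w ≤ Real.log C + 9 / 10 * Real.log l := by
            have h1 := Real.log_le_log hwr0 hw
            rw [Real.log_mul hC0.ne' (Real.rpow_pos_of_pos hl0 _).ne', Real.log_rpow hl0] at h1
            exact h1
          have hwl : (w : ℝ) < l := by
            rw [← Real.log_lt_log_iff hwr0 hl0]
            linarith
          have hwlN : w < l := by exact_mod_cast hwl
          have hlogw0 : 0 ≤ Real.log w := Real.log_nonneg hw1
          set F : ℝ := A * w * (1 + Real.log w) ^ n₀ with hF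
          have hF0 : 0 ≤ F := by positivity
          have hih : ∀ a b c d : ℕ, b ≤ a + w → d ≤ c + w → S (rect L a b c d) ≤ F := by
            intro a b c d hab hcd
            have := ih w hwlN a b c d hw0 hab hcd
            rw [Real.rpow_natCast] at this
            exact this
          have hfr := na_l_frame S hS0 hsub hw0 hih hF0 l x0 x1 y0 y1 hx hy hne.1 hne.2
          have hb : ((l / w + 3 : ℕ) : ℝ) ≤ 4 * l / w := by
            rw [le_div_iff₀ hwr0]
            have h1 : ((l / w : ℕ) : ℝ) * w ≤ l := by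
              exact_mod_cast Nat.div_mul_le_self l w
            push_cast
            have h2 : ((l / w : ℕ) : ℝ) = ((l / w : ℕ) : ℝ) := rfl
            rw [add_mul]
            have h3 : (((l : ℕ) / (w : ℕ) : ℕ) : ℝ) * w ≤ l := h1
            linarith
          have hfr2 : S (rect L (x0 - w) (x1 + w) (y0 - w) (y1 + w) \ rect L x0 x1 y0 y1) ≤
              16 * A * l * (1 + Real.log w) ^ n₀ := by
            refine hfr.trans ?_
            calc 4 * ((l / w + 3 : ℕ) : ℝ) * F ≤ 4 * (4 * l / w) * F :=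
                  mul_le_mul_of_nonneg_right (mul_le_mul_of_nonneg_left hb (by norm_num)) hF0
              _ = 16 * A * l * (1 + Real.log w) ^ n₀ := by
                  rw [hF]; field_simp; ring
          have hlw : 1 + Real.log w ≤ 19 / 20 * (1 + Real.log l) := by linarith
          have hpw : (1 + Real.log w) ^ n₀ ≤ 1 / (32 * C) * (1 + Real.log l) ^ n₀ := by
            calc (1 + Real.log w) ^ n₀ ≤ (19 / 20 * (1 + Real.log l)) ^ n₀ :=
                  pow_le_pow_left₀ (by linarith) hlw n₀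
              _ = (19 / 20 : ℝ) ^ n₀ * (1 + Real.log l) ^ n₀ := mul_pow _ _ _
              _ ≤ 1 / (32 * C) * (1 + Real.log l) ^ n₀ :=
                  mul_le_mul_of_nonneg_right hn₀.le hp0.le
          have hC1 : C * S (rect L (x0 - w) (x1 + w) (y0 - w) (y1 + w) \ rect L x0 x1 y0 y1) ≤
              A / 2 * l * (1 + Real.log l) ^ n₀ := by
            calc C * S (rect L (x0 - w) (x1 + w) (y0 - w) (y1 + w) \ rect L x0 x1 y0 y1)
                ≤ C * (16 * A * l * (1 + Real.log w) ^ n₀) := mul_le_mul_of_nonneg_left hfr2 hC0.le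
              _ ≤ C * (16 * A * l * (1 / (32 * C) * (1 + Real.log l) ^ n₀)) :=
                  mul_le_mul_of_nonneg_left (mul_le_mul_of_nonneg_left hpw (by positivity)) hC0.le
              _ = A / 2 * l * (1 + Real.log l) ^ n₀ := by field_simp; ring
          linarith
      · have e : rect L x0 x1 y0 y1 = ∅ := by
          rw [Finset.eq_empty_iff_forall_notMem]
          intro p hp
          rw [b8_mem] at hp
          omega
        rw [e]
        linarith

end Vale.Agent.P356.NA
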